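import Crest.Agent.N250.A.A1
import Crest.Agent.N250.T.Same
import Crest.Agent.N250.A.Stm
import Crest.Agent.N250.SL.Stm
import Crest.Agent.N250.Min.Stm
import Crest.Agent.N250.T.Lim
import Crest.Agent.N250.T.SelfSim
import Crest.Agent.N250.FV.Main

-- ▼ part N250/A/Main
section

/-! # Row 250, block A (helper41): `AStmt` from the barrier -/

set_option autoImplicit false
open MeasureTheory Set Filter Topology Metric
open Crest.GeometryTopology.MCF

namespace Crest.Agent.N250.A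

/-- the Gaussian density ratios increase with the scale -/
lemma fg_mono (hH : HuiskenS) {F : Mv} {a Λ : ℝ} (hF : Fl F (Ioo a 0) Λ) (y : E) {r₁ r₂ : ℝ}
    (h0 : 0 < r₁) (h1 : r₁ ≤ r₂) (h2 : a < -r₂ ^ 2) : F.Fg (y, 0) r₁ ≤ F.Fg (y, 0) r₂ := by
  have h3 : r₁ ^ 2 ≤ r₂ ^ 2 := pow_le_pow_left₀ h0.le h1 2
  have h4 : 0 < r₁ ^ 2 := by positivity
  have := (hH F _ Λ isOpen_Ioo hF (y, 0) (0 - r₂ ^ 2) (0 - r₁ ^ 2) (by linarith) (by simpa using h4)
    fun t ht => ⟨by linarith [ht.1], by linarith [ht.2]⟩).1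
  simpa [Mv.Fg] using this

theorem aStmt_of (hS : StmS) (hB : BarS) (hF : FinS) (hW : W1S) (hH : HuiskenS) : AStmt := by
  intro F a Λ G hC
  obtain ⟨μ, hμ⟩ := hS F _ Λ isOpen_Ioo hC.fl
  obtain ⟨e, c, he, hc, hW⟩ := hW Λ
  obtain ⟨L, Λ', d, hL, hΛ', hd, h1⟩ := a1S_holds Λ e he
  obtain ⟨ε₁, hε₁, hB⟩ := hB F a Λ G μ hC hμ
  obtain ⟨ε₂, hε₂, hF⟩ := hF Λ G
  have hε : 0 < min ε₁ ε₂ := lt_min hε₁ hε₂
  obtain ⟨B, θ₀, hB0, hθ, hB⟩ := hB _ hε (min_le_left _ _)
  choose κ η L₁ hκ hκ1 hη hL₁ hF using fun R => hF _ B R L d Λ' hε (min_le_right _ _) hB0 hL hd hΛ'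
  refine ⟨⟨η, fun R => max (L₁ R) √(-a / θ₀), fun R => c * κ R, hη,
    fun R => le_max_of_le_left (by linarith [hL₁ R]), fun R => mul_pos hc (hκ R)⟩, ?_⟩
  intro R y r hr hI hdrop x hx hxy
  dsimp only at hI hdrop ⊢
  set K := max (L₁ R) √(-a / θ₀)
  have K1 : L₁ R ≤ K := le_max_left _ _
  have K2 : √(-a / θ₀) ≤ K := le_max_right _ _
  have l4 := hL₁ R
  have ha := hC.neg
  have k0 := hκ R
  have k1 := hκ1 R
  have r2 : 0 < r ^ 2 := by positivity
  have aK : (K * r) ^ 2 < -a := by linarith [hI.1]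
  have aL : (L₁ R * r) ^ 2 ≤ (K * r) ^ 2 := by gcongr
  have rθ : r ^ 2 ≤ θ₀ := by
    have h := pow_le_pow_left₀ (Real.sqrt_nonneg _) K2 2
    rw [Real.sq_sqrt (div_nonneg (by linarith) hθ.le), div_le_iff₀ hθ] at h
    have : 0 < K ^ 2 := by positivity
    rw [mul_pow] at aK
    nlinarith
  have r16 : 16 * r ^ 2 < -a := by
    have : (4 * r) ^ 2 ≤ (L₁ R * r) ^ 2 := by gcongr
    linarith
  have kr : (κ R * r) ^ 2 ≤ r ^ 2 := by
    rw [mul_pow]; exact mul_le_of_le_one_left r2.le (pow_le_one₀ k0.le k1)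
  have kr0 : 0 < κ R * r := mul_pos k0 hr
  obtain ⟨σ₀, hσ₀, hB⟩ := hB y (r ^ 2) r2 rθ
  have hσ : 0 < min σ₀ ((κ R * r) ^ 2) := lt_min hσ₀ (by positivity)
  have drop : F.Fg (y, 0) (L₁ R * r) - F.Fg (y, 0) (r / L₁ R) < η R := by
    have m1 := fg_mono hH hC.fl y (by positivity : 0 < L₁ R * r) (by gcongr : L₁ R * r ≤ K * r) hI.1
    have m2 := fg_mono hH hC.fl y (r₁ := r / K) (r₂ := r / L₁ R) (by positivity) (by gcongr) (by
      have : r / L₁ R ≤ r := div_le_self hr.le (by linarith)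
      have : (r / L₁ R) ^ 2 ≤ r ^ 2 := by gcongr
      linarith)
    linarith
  have hZ := hF R F a μ hC hμ y x r _ hr hσ (min_le_right _ _) (by linarith) drop hxy
  have hd1 := h1 F _ x _ _ hC.fl.mcf.1 hC.fl.ar kr0 (fun z hz _ hn => by
    have := hB _ hσ (min_le_left _ _) (z, _) hz (by dsimp only; linarith)
      (by dsimp only; nlinarith [sq_nonneg (κ R * r)])
    exact this.mono_reg hC.fl.mcf.1 hz (not_lt.1 hn)) hZ
  have := hW F a 0 _ x _ hC.fl kr0 (by linarith) (by linarith) hd1 (x, -r ^ 2)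
    ⟨hx, mem_ball_self (by positivity), by
      have : 0 < (c * (κ R * r)) ^ 2 := by positivity
      constructor <;> dsimp only <;> linarith⟩
  rwa [← mul_assoc] at this

end Crest.Agent.N250.A
end

-- ▼ part N250/A/AltII

/-!
# Row 250, block A (helper89): alternative II
-/

set_option autoImplicit false
open MeasureTheory Set Filter Topology Metric
open scoped ContDiff InnerProductSpace
open Crest.GeometryTopology.MCF

noncomputable section

namespace Crest.Agent.N250.A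

theorem freeze_A {F : Mv} (hF : F.Reg) {t : ℝ} {p : ST} (hp : (p.1, t) ∈ F.M) (a b : Fin 3) :
    (F.freeze t).A a b p = F.A a b (p.1, t) := SS.freeze_D hF (Tr.sm_nu hF b) hp a

theorem A2_eq (F : Mv) (p : ST) : F.A2 p = ∑ a, ∑ b, F.A a b p * F.A a b p := by
  simp [Mv.A2]

theorem A2_nn (F : Mv) (p : ST) : 0 ≤ F.A2 p := by
  rw [A2_eq]
  exact Finset.sum_nonneg fun _ _ => Finset.sum_nonneg fun _ _ => mul_self_nonneg _

theorem ulim {α X : Type} [TopologicalSpace X] (l : Ultrafilter α) {K : Set X} (hK : IsCompact K)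
    {f : α → X} (hf : ∀ᶠ k in (l : Filter α), f k ∈ K) : ∃ x ∈ K, Tendsto f l (𝓝 x) := by
  obtain ⟨x, hx, h⟩ := hK.ultrafilter_le_nhds' (l.map f) hf
  exact ⟨x, hx, h⟩

/-- atoms are locally finite -/
theorem atoms_fin {α : Type} (l : Ultrafilter α) (ν : α → Measure ST) {J : Set ℝ}
    (hJ : MeasurableSet J)
    (hb : ∀ D : ℝ, ∃ C : ℝ, ∀ᶠ k in (l : Filter α), ν k (ball 0 D ×ˢ J) ≤ ENNReal.ofReal C)
    (R : ℝ) : ({p : E | ∀ ρ, 0 < ρ → ¬ ∀ᶠ k in (l : Filter α),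
      ν k (ball p ρ ×ˢ J) ≤ ENNReal.ofReal 1} ∩ ball 0 R).Finite := by
  by_contra hinf
  obtain ⟨C, hC⟩ := hb (R + 1)
  obtain ⟨N, hN⟩ := exists_nat_gt (max C 0)
  obtain ⟨s, hs, hcard⟩ := Set.Infinite.exists_subset_card_eq hinf N
  obtain ⟨U, hU, hdis⟩ := s.finite_toSet.t2_separation
  have : ∀ x : E, ∃ ρ, 0 < ρ ∧ ρ ≤ 1 ∧ ball x ρ ⊆ U x := fun x => by
    obtain ⟨ρ, hρ, h⟩ := Metric.isOpen_iff.1 (hU x).2 x (hU x).1
    exact ⟨min ρ 1, by positivity, min_le_right _ _, (ball_subset_ball (min_le_left _ _)).trans h⟩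
  choose ρ hρ hρ1 hρU using this
  have h1 : ∀ᶠ k in (l : Filter α), ∀ x ∈ s, 1 ≤ ν k (ball x (ρ x) ×ˢ J) := by
    refine (eventually_all_finset s).2 fun x hx => ?_
    have := Ultrafilter.eventually_not.2 ((hs hx).1 (ρ x) (hρ x))
    filter_upwards [this] with k hk
    simpa using (not_le.1 hk).le
  obtain ⟨k, h1, h2⟩ := (h1.and hC).exists
  have h3 : ν k (⋃ x ∈ s, ball x (ρ x) ×ˢ J) = ∑ x ∈ s, ν k (ball x (ρ x) ×ˢ J) := by
    refine measure_biUnion_finset (fun x hx y hy hxy => ?_)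
      fun x _ => measurableSet_ball.prod hJ
    exact Set.disjoint_left.2 fun q h h' =>
      Set.disjoint_left.1 (hdis hx hy hxy) (hρU x h.1) (hρU y h'.1)
  have h4 : (⋃ x ∈ s, ball x (ρ x) ×ˢ J) ⊆ ball 0 (R + 1) ×ˢ J := by
    refine iUnion₂_subset fun x hx => Set.prod_mono (ball_subset_ball' ?_) le_rfl
    have := mem_ball.1 (hs hx).2
    linarith [hρ1 x]
  have h5 : (N : ENNReal) ≤ ENNReal.ofReal C := by
    calc (N : ENNReal) = ∑ _x ∈ s, (1 : ENNReal) := by simp [hcard]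
      _ ≤ _ := Finset.sum_le_sum h1
      _ ≤ _ := h3 ▸ (measure_mono h4).trans h2
  rw [← ENNReal.ofReal_natCast] at h5
  have h6 := (ENNReal.ofReal_lt_ofReal_iff (p := C) (q := N)
    ((le_max_right _ _).trans_lt hN)).2 ((le_max_left _ _).trans_lt hN)
  exact absurd h5 (not_le.2 h6)

/-- a curved point of the limit gives curvature mass at all times -/
theorem mass_low (hMu : ConvMuS) {α : Type} (l : Ultrafilter α) {F : α → Mv} {S : Mv}
    (hS : S.Reg) (hc : IsClosed S.M) (hF : ∀ᶠ k in (l : Filter α), (F k).Reg)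
    (hconv : ∀ (tk : α → ℝ) (t : ℝ), t ≤ 0 → Tendsto tk l (𝓝 t) →
      Conv l (fun k => (F k).freeze (tk k)) S univ)
    {x : E} (hx : (x, 0) ∈ S.M) (hA : 0 < S.A2 (x, 0)) {D : ℝ} (hD : ‖x‖ + 1 < D) :
    ∃ γ : ℝ, 0 < γ ∧ ∀ T : ℝ, ∀ᶠ k in (l : Filter α), ∀ t ∈ Icc T (-1), ENNReal.ofReal γ ≤
      ∫⁻ y, ENNReal.ofReal ((ball (0 : E) D ×ˢ univ).indicator (F k).A2 (y, t)) ∂(F k).mu t := by
  set χ : ST → ℝ := fun q => max 0 (1 - dist q (x, 0)) with hχ
  have hχc : Continuous χ := by fun_prop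
  have hχ0 : ∀ q, 0 ≤ χ q := fun q => le_max_left _ _
  have hχ1 : ∀ q, χ q ≤ 1 := fun q => max_le zero_le_one (by linarith [dist_nonneg (x := q) (y := (x, 0))])
  have hχz : ∀ q, q ∉ closedBall ((x, 0) : ST) 1 → χ q = 0 := fun q hq =>
    max_eq_left (by linarith [not_le.1 (mem_closedBall.not.1 hq)])
  have hA2 : ContinuousOn S.A2 S.M := by
    have : S.A2 = fun p => ∑ a, ∑ b, S.A a b p * S.A a b p := funext (A2_eq S)
    rw [this]
    exact continuousOn_finsetSum _ fun a _ => continuousOn_finsetSum _ fun b _ =>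
      (hS.smA a b).continuousOn.mul (hS.smA a b).continuousOn
  have hf : ContinuousOn (fun q => χ q * S.A2 q) S.M := hχc.continuousOn.mul hA2
  have hint := FV.intg' hS hf (t := 0) ⟨closedBall (x, 0) 1 ∩ S.M,
    (isCompact_closedBall _ _).inter_right hc, inter_subset_right, fun p hp _ h => by
      simp only [hχz p fun h' => h ⟨h', hp⟩, zero_mul]⟩
  have hpos : 0 < ∫ y, χ (y, 0) * S.A2 (y, 0) ∂S.mu 0 := by
    rw [integral_pos_iff_support_of_nonneg (fun y => mul_nonneg (hχ0 _) (A2_nn _ _)) hint]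
    have h1 : ∀ᶠ q in 𝓝[S.M] ((x, 0) : ST), 0 < χ q * S.A2 q :=
      (hf _ hx).eventually (lt_mem_nhds (by simpa [hχ] using hA))
    rw [eventually_nhdsWithin_iff] at h1
    have h2 := (Continuous.prodMk_left (0 : ℝ)).continuousAt (x := x) |>.eventually h1
    refine (hS.mu_pos hx h2).trans_le (measure_mono_ae ?_)
    filter_upwards [FV.ae_sl hS 0] with y hy h
    exact (h hy).ne'
  refine ⟨_, half_pos hpos, fun T => ?_⟩
  by_contra hbad
  have h1 := Ultrafilter.eventually_not.2 hbad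
  simp only [not_forall, not_le, exists_prop] at h1
  obtain ⟨tk, htk⟩ := h1.choice
  obtain ⟨t, ht, hlim⟩ := ulim l isCompact_Icc (htk.mono fun k h => h.1)
  have h2 := hMu α l _ S univ (closedBall (x, 0) 1) isOpen_univ
    (hconv tk t (by linarith [ht.2]) hlim) (isCompact_closedBall _ _) (subset_univ _)
    (fun q => χ q.1 * ∑ a, ∑ b, q.2.2 a b * q.2.2 a b) (by fun_prop)
    (fun q hq => by rw [hχz _ hq, zero_mul]) (fun _ => 0) 0 tendsto_const_nhds
  simp only [← A2_eq] at h2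
  obtain ⟨k, h3, h4, h5⟩ := ((h2.eventually (lt_mem_nhds (half_lt_self hpos))).and
    (htk.and hF)).exists
  refine absurd h4.2 (not_lt.2 ((ENNReal.ofReal_le_ofReal h3.le).trans ?_))
  refine (ENNReal.ofReal_le_ofReal (le_abs_self _)).trans ?_
  rw [← Real.enorm_eq_ofReal_abs]
  refine (enorm_integral_le_lintegral_enorm _).trans (lintegral_mono_ae ?_)
  filter_upwards [FV.ae_sl h5 (tk k)] with y hy
  have e : ((F k).freeze (tk k)).A2 (y, 0) = (F k).A2 (y, tk k) := by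
    simp only [A2_eq, freeze_A h5 (p := (y, 0)) hy]
  rw [e, Real.enorm_eq_ofReal (mul_nonneg (hχ0 _) (A2_nn _ _))]
  refine ENNReal.ofReal_le_ofReal ?_
  by_cases h : ((y, 0) : ST) ∈ closedBall ((x, 0) : ST) 1
  · have : (y, tk k) ∈ ball (0 : E) D ×ˢ (univ : Set ℝ) := by
      refine ⟨mem_ball_zero_iff.2 ?_, trivial⟩
      have h6 : dist y x ≤ 1 := (le_max_left _ _).trans (mem_closedBall.1 h)
      have := norm_le_norm_add_norm_sub' y x
      rw [dist_eq_norm] at h6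
      linarith
    rw [indicator_of_mem this]
    exact mul_le_of_le_one_left (A2_nn _ _) (hχ1 _)
  · rw [hχz _ h, zero_mul]
    exact indicator_nonneg (fun q _ => A2_nn _ _) _

theorem altIIS_of (hM : KMassS) (hAt : KAtS) (hSp : KSphS) (hA1 : A1S) (hSL : SLimS)
    (hFl : FlatS) (hInf : Min.InfS) (hSph : Min.SphS) (hJ : ConvJetS) (hMu : ConvMuS)
    (hR : ConvReachS) : AltIIS := by
  intro Λ G ε K η Λ₀ hε hη
  by_contra hcon
  push Not at hcon
  choose F ν σ B R hB hRn hc hT x hx hxK hA using fun n : ℕ => hcon n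
  set l : Ultrafilter ℕ := hyperfilter ℕ
  have hl : (l : Filter ℕ) ≤ atTop := Nat.hyperfilter_le_atTop
  have hRt : Tendsto R l atTop :=
    (tendsto_atTop_mono hRn tendsto_natCast_atTop_atTop).mono_left hl
  have hBt : Tendsto B l atTop :=
    (tendsto_atTop_mono hB tendsto_natCast_atTop_atTop).mono_left hl
  choose a b ha hb hfl using fun n => (hc n).fl
  have hreg : ∀ n, (F n).Reg := fun n => (hfl n).mcf.1
  have hT1 : ∀ᶠ n in (l : Filter ℕ), TT (ν n) (σ n) 1 ≤ Λ₀ := by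
    filter_upwards [hRt.eventually_ge_atTop 1] with n hn
    simpa using hT n 0 (by simpa using hn)
  have hmass : ∀ D a₀ : ℝ, 0 < D → 0 < a₀ → ∃ C : ℝ, ∀ᶠ n in (l : Filter ℕ),
      ν n (ball 0 D ×ˢ Icc (-D ^ 2) (-a₀)) ≤ ENNReal.ofReal C := fun D a₀ hD h₀ => by
    obtain ⟨C, hC, h⟩ := hM D a₀ hD h₀
    refine ⟨C * Λ₀, hT1.mono fun n hn => ?_⟩
    have := (hc n).fin
    exact (h (ν n) (σ n) (hc n).σ_pos (hc n).σ_le).trans
      (ENNReal.ofReal_le_ofReal (mul_le_mul_of_nonneg_left hn hC.le))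
  have hH : H2Van l F := by
    intro D t₁ t₂ ht₂
    set D' := |D| + |t₁| + 1 with hD'
    have h0 : 1 ≤ D' := by linarith [abs_nonneg D, abs_nonneg t₁]
    have h1 : -D' ^ 2 ≤ t₁ := by nlinarith [neg_abs_le t₁, abs_nonneg D]
    have h2 : D ≤ D' := by linarith [le_abs_self D, abs_nonneg t₁]
    obtain ⟨C, hC⟩ := hmass D' (-t₂) (by linarith) (by linarith)
    have h3 : Tendsto (fun n => ENNReal.ofReal (B n)⁻¹ *
        (ENNReal.ofReal C + ENNReal.ofReal (D ^ 2 * (t₂ - t₁)))) l (𝓝 0) := by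
      have := ENNReal.Tendsto.mul_const (ENNReal.tendsto_ofReal hBt.inv_tendsto_atTop)
        (b := ENNReal.ofReal C + ENNReal.ofReal (D ^ 2 * (t₂ - t₁))) (Or.inr (by simp))
      simpa using this
    refine tendsto_of_tendsto_of_tendsto_of_le_of_le' tendsto_const_nhds h3
      (Eventually.of_forall fun _ => zero_le) ?_
    filter_upwards [hC, hRt.eventually_ge_atTop D'] with n h4 h5
    refine ((hc n).domH D t₁ t₂ (h2.trans h5) (by nlinarith) ht₂.le).trans ?_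
    gcongr
    refine (measure_mono (Set.prod_mono (ball_subset_ball h2) fun t ht => ?_)).trans h4
    exact ⟨h1.trans ht.1.le, by linarith [ht.2]⟩
  obtain ⟨e, he, hSL⟩ := hSL Λ
  obtain ⟨L, Λ', d, hL, hΛ', hd, hA1⟩ := hA1 Λ e he
  obtain ⟨S, hS, hSG, -, hconv, -⟩ := hSL G ℕ l F a b
    {p : E | ∀ ρ, 0 < ρ → ¬ ∀ᶠ k in (l : Filter ℕ),
      ν k (ball p ρ ×ˢ Icc (-(4 * 1)) (-1)) ≤ ENNReal.ofReal 1}
    (Eventually.of_forall fun n => ⟨hfl n, (hc n).lgb, hb n⟩)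
    (by
      refine tendsto_atBot_mono' _ ?_ (tendsto_neg_atTop_atBot.comp hRt)
      filter_upwards [hRt.eventually_ge_atTop 1] with n hn
      have := ha n
      simp only [Function.comp]
      nlinarith)
    hH
    (atoms_fin l ν measurableSet_Icc fun D => by
      obtain ⟨C, hC⟩ := hmass (|D| + 2) 1 (by positivity) one_pos
      refine ⟨C, hC.mono fun n hn => (measure_mono (Set.prod_mono (ball_subset_ball ?_)
        (Icc_subset_Icc_left ?_))).trans hn⟩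
      · linarith [le_abs_self D]
      · nlinarith [abs_nonneg D])
    (by
      intro p hp
      simp only [mem_ofPred_eq, not_forall, not_not, exists_prop] at hp
      obtain ⟨ρ, hρ, hp⟩ := hp
      obtain ⟨r, hr, h⟩ := hAt (max Λ 0) L d Λ' Λ₀ 1 ρ ‖p‖ (le_max_right _ _) hL hd hΛ' le_rfl hρ
      refine ⟨r, -(2 * 1), -1, hr, by norm_num, ?_⟩
      filter_upwards [hp, hT1, hRt.eventually_ge_atTop (‖p‖ + L * r), hRt.eventually_ge_atTop 2]
        with n h1 h2 h3 h4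
      have := (hc n).fin
      obtain ⟨s, hs, h5⟩ := h r hr le_rfl (ν n) (σ n) p (hc n).σ_pos (hc n).σ_le le_rfl h2 h1
      refine ⟨s, hs, hA1 (F n) s p r _ (hreg n) (hfl n).ar hr (fun y hy h6 h7 => ?_)
        (h5 _ fun y r hr => ((hfl n).ar s y r hr).trans (ENNReal.ofReal_le_ofReal
          (mul_le_mul_of_nonneg_right (le_max_left _ _) (sq_nonneg _))))⟩
      refine ((hc n).good (y, s) hy ?_ ⟨by nlinarith [hs.1], hs.2⟩).1.mono_reg (hreg n) hy
        (not_lt.1 h7)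
      have := norm_le_norm_add_norm_sub' y p
      rw [dist_eq_norm] at h6
      simp only
      linarith)
  -- the limit point is curved
  obtain ⟨x₀, hx₀, hlim⟩ := ulim l (isCompact_closedBall (0 : E) K)
    (Eventually.of_forall fun n => mem_closedBall_zero_iff.2 (hxK n))
  obtain ⟨hxS, -, hjet⟩ := (hJ ℕ l _ S univ (hconv (fun _ => 0) 0 le_rfl tendsto_const_nhds)).1
    (fun n => (x n, 0)) (x₀, 0) trivial (hlim.prodMk_nhds tendsto_const_nhds)
    (Eventually.of_forall hx)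
  have hA0 : η ≤ S.A2 (x₀, 0) := by
    have h1 : ∀ a b, Tendsto (fun n => (F n).A a b (x n, 0)) l (𝓝 (S.A a b (x₀, 0))) :=
      fun a b => (hjet [a] b).congr fun n => freeze_A (hreg n) (p := (x n, 0)) (hx n) a b
    have h2 : Tendsto (fun n => (F n).A2 (x n, 0)) l (𝓝 (S.A2 (x₀, 0))) := by
      simp only [A2_eq]
      exact tendsto_finsetSum _ fun a _ => tendsto_finsetSum _ fun b _ => (h1 a b).mul (h1 a b)
    exact ge_of_tendsto' h2 fun n => (hA n).le
  obtain ⟨γ, hγ, hlow⟩ := mass_low hMu l hS.reg hS.closed (Eventually.of_forall hreg) hconv hxS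
    (hη.trans_le hA0) (D := ‖x₀‖ + 2) (by linarith)
  obtain ⟨c, β, hc0, hβ, hSp⟩ := hSp Λ₀ (ε / 2 * γ) (‖x₀‖ + 2) (by positivity) (by positivity)
  have hfreq : ∃ᶠ ρ in atTop, ∀ y ∈ S.sl 0, dist y 0 = ρ → S.PL (y, 0) (y - 0) ≠ 0 →
      S.Reach (y, 0) (c / 2 * ρ ^ β) := by
    rw [frequently_atTop]
    intro ρ₀
    obtain ⟨τ, N, hτ, hSp⟩ := hSp (max ρ₀ 1)
    have h1 : ∀ᶠ n in (l : Filter ℕ), ∃ z : ℝ × ℝ, z ∈ Icc (max ρ₀ 1) τ ×ˢ Icc (-τ ^ 2) (-1) ∧
        ∀ y : E, ‖y‖ = z.1 → c * z.1 ^ β ≤ rad (ν n) (σ n) (y, z.2) := by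
      filter_upwards [hlow (-τ ^ 2), hRt.eventually_ge_atTop ((8 : ℝ) ^ N),
        hRt.eventually_ge_atTop τ, hRt.eventually_ge_atTop (‖x₀‖ + 2)] with n h1 h2 h3 h4
      have := (hc n).fin
      obtain ⟨ρ, hρ, s, hs, h⟩ := hSp (ν n) (σ n) (hc n).σ_pos (hc n).σ_le
        (fun k hk => hT n k ((pow_le_pow_right₀ (by norm_num) hk).trans h2))
        (fun t₁ t₂ h5 h6 h7 => by
          refine le_trans ?_ ((hc n).domA _ t₁ t₂ h4 (by nlinarith) (by linarith))
          rw [mul_assoc, ENNReal.ofReal_mul (by positivity), ENNReal.ofReal_mul hγ.le]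
          refine mul_le_mul' le_rfl ?_
          rw [← Real.volume_Ioo, ← setLIntegral_const]
          exact setLIntegral_mono' measurableSet_Ioo fun t ht =>
            h1 t ⟨h5.trans ht.1.le, ht.2.le.trans h7⟩)
      exact ⟨(ρ, s), ⟨hρ, hs⟩, h⟩
    obtain ⟨z, hz⟩ := h1.choice
    obtain ⟨⟨ρ, s⟩, ⟨hρ, hs⟩, hzl⟩ := ulim l (isCompact_Icc.prod isCompact_Icc)
      (hz.mono fun k h => h.1)
    have hρ0 : 0 < ρ := by linarith [hρ.1, le_max_right ρ₀ 1]
    have hz1 : Tendsto (fun n => (z n).1) l (𝓝 ρ) := (continuous_fst.tendsto _).comp hzl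
    have hz2 : Tendsto (fun n => (z n).2) l (𝓝 s) := (continuous_snd.tendsto _).comp hzl
    have hcv := hconv _ s (by linarith [hs.2]) hz2
    refine ⟨ρ, (le_max_left _ _).trans hρ.1, fun y hy hyρ hyt => ?_⟩
    obtain ⟨yk, hyk, hyM⟩ := hSph ℕ l _ S univ hcv y 0 0 (fun _ => 0) (fun n => (z n).1) trivial hy
      hyt tendsto_const_nhds (hyρ ▸ hz1)
    have hpos : 0 < ρ ^ β := Real.rpow_pos_of_pos hρ0 β
    refine (hR ℕ l _ S univ isOpen_univ hcv (fun n => (yk n, 0)) (y, 0) _ (by positivity)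
      (hyk.prodMk_nhds tendsto_const_nhds) (hyM.mono fun k h => h.1) (subset_univ _)).1 ?_
    have h2 : ∀ᶠ n in (l : Filter ℕ), c / 2 * ρ ^ β < c * (z n).1 ^ β :=
      ((hz1.rpow_const (Or.inl hρ0.ne')).const_mul c).eventually (lt_mem_nhds (by nlinarith))
    filter_upwards [hz, hyM, h2, hRt.eventually_ge_atTop τ] with n h3 h4 h5 h6
    have h7 : ‖yk n‖ = (z n).1 := by simpa using h4.2
    have h8 : (yk n, (z n).2) ∈ (F n).M := h4.1
    exact ((hc n).good (yk n, (z n).2) h8 (h7 ▸ h3.1.1.2.trans h6)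
      ⟨by nlinarith [h3.1.2.1], h3.1.2.2⟩).1.mono_reg (hreg n) h8 (h5.le.trans (h3.2 _ h7))
  have hinf := hInf S Λ 0 0 (c / 2) β ⟨hS.reg, hS.st, hS.min, hS.ar⟩ (by positivity) hβ
    (fun p hp _ => hS.closed.closure_subset hp)
    (((setLIntegral_le_lintegral _ _).trans hSG).trans_lt ENNReal.ofReal_lt_top).ne hfreq
  have := (hFl S Λ 0 hS (fun ε hε => (hinf ε hε).frequently) _ hxS).1
  linarith

end Crest.Agent.N250.A

end
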