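import Crest.Agent.N250.FV.Hu1
import Crest.Agent.N250.FV.Ch
import Crest.Agent.N250.Re.Ring
import Crest.Agent.N250.T.FsC

/-!
# Row 250 (helper72): lower density, second order jets of products, static surfaces
-/

set_option autoImplicit false
open MeasureTheory Set Filter Topology Metric
open scoped ContDiff InnerProductSpace Pointwise
open Crest.GeometryTopology.MCF

noncomputable section

namespace Crest.Agent.N250.CS

variable {F : Mv} {p : ST}

/-- lower area density at a point of the surface -/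
theorem low_dens (hF : F.Reg) (hp : p ∈ F.M) :
    ∀ᶠ r in 𝓝[>] (0 : ℝ), ENNReal.ofReal (r ^ 2 / 2) ≤ F.mu p.2 (ball p.1 r) := by
  obtain ⟨X, U, W, Li, hW, hLi, h⟩ := FV.exists_ch' hF hp
  set L := ContinuousLinearMap.adjoint Li.toContinuousLinearMap with hL
  have hU : (L p.1, p.2) ∈ U := h.inU p hp hW
  have hX : X (L p.1, p.2) = p.1 := h.right p hp hW
  have hPs : FV.Ps X (L p.1, p.2) = p := by simp [FV.Ps, hX]
  have hLL : ∀ u, L (Li u) = u := by
    intro u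
    apply ext_inner_left ℝ
    intro v
    rw [hL, ContinuousLinearMap.adjoint_inner_right]
    simp
  have hJ : ∀ v, ‖FV.Jz X (L p.1, p.2) v‖ = ‖v‖ := by
    intro v
    have h1 := h.n_Jz hF hU v
    rw [hPs] at h1
    obtain ⟨u, hu⟩ := (hLi _).1 h1
    have h2 := h.L_fd hU (v, 0)
    rw [← FV.Jz_apply, ← hu, hLL] at h2
    rw [← hu, Li.norm_map, h2]
  have hd : HasFDerivAt (fun z => X (z, p.2)) (FV.Jz X (L p.1, p.2)) (L p.1) :=
    (h.hasXt p.2 _ hU).hasFDerivAt ((h.oUt p.2).mem_nhds hU)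
  have h1 : ∀ᶠ z in 𝓝 (L p.1), (z, p.2) ∈ U ∧ ‖X (z, p.2) - p.1‖ ≤ 2 * ‖z - L p.1‖ := by
    filter_upwards [(h.oUt p.2).mem_nhds hU, hd.isLittleO.def one_pos] with z hz h2
    refine ⟨hz, ?_⟩
    rw [hX, one_mul] at h2
    have h3 := norm_add_le (X (z, p.2) - p.1 - FV.Jz X (L p.1, p.2) (z - L p.1))
      (FV.Jz X (L p.1, p.2) (z - L p.1))
    rw [sub_add_cancel, hJ] at h3
    linarith
  obtain ⟨δ, hδ, h2⟩ := Metric.eventually_nhds_iff.1 h1
  have hL1 : LipschitzWith 1 L := by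
    have : ‖L‖ ≤ 1 := by
      rw [hL, LinearIsometryEquiv.norm_map]
      exact Li.norm_toContinuousLinearMap_le
    exact L.lipschitz.weaken (by exact_mod_cast this)
  filter_upwards [Ioo_mem_nhdsGT hδ] with r hr
  have hsub : ball (L p.1) (r / 2) ⊆ L '' (ball p.1 r ∩ F.sl p.2) := by
    intro z hz
    have hz' : dist z (L p.1) < r / 2 := hz
    obtain ⟨h3, h4⟩ := h2 (y := z) (by linarith [hr.1, hr.2])
    refine ⟨X (z, p.2), ⟨?_, h.mem _ h3⟩, h.left _ h3⟩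
    rw [mem_ball, dist_eq_norm]
    rw [dist_eq_norm] at hz'
    linarith
  have h5 : (μHE[2] : Measure FV.E2) (L '' (ball p.1 r ∩ F.sl p.2)) ≤
      (μHE[2] : Measure E) (ball p.1 r ∩ F.sl p.2) := by
    have := hL1.hausdorffMeasure_image_le (d := ((2 : ℕ) : ℝ)) (by positivity)
      (ball p.1 r ∩ F.sl p.2)
    simp only [Measure.euclideanHausdorffMeasure_def, Measure.smul_apply, ENNReal.smul_def,
      smul_eq_mul]
    refine mul_le_mul_right ?_ _
    simpa using this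
  rw [Mv.mu, Measure.restrict_apply measurableSet_ball]
  refine le_trans ?_ ((measure_mono hsub).trans h5)
  rw [EuclideanSpace.euclideanHausdorffMeasure_eq_volume, EuclideanSpace.volume_ball_fin_two,
    ← ENNReal.ofReal_pow (by linarith [hr.1]), ← ENNReal.ofReal_mul (by positivity)]
  refine ENNReal.ofReal_le_ofReal ?_
  nlinarith [Real.pi_gt_three, sq_nonneg r]

/-! ### pointwise rules -/

variable {f g : ST → ℝ}

theorem cs_D_add (hF : F.Reg) (hp : p ∈ F.M) (hf : F.Sm f) (hg : F.Sm g) (a : Fin 3) :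
    F.D a (f + g) p = F.D a f p + F.D a g p :=
  hF.td_add hp (hf.diffW hp) (hg.diffW hp) (hF.tg_PL hp _)

theorem cs_D_mul (hF : F.Reg) (hp : p ∈ F.M) (hf : F.Sm f) (hg : F.Sm g) (a : Fin 3) :
    F.D a (f * g) p = f p * F.D a g p + F.D a f p * g p :=
  hF.td_mul hp (hf.diffW hp) (hg.diffW hp) (hF.tg_PL hp _)

theorem cs_D_const (hF : F.Reg) (hp : p ∈ F.M) (c : ℝ) (a : Fin 3) :
    F.D a (fun _ => c) p = 0 :=
  hF.td_const hp c (hF.tg_PL hp _)

theorem cs_sm_comp {χ : ℝ → ℝ} (hχ : ContDiff ℝ ∞ χ) (hf : F.Sm f) : F.Sm fun q => χ (f q) :=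
  hχ.comp_contDiffOn hf

theorem cs_D_comp (hF : F.Reg) (hp : p ∈ F.M) {χ : ℝ → ℝ} (hχ : ContDiff ℝ ∞ χ) (hf : F.Sm f)
    (a : Fin 3) : F.D a (fun q => χ (f q)) p = deriv χ (f p) * F.D a f p :=
  hF.td_comp1 hp (hf.diffW hp) ((hχ.differentiable (by simp)) _).hasDerivAt (hF.tg_PL hp _)

theorem abs_nu (hF : F.Reg) (hp : p ∈ F.M) (a : Fin 3) : |F.nu a p| ≤ 1 := by
  have h := hF.nn hp
  have h2 : F.nu a p * F.nu a p ≤ ∑ b, F.nu b p * F.nu b p :=
    Finset.single_le_sum (f := fun b => F.nu b p * F.nu b p) (fun b _ => mul_self_nonneg _)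
      (Finset.mem_univ a)
  rw [h] at h2
  exact abs_le_one_iff_mul_self_le_one.2 h2

theorem A2_nonneg (F : Mv) (p : ST) : 0 ≤ F.A2 p := by
  simp only [Mv.A2, Finset.sum_apply, Pi.mul_apply]
  exact Finset.sum_nonneg fun a _ => Finset.sum_nonneg fun b _ => mul_self_nonneg _

/-- bounds for the value and two tangential derivatives at inverse scale `l` -/
structure J (F : Mv) (p : ST) (l : ℝ) (f : ST → ℝ) (a : ℝ) : Prop where
  sm : F.Sm f
  h0 : |f p| ≤ a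
  h1 : ∀ i, |F.D i f p| ≤ a * l
  h2 : ∀ i j, |F.D j (F.D i f) p| ≤ a * l ^ 2

variable {l a b : ℝ}

theorem J.nonneg (h : J F p l f a) : 0 ≤ a := (abs_nonneg _).trans h.h0

theorem abs_mul_le {x y a b : ℝ} (h1 : |x| ≤ a) (h2 : |y| ≤ b) : |x * y| ≤ a * b := by
  rw [abs_mul]
  exact mul_le_mul h1 h2 (abs_nonneg _) ((abs_nonneg _).trans h1)

theorem J.add (hF : F.Reg) (hp : p ∈ F.M) (hf : J F p l f a) (hg : J F p l g b) :
    J F p l (f + g) (a + b) where
  sm := hf.sm.add hg.sm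
  h0 := (abs_add_le _ _).trans (add_le_add hf.h0 hg.h0)
  h1 i := by
    rw [cs_D_add hF hp hf.sm hg.sm, add_mul]
    exact (abs_add_le _ _).trans (add_le_add (hf.h1 i) (hg.h1 i))
  h2 i j := by
    rw [Mv.D_congr' hp (g := F.D i f + F.D i g) fun q hq => cs_D_add hF hq hf.sm hg.sm i,
      cs_D_add hF hp (hF.sm_D hf.sm i) (hF.sm_D hg.sm i), add_mul]
    exact (abs_add_le _ _).trans (add_le_add (hf.h2 i j) (hg.h2 i j))

theorem J.mul (hF : F.Reg) (hp : p ∈ F.M) (hl : 0 ≤ l) (hf : J F p l f a) (hg : J F p l g b) :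
    J F p l (f * g) (4 * (a * b)) where
  sm := hf.sm.mul hg.sm
  h0 := by
    have := abs_mul_le hf.h0 hg.h0
    have h2 := mul_nonneg hf.nonneg hg.nonneg
    rw [Pi.mul_apply]
    linarith
  h1 i := by
    rw [cs_D_mul hF hp hf.sm hg.sm]
    have h1 := abs_mul_le hf.h0 (hg.h1 i)
    have h2 := abs_mul_le (hf.h1 i) hg.h0
    have h3 := mul_nonneg (mul_nonneg hf.nonneg hg.nonneg) hl
    refine (abs_add_le _ _).trans ?_
    nlinarith
  h2 i j := by
    rw [Mv.D_congr' hp (g := f * F.D i g + F.D i f * g) fun q hq => cs_D_mul hF hq hf.sm hg.sm i,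
      cs_D_add hF hp (hf.sm.mul (hF.sm_D hg.sm i)) ((hF.sm_D hf.sm i).mul hg.sm),
      cs_D_mul hF hp hf.sm (hF.sm_D hg.sm i), cs_D_mul hF hp (hF.sm_D hf.sm i) hg.sm]
    have h1 := abs_mul_le hf.h0 (hg.h2 i j)
    have h2 := abs_mul_le (hf.h1 j) (hg.h1 i)
    have h3 := abs_mul_le (hf.h1 i) (hg.h1 j)
    have h4 := abs_mul_le (hf.h2 i j) hg.h0
    refine (abs_add_le _ _).trans ((add_le_add (abs_add_le _ _) (abs_add_le _ _)).trans ?_)
    nlinarith

theorem J.sum3 (hF : F.Reg) (hp : p ∈ F.M) {f : Fin 3 → ST → ℝ} (hf : ∀ i, J F p l (f i) a) :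
    J F p l (∑ i, f i) (3 * a) := by
  rw [Fin.sum_univ_three]
  convert ((hf 0).add hF hp (hf 1)).add hF hp (hf 2) using 1
  ring

theorem J.comp (hF : F.Reg) (hp : p ∈ F.M) (hl : 0 ≤ l) {χ : ℝ → ℝ} (hχ : ContDiff ℝ ∞ χ) {K : ℝ}
    (hf : J F p l f a) (h0 : |χ (f p)| ≤ K) (h1 : |deriv χ (f p)| ≤ K)
    (h2 : |deriv (deriv χ) (f p)| ≤ K) : J F p l (fun q => χ (f q)) (K * (1 + a + a ^ 2)) where
  sm := cs_sm_comp hχ hf.sm
  h0 := by
    have hK := (abs_nonneg _).trans h0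
    have := mul_nonneg hK (add_nonneg hf.nonneg (sq_nonneg a))
    linarith
  h1 i := by
    have hK := (abs_nonneg _).trans h0
    rw [cs_D_comp hF hp hχ hf.sm]
    have h3 := abs_mul_le h1 (hf.h1 i)
    have := mul_nonneg (mul_nonneg hK (add_nonneg zero_le_one (sq_nonneg a))) hl
    nlinarith
  h2 i j := by
    have hK := (abs_nonneg _).trans h0
    have hχ' : ContDiff ℝ ∞ (deriv χ) := hχ.deriv'
    rw [Mv.D_congr' hp (g := (fun q => deriv χ (f q)) * F.D i f)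
        fun q hq => cs_D_comp hF hq hχ hf.sm i,
      cs_D_mul hF hp (cs_sm_comp hχ' hf.sm) (hF.sm_D hf.sm i), cs_D_comp hF hp hχ' hf.sm]
    have h3 := abs_mul_le h1 (hf.h2 i j)
    have h4 := abs_mul_le (abs_mul_le h2 (hf.h1 j)) (hf.h1 i)
    have := mul_nonneg hK (sq_nonneg l)
    refine (abs_add_le _ _).trans ?_
    nlinarith

theorem J.lap (hf : J F p l f a) : |F.lap f p| ≤ 3 * (a * l ^ 2) := by
  rw [Hu.lap_eq, Fin.sum_univ_three]
  have := hf.h2 0 0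
  have := hf.h2 1 1
  have := hf.h2 2 2
  refine (abs_add_le _ _).trans ((add_le_add (abs_add_le _ _) le_rfl).trans ?_)
  linarith

/-- the second fundamental form -/
theorem J_A (hF : F.Reg) {K : ℝ} (h1 : F.NJet 1 (K * l) p) (h2 : F.NJet 2 (K * l ^ 2) p)
    (h3 : F.NJet 3 (K * l ^ 3) p) (i j : Fin 3) : J F p l (F.A i j) (K * l) where
  sm := hF.sm_A i j
  h0 := h1 j [i] rfl
  h1 k := (h2 j [k, i] rfl).trans (le_of_eq (by ring))
  h2 k m := (h3 j [m, k, i] rfl).trans (le_of_eq (by ring))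

theorem J_A2 (hF : F.Reg) (hp : p ∈ F.M) (hl : 0 ≤ l) {K : ℝ} (h1 : F.NJet 1 (K * l) p)
    (h2 : F.NJet 2 (K * l ^ 2) p) (h3 : F.NJet 3 (K * l ^ 3) p) :
    J F p l F.A2 (36 * (K * l) ^ 2) := by
  rw [show 36 * (K * l) ^ 2 = 3 * (3 * (4 * (K * l * (K * l)))) by ring]
  exact J.sum3 hF hp fun i => J.sum3 hF hp fun j =>
    (J_A hF h1 h2 h3 i j).mul hF hp hl (J_A hF h1 h2 h3 i j)

/-- scaled coordinates -/
def co (c : E) (l : ℝ) (a : Fin 3) (q : ST) : ℝ := l * (q.1 - c) a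

theorem co_sm (F : Mv) (c : E) (l : ℝ) (a : Fin 3) : F.Sm (co c l a) :=
  (Mv.sm_const l).mul (Hu.sm_co F c a)

theorem D_co (hF : F.Reg) (hp : p ∈ F.M) (c : E) (l : ℝ) (i a : Fin 3) :
    F.D i (co c l a) p = l * ((if i = a then 1 else 0) - F.nu i p * F.nu a p) := by
  have h1 : co c l a = (fun _ => l) * (F.pre.x a + fun _ => -c a) := by
    funext q
    simp [co, Mv.pre, sub_eq_add_neg]
  rw [h1, cs_D_mul hF hp (Mv.sm_const l) ((Mv.sm_x a).add (Mv.sm_const _)),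
    cs_D_add hF hp (Mv.sm_x a) (Mv.sm_const _), cs_D_const hF hp, cs_D_const hF hp,
    ← hF.P_eq hp]
  simp [N222.Pre.P]

theorem J_co (hF : F.Reg) (hp : p ∈ F.M) (hl : 0 ≤ l) {K : ℝ} (hK : 1 ≤ K)
    (h1 : F.NJet 1 (K * l) p) {c : E} (hc : l * ‖p.1 - c‖ ≤ 1) (a : Fin 3) :
    J F p l (co c l a) (2 * K) where
  sm := co_sm F c l a
  h0 := by
    have h2 : |(p.1 - c) a| ≤ ‖p.1 - c‖ := by
      simpa using PiLp.norm_apply_le (p.1 - c) a
    rw [co, abs_mul, abs_of_nonneg hl]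
    nlinarith [mul_le_mul_of_nonneg_left h2 hl]
  h1 i := by
    rw [D_co hF hp, abs_mul, abs_of_nonneg hl]
    have h2 := abs_mul_le (abs_nu hF hp i) (abs_nu hF hp a)
    have h3 : |(if i = a then (1 : ℝ) else 0)| ≤ 1 := by split_ifs <;> simp
    have h4 := (abs_sub _ _).trans (add_le_add h3 h2)
    nlinarith [mul_le_mul_of_nonneg_left h4 hl]
  h2 i j := by
    rw [Mv.D_congr' hp (g := (fun _ => l * if i = a then 1 else 0) +
        (fun _ => -l) * (F.nu i * F.nu a)) fun q hq => by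
          rw [D_co hF hq]; simp only [Pi.add_apply, Pi.mul_apply]; ring,
      cs_D_add hF hp (Mv.sm_const _) ((Mv.sm_const _).mul ((hF.sm_nu i).mul (hF.sm_nu a))),
      cs_D_mul hF hp (Mv.sm_const _) ((hF.sm_nu i).mul (hF.sm_nu a)),
      cs_D_mul hF hp (hF.sm_nu i) (hF.sm_nu a), cs_D_const hF hp, cs_D_const hF hp]
    have h2 := abs_mul_le (abs_nu hF hp i) (h1 a [j] rfl)
    have h3 := abs_mul_le (h1 i [j] rfl) (abs_nu hF hp a)
    have h4 := (abs_add_le _ _).trans (add_le_add h2 h3)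
    rw [zero_add, zero_mul, add_zero, abs_mul, abs_neg, abs_of_nonneg hl]
    have h5 := mul_le_mul_of_nonneg_left h4 hl
    refine h5.trans (le_of_eq ?_)
    ring

/-- `l² |x - c|²` -/
def sq (c : E) (l : ℝ) : ST → ℝ := ∑ a, co c l a * co c l a

theorem sq_eq (c : E) (l : ℝ) (q : ST) : sq c l q = (l * ‖q.1 - c‖) ^ 2 := by
  rw [mul_pow, ← Hu.sum_co_sq, Finset.mul_sum]
  simp only [sq, Finset.sum_apply, Pi.mul_apply, co]
  exact Finset.sum_congr rfl fun a _ => by ring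

theorem sq_sm (F : Mv) (c : E) (l : ℝ) : F.Sm (sq c l) :=
  Mv.Sm.sum fun a _ => (co_sm F c l a).mul (co_sm F c l a)

theorem J_sq (hF : F.Reg) (hp : p ∈ F.M) (hl : 0 ≤ l) {K : ℝ} (hK : 1 ≤ K)
    (h1 : F.NJet 1 (K * l) p) {c : E} (hc : l * ‖p.1 - c‖ ≤ 1) :
    J F p l (sq c l) (48 * K ^ 2) := by
  rw [show 48 * K ^ 2 = 3 * (4 * (2 * K * (2 * K))) by ring]
  exact J.sum3 hF hp fun a => (J_co hF hp hl hK h1 hc a).mul hF hp hl
    (J_co hF hp hl hK h1 hc a)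

/-! ### static surfaces -/

theorem st_mem (hS : F.Static) (x : E) (s t : ℝ) : (x, s) ∈ F.M ↔ (x, t) ∈ F.M :=
  (hS.mem x s).trans (hS.mem x t).symm

theorem st_sl (hS : F.Static) (s t : ℝ) : F.sl s = F.sl t := Set.ext fun x => st_mem hS x s t

theorem st_mu (hS : F.Static) (s t : ℝ) : F.mu s = F.mu t := by rw [Mv.mu, Mv.mu, st_sl hS s t]

/-- time independent functions -/
def Inv (f : ST → ℝ) : Prop := ∀ x s t, f (x, s) = f (x, t)

theorem inv_nu (hS : F.Static) (a : Fin 3) : Inv (F.nu a) := fun x s t => by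
  simp only [Mv.nu, hS.n_eq x s, hS.n_eq x t]

theorem inv_D (hS : F.Static) (hf : Inv f) (a : Fin 3) : Inv (F.D a f) := by
  intro x s t
  have h1 : f = fun q => f (q + ((0 : E), t - s)) := by
    funext q
    obtain ⟨y, u⟩ := q
    simpa using hf y u (u + (t - s))
  have h2 : F.td f (x, s) = F.td f (x, t) := by
    rw [Mv.td, Mv.td]
    conv_lhs => rw [h1]
    rw [fderivWithin_comp_add_right]
    have h3 : ((0 : E), t - s) +ᵥ F.M = F.M := by
      ext ⟨y, u⟩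
      rw [Set.mem_vadd_set_iff_neg_vadd_mem]
      simpa using st_mem hS y _ u
    rw [h3]
    simp
  rw [Mv.D_apply, Mv.D_apply, h2, Mv.PL, Mv.PL, hS.n_eq x s, hS.n_eq x t]

theorem inv_A2 (hS : F.Static) : Inv F.A2 := fun x s t => by
  simp only [Mv.A2, Finset.sum_apply, Pi.mul_apply, Mv.A, inv_D hS (inv_nu hS _) _ x s t]


theorem Dt_inv (hS : F.Static) (hp : p ∈ F.M) (hf : F.Sm f) (hi : Inv f) : F.Dt f p = 0 := by
  have h1 : HasDerivAt (fun s : ℝ => ((p.1, s) : ST)) (0, 1) p.2 :=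
    (hasDerivAt_const p.2 p.1).prodMk (hasDerivAt_id p.2)
  have h2 : HasDerivAt (fun s : ℝ => f (p.1, s)) (F.td f p (0, 1)) p.2 :=
    HasFDerivWithinAt.comp_hasDerivAt (l := f) (f := fun s : ℝ => ((p.1, s) : ST)) p.2
      (hf.hasF hp) h1 (Eventually.of_forall fun s => (st_mem hS p.1 s p.2).2 hp)
  have h3 : (fun s : ℝ => f (p.1, s)) = fun _ => f (p.1, 0) := funext fun s => hi _ _ _
  rw [h3] at h2
  rw [Mv.Dt, hS.V_eq, zero_smul]
  exact h2.unique (hasDerivAt_const _ _)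

end Crest.Agent.N250.CS

end
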