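import Crest.Agent.N250.A.Stm
import Crest.Agent.N250.Tr.Inst
import Crest.Agent.N250.T.Lim

/-!
# Row 250, block A (helper36): the spacetime measure `m = μ_t dt` and its parabolic rescaling
-/

set_option autoImplicit false
open MeasureTheory Set Filter Topology Metric
open scoped ContDiff InnerProductSpace
open Crest.GeometryTopology.MCF

noncomputable section

namespace Crest.Agent.N250.A

/-- the cost of the damping factor -/
def CostS : Prop := ∀ Λ G : ℝ, ∃ C : ℝ, 0 < C ∧ ∀ (F : Mv) (a : ℝ) (m : Measure ST),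
  Cpt F a Λ G → IsStm F m → ∀ (σ : ℝ) (p : ST), 0 < σ → σ ≤ -p.2 →
    ∫ q in {q : ST | 3 * a / 4 < q.2 ∧ q.2 < p.2},
      gau q.1 (p.2 - q.2 + σ) p.1 * (F.A2 q * (2 * (p.2 - q.2) / q.2 ^ 2)) ∂m ≤ C / -p.2

namespace Cf

variable {F : Mv} {m : Measure ST} {f : ST → ℝ} {a Λ G : ℝ}

theorem A2_nonneg (F : Mv) (q : ST) : 0 ≤ F.A2 q := by
  simp only [Mv.A2, Finset.sum_apply, Pi.mul_apply]
  exact Finset.sum_nonneg fun _ _ => Finset.sum_nonneg fun _ _ => mul_self_nonneg _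

theorem cont_A2 (hF : F.Reg) : ContinuousOn F.A2 F.M := by
  have e : F.A2 = fun q => ∑ a, ∑ b, F.A a b q * F.A a b q := by
    funext q; simp only [Mv.A2, Finset.sum_apply, Pi.mul_apply]
  rw [e]
  exact continuousOn_finset_sum _ fun a _ => continuousOn_finset_sum _ fun b _ =>
    (hF.smA a b).continuousOn.mul (hF.smA a b).continuousOn

theorem gau_nonneg (y : E) {s : ℝ} (hs : 0 ≤ s) (x : E) : 0 ≤ gau y s x := by
  unfold gau; positivity


/-- `m` lives on the track -/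
theorem ae_M (hF : F.Reg) (hm : IsStm F m) : ∀ᵐ q ∂m, q ∈ F.M := by
  have hM := (Tr.meas_M hF).compl
  have h := (hm (F.Mᶜ.indicator 1) (measurable_one.indicator hM)).2
  rw [lintegral_indicator_one hM] at h
  refine (ae_iff.2 (h.trans ?_))
  refine (lintegral_congr fun t => ?_).trans lintegral_zero
  refine (lintegral_congr_ae ?_).trans lintegral_zero
  filter_upwards [Tr.ae_sl hF t] with x hx
  exact indicator_of_notMem (not_not.2 hx) _

theorem restrict_eq (hF : F.Reg) (hm : IsStm F m) (S : Set ST) : m.restrict S = m.restrict (S ∩ F.M) :=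
  Measure.restrict_congr_set (inter_ae_eq_left_of_ae_eq_univ (ae_eq_univ.2 (ae_iff.1 (ae_M hF hm)))).symm


theorem stI_congr (hF : F.Reg) {g : ST → ℝ} (h : ∀ q ∈ F.M, f q = g q) (t₁ t₂ : ℝ) :
    F.stI f t₁ t₂ = F.stI g t₁ t₂ :=
  lintegral_congr fun t => lintegral_congr_ae ((Tr.ae_sl hF t).mono fun x hx => by simp only [h _ hx])

/-- `stI` as an integral against `m` -/
theorem stI_eq (hF : F.Reg) (hm : IsStm F m) (hf : ContinuousOn f F.M) {U : Set E} (hU : MeasurableSet U)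
    (t₁ t₂ : ℝ) : F.stI ((U ×ˢ univ).indicator f) t₁ t₂ =
      ∫⁻ q in U ×ˢ Ioo t₁ t₂, ENNReal.ofReal (f q) ∂m := by
  classical
  have hB : MeasurableSet (U ×ˢ Ioo t₁ t₂) := hU.prod measurableSet_Ioo
  have h0 : Measurable (F.M.piecewise f 0) := hf.measurable_piecewise continuousOn_const (Tr.meas_M hF)
  have h := (hm _ (h0.ennreal_ofReal.indicator hB)).2
  rw [lintegral_indicator hB] at h
  have e : ∫⁻ q in U ×ˢ Ioo t₁ t₂, ENNReal.ofReal (f q) ∂m =
      ∫⁻ q in U ×ˢ Ioo t₁ t₂, ENNReal.ofReal (F.M.piecewise f 0 q) ∂m :=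
    lintegral_congr_ae ((ae_restrict_of_ae (ae_M hF hm)).mono fun q hq => by
      simp only [piecewise_eq_of_mem _ _ _ hq])
  rw [e, h, Mv.stI, ← lintegral_indicator measurableSet_Ioo]
  refine lintegral_congr fun t => ?_
  by_cases ht : t ∈ Ioo t₁ t₂
  · rw [indicator_of_mem ht]
    refine lintegral_congr_ae ((Tr.ae_sl hF t).mono fun x hx => ?_)
    by_cases hx' : x ∈ U <;> simp [indicator, hx, hx', ht.1, ht.2]
  · rw [indicator_of_notMem ht]
    refine ((lintegral_congr fun x => ?_).trans lintegral_zero).symm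
    exact indicator_of_notMem (fun h => ht h.2) _

theorem m_box (hA : F.AR Λ) (hm : IsStm F m) (y : E) {r : ℝ} (hr : 0 < r) (t₁ t₂ : ℝ) :
    m (ball y r ×ˢ Ioo t₁ t₂) ≤ ENNReal.ofReal (Λ * r ^ 2) * ENNReal.ofReal (t₂ - t₁) := by
  have hB : MeasurableSet (ball y r ×ˢ Ioo t₁ t₂) := measurableSet_ball.prod measurableSet_Ioo
  have h := (hm _ (measurable_one.indicator hB)).2
  rw [lintegral_indicator_one hB] at h
  rw [h, ← Real.volume_Ioo, ← setLIntegral_const, ← lintegral_indicator measurableSet_Ioo]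
  refine lintegral_mono fun t => ?_
  by_cases ht : t ∈ Ioo t₁ t₂
  · rw [indicator_of_mem ht]
    refine le_trans (le_of_eq ?_) (hA t y r hr)
    rw [← lintegral_indicator_one measurableSet_ball]
    refine lintegral_congr fun x => ?_
    by_cases hx : x ∈ ball y r
    · rw [indicator_of_mem hx, indicator_of_mem (mk_mem_prod hx ht)]; rfl
    · rw [indicator_of_notMem hx, indicator_of_notMem fun h => hx h.1]
  · rw [indicator_of_notMem ht]
    refine ((lintegral_congr fun x => ?_).trans lintegral_zero).le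
    exact indicator_of_notMem (fun h => ht h.2) _

/-- functions continuous on the track over `[t₁, t₂]` are integrable over the strip -/
theorem intg (hF : Cpt F a Λ G) (hm : IsStm F m) {t₁ t₂ : ℝ} (h1 : a < t₁) (h2 : t₂ < 0)
    (hf : ContinuousOn f (F.M ∩ univ ×ˢ Icc t₁ t₂)) : IntegrableOn f {q : ST | t₁ < q.2 ∧ q.2 < t₂} m := by
  obtain ⟨ρ, hρ⟩ := hF.bdd
  have hR := hF.fl.mcf.1
  have hS : MeasurableSet {q : ST | t₁ < q.2 ∧ q.2 < t₂} := measurable_snd measurableSet_Ioo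
  have hK : IsCompact (F.M ∩ univ ×ˢ Icc t₁ t₂) := by
    refine ((isCompact_closedBall (0 : E) ρ).prod (isCompact_Icc (a := t₁) (b := t₂))).of_isClosed_subset ?_
      fun q hq => ⟨mem_closedBall_zero_iff.2 (hρ q hq.1), hq.2.2⟩
    refine isClosed_of_closure_subset fun q hq => ?_
    have h3 : q ∈ univ ×ˢ Icc t₁ t₂ :=
      (isClosed_univ.prod isClosed_Icc).closure_subset (closure_mono inter_subset_right hq)
    exact ⟨hF.fl.proper q (closure_mono inter_subset_left hq) ⟨trivial, h1.trans_le h3.2.1, h3.2.2.trans_lt h2⟩, h3⟩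
  obtain ⟨C, hC⟩ := hK.exists_bound_of_continuousOn hf
  have sub : {q : ST | t₁ < q.2 ∧ q.2 < t₂} ∩ F.M ⊆ F.M ∩ univ ×ˢ Icc t₁ t₂ :=
    fun q hq => ⟨hq.2, trivial, hq.1.1.le, hq.1.2.le⟩
  rw [IntegrableOn, restrict_eq hR hm]
  refine IntegrableOn.of_bound ?_ ((hf.mono sub).aestronglyMeasurable (hS.inter (Tr.meas_M hR))) C ?_
  · refine lt_of_le_of_lt ((measure_mono fun q hq => ?_).trans
      (m_box hF.fl.ar hm 0 (r := |ρ| + 1) (by positivity) t₁ t₂))
      (ENNReal.mul_lt_top ENNReal.ofReal_lt_top ENNReal.ofReal_lt_top)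
    exact ⟨mem_ball_zero_iff.2 (by linarith [hρ q hq.2, le_abs_self ρ]), hq.1⟩
  · exact (ae_restrict_mem (hS.inter (Tr.meas_M hR))).mono fun q hq => hC q (sub hq)

/-! ### rescaling of measures -/

/-- the parabolic similarity as a homeomorphism -/
def Th (X : ST) {lam : ℝ} (hl : 0 < lam) : ST ≃ₜ ST :=
  ((Homeomorph.smulOfNeZero lam⁻¹ (inv_ne_zero hl.ne')).trans (Homeomorph.addLeft X.1)).prodCongr
    ((Homeomorph.mulRight₀ (lam ^ 2)⁻¹ (inv_ne_zero (pow_ne_zero 2 hl.ne'))).trans (Homeomorph.addLeft X.2))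

theorem Th_apply (X : ST) {lam : ℝ} (hl : 0 < lam) (q : ST) :
    Th X hl q = (X.1 + lam⁻¹ • q.1, X.2 + q.2 / lam ^ 2) := rfl

/-- the rescaled source -/
def sc (X : ST) {lam : ℝ} (hl : 0 < lam) (ρ : Measure ST) : Measure ST :=
  ENNReal.ofReal (lam ^ 2) • ρ.map (Th X hl).symm.toMeasurableEquiv

variable (X : ST) {lam : ℝ} (hl : 0 < lam)

theorem sc_fin (ρ : Measure ST) [IsFiniteMeasure ρ] : IsFiniteMeasure (sc X hl ρ) :=
  Measure.smul_finite _ ENNReal.ofReal_ne_top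

theorem sc_pre (ρ : Measure ST) (B : Set ST) : sc X hl ρ (Th X hl ⁻¹' B) = ENNReal.ofReal (lam ^ 2) * ρ B := by
  rw [sc, Measure.smul_apply, MeasurableEquiv.map_apply, smul_eq_mul, ← preimage_comp]
  congr 2
  ext q
  simp

theorem pre_box (D t₁ t₂ : ℝ) : Th X hl ⁻¹' (ball X.1 (lam⁻¹ * D) ×ˢ Ioo (X.2 + t₁ / lam ^ 2) (X.2 + t₂ / lam ^ 2)) =
    ball 0 D ×ˢ Ioo t₁ t₂ := by
  have h2 : 0 < lam ^ 2 := by positivity
  ext q
  simp [Th_apply, dist_eq_norm, norm_smul, abs_of_pos hl, hl, div_lt_div_iff_of_pos_right h2]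

theorem pot_sc (ρ : Measure ST) (σ : ℝ) (q : ST) : pot (sc X hl ρ) (σ * lam ^ 2) q = pot ρ σ (Th X hl q) := by
  have h2 : 0 < lam ^ 2 := by positivity
  rw [pot, pot, sc, Measure.restrict_smul, integral_smul_measure, setIntegral_map_equiv,
    ENNReal.toReal_ofReal h2.le, smul_eq_mul, ← integral_const_mul]
  have e : ∀ z, (Th X hl).symm.toMeasurableEquiv (Th X hl z) = z := (Th X hl).symm_apply_apply
  congr 1
  · congr 1
    ext z
    obtain ⟨z, rfl⟩ := (Th X hl).surjective z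
    simp only [mem_preimage, e, mem_ofPred_eq]
    simp [Th_apply, div_lt_div_iff_of_pos_right h2]
  · funext z
    obtain ⟨z, rfl⟩ := (Th X hl).surjective z
    rw [e, Tr.Sim.gau_aff (s := Tr.paraS X lam) (t := 0) (inv_pos.2 hl), ← mul_assoc]
    have e1 : lam ^ 2 * (Tr.paraS X lam).c 0 ^ 2 = 1 := by simp [Tr.paraS, hl.ne']
    rw [e1, one_mul]
    congr 1
    simp only [Tr.paraS, Th_apply]
    field_simp
    ring

/-- spacetime integrals of the rescaled flow over boxes -/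
theorem stI_para (hF : F.Reg) (hm : IsStm F m) (hf : ContinuousOn f F.M) {f' : ST → ℝ}
    (h : ∀ q ∈ (F.para X lam).M, f' q = f (Th X hl q)) (D t₁ t₂ : ℝ) :
    (F.para X lam).stI ((ball 0 D ×ˢ univ).indicator f') t₁ t₂ = ENNReal.ofReal (lam ^ 4) *
      ∫⁻ q in ball X.1 (lam⁻¹ * D) ×ˢ Ioo (X.2 + t₁ / lam ^ 2) (X.2 + t₂ / lam ^ 2), ENNReal.ofReal (f q) ∂m := by
  rw [← stI_eq hF hm hf measurableSet_ball, ← Tr.para_stI X hl]
  refine stI_congr (Tr.para_reg X hl hF) (fun q hq => ?_) _ _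
  have e : (Tr.paraS X lam).map q ∈ ball X.1 (lam⁻¹ * D) ×ˢ (univ : Set ℝ) ↔ q ∈ ball (0 : E) D ×ˢ (univ : Set ℝ) := by
    simp [Tr.paraS_map, dist_eq_norm, norm_smul, abs_of_pos hl, hl]
  by_cases hq' : q ∈ ball (0 : E) D ×ˢ (univ : Set ℝ)
  · rw [indicator_of_mem hq', Function.comp, indicator_of_mem (e.2 hq'), h q hq]; rfl
  · rw [indicator_of_notMem hq', Function.comp, indicator_of_notMem (mt e.1 hq')]

theorem noCrit_para {q : ST} {r : ℝ} (h : NoCrit F (Th X hl q) (r / lam)) : NoCrit (F.para X lam) q r := by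
  intro y hy hne hP
  have e : (Th X hl q).1 - (X.1 + lam⁻¹ • y) = lam⁻¹ • (q.1 - y) := by simp [Th_apply, smul_sub]
  have := h (X.1 + lam⁻¹ • y) hy (fun h' => hne ?_) ?_
  · rw [dist_eq_norm, e, norm_smul, Real.norm_eq_abs, abs_of_pos (inv_pos.2 hl), ← dist_eq_norm,
      div_eq_inv_mul] at this
    exact lt_of_mul_lt_mul_left this (inv_pos.2 hl).le
  · rw [h', sub_self] at e
    exact (sub_eq_zero.1 ((smul_eq_zero.1 e.symm).resolve_left (inv_ne_zero hl.ne'))).symm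
  · have e2 : F.PL (X.1 + lam⁻¹ • y, (Th X hl q).2) (lam⁻¹ • (q.1 - y)) =
        lam⁻¹ • (F.para X lam).PL (y, q.2) (q.1 - y) := by
      rw [Mv.PL, Mv.PL, inner_smul_right, smul_sub lam⁻¹ (q.1 - y), smul_smul]; rfl
    rw [e, e2, hP, smul_zero]

end Cf

end Crest.Agent.N250.A

end
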