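import Crest.Agent.N250.A.Stm
import Crest.Agent.N250.FV.Main
import Crest.Agent.N250.FV.Hu4
import Crest.Agent.N250.T.Gau
import Crest.Agent.N250.Re.Ring
import Crest.Agent.N250.FV.Hu0

-- ▼ part N250/A/A2
section

/-!
# Row 250, block A (helper35): the spacetime curvature bound `A2S`
-/

set_option autoImplicit false
open MeasureTheory Set Filter Topology
open scoped ContDiff InnerProductSpace
open Crest.GeometryTopology.MCF

noncomputable section

namespace Crest.Agent.N250.A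

theorem H_sq_le {F : Mv} (hF : F.Reg) {y x : E} {r t t₂ : ℝ} (hr : 0 < r) (h1 : t ≤ t₂)
    (h2 : t₂ - t ≤ r ^ 2) (hx : (x, t) ∈ F.M) (hy : x ∈ Metric.ball y (2 * r)) :
    F.H (x, t) ^ 2 ≤ 16 * Real.pi * Real.exp 1 * r ^ 2 *
      (F.dev (y, t₂ + r ^ 2) (x, t) ^ 2 * Phi (y, t₂ + r ^ 2) (x, t)) + 2 / r ^ 2 := by
  set τ := t₂ + r ^ 2 - t with hτ
  have hr2 : 0 < r ^ 2 := by positivity
  have a1 : r ^ 2 ≤ τ := by linarith
  have a2 : τ ≤ 2 * r ^ 2 := by linarith
  have a0 : 0 < τ := hr2.trans_le a1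
  have hd : ‖x - y‖ ≤ 2 * r := (mem_ball_iff_norm.1 hy).le
  have hn : |F.xn y (x, t)| ≤ 2 * r := by
    refine (abs_real_inner_le_norm _ _).trans ?_
    rw [Tr.n_unit hF hx, mul_one]; exact hd
  have b1 : (F.xn y (x, t) / (2 * τ)) ^ 2 ≤ 1 / r ^ 2 := by
    rw [div_pow, div_le_div_iff₀ (by positivity) hr2]
    have := sq_le_sq' (abs_le.1 hn).1 (abs_le.1 hn).2
    nlinarith [mul_le_mul a1 a1 hr2.le a0.le]
  have b2 : 1 ≤ 8 * Real.pi * Real.exp 1 * r ^ 2 * Phi (y, t₂ + r ^ 2) (x, t) := by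
    have e1 : Real.exp (-1) ≤ Real.exp (-‖x - y‖ ^ 2 / (4 * τ)) := by
      refine Real.exp_le_exp.2 ?_
      rw [le_div_iff₀ (by positivity)]
      nlinarith [mul_le_mul hd hd (norm_nonneg _) (by positivity)]
    have e2 : (8 * Real.pi * r ^ 2)⁻¹ ≤ (4 * Real.pi * τ)⁻¹ :=
      inv_anti₀ (by positivity) (by nlinarith [Real.pi_pos])
    have e3 : (8 * Real.pi * r ^ 2)⁻¹ * Real.exp (-1) ≤ Phi (y, t₂ + r ^ 2) (x, t) :=
      mul_le_mul e2 e1 (by positivity) (by positivity)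
    refine le_trans (le_of_eq ?_) (mul_le_mul_of_nonneg_left e3 (by positivity))
    rw [Real.exp_neg]
    field_simp
  have e : F.H (x, t) = F.dev (y, t₂ + r ^ 2) (x, t) + F.xn y (x, t) / (2 * τ) := by
    simp [Mv.dev, hτ]
  rw [e]
  have b3 : 2 / r ^ 2 = 2 * (1 / r ^ 2) := by ring
  nlinarith [sq_nonneg (F.dev (y, t₂ + r ^ 2) (x, t) - F.xn y (x, t) / (2 * τ)),
    mul_le_mul_of_nonneg_left b2 (sq_nonneg (F.dev (y, t₂ + r ^ 2) (x, t)))]

/-- `∫∫ H²` on a parabolic cylinder -/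
theorem H2_le (hH : HuiskenS) (hG : GauS) (Λ : ℝ) : ∃ C : ℝ, 0 < C ∧
    ∀ (F : Mv) (I : Set ℝ) (y : E) (r t₁ t₂ : ℝ), IsOpen I → Fl F I Λ → 0 < r → Icc t₁ t₂ ⊆ I →
    t₂ - t₁ ≤ r ^ 2 → ∫⁻ t in Ioo t₁ t₂, ∫⁻ x in Metric.ball y (2 * r),
      ENNReal.ofReal (F.H (x, t) ^ 2) ∂F.mu t ≤ ENNReal.ofReal (C * r ^ 2) := by
  obtain ⟨C, hC, hG⟩ := hG
  refine ⟨16 * Real.pi * Real.exp 1 * (C * |Λ|) + 8 * |Λ| + 1, by positivity,
    fun F I y r t₁ t₂ hI hF hr hsub ht => ?_⟩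
  rcases le_or_gt t₂ t₁ with h | h
  · simp [Ioo_eq_empty_of_le h]
  have hr2 : 0 < r ^ 2 := by positivity
  have ar : ∀ t y r, 0 < r → F.mu t (Metric.ball y r) ≤ ENNReal.ofReal (|Λ| * r ^ 2) :=
    fun t y r hr => (hF.ar t y r hr).trans (ENNReal.ofReal_le_ofReal
      (mul_le_mul_of_nonneg_right (le_abs_self _) (sq_nonneg _)))
  obtain ⟨-, h2⟩ := hH F I Λ hI hF (y, t₂ + r ^ 2) t₁ t₂ h.le (by simpa using hr2) hsub
  have h3 := (((hG (F.mu t₁) |Λ| (abs_nonneg _)).1 (ar t₁)) y (t₂ + r ^ 2 - t₁) (by linarith)).2.1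
  have h4 : 0 ≤ F.Fs t₂ y (t₂ + r ^ 2 - t₂) := integral_nonneg fun x => by
    unfold gau
    have : 0 < t₂ + r ^ 2 - t₂ := by linarith
    positivity
  set K := 16 * Real.pi * Real.exp 1 * r ^ 2 with hK
  have hK0 : 0 ≤ K := by positivity
  calc _ ≤ ∫⁻ t in Ioo t₁ t₂, (ENNReal.ofReal K * (∫⁻ x, ENNReal.ofReal
          (F.dev (y, t₂ + r ^ 2) (x, t) ^ 2 * Phi (y, t₂ + r ^ 2) (x, t)) ∂F.mu t) +
          ENNReal.ofReal (8 * |Λ|)) := by
        refine setLIntegral_mono' measurableSet_Ioo fun t ht' => ?_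
        calc _ ≤ ∫⁻ x in Metric.ball y (2 * r), (ENNReal.ofReal K * ENNReal.ofReal
              (F.dev (y, t₂ + r ^ 2) (x, t) ^ 2 * Phi (y, t₂ + r ^ 2) (x, t)) +
              ENNReal.ofReal (2 / r ^ 2)) ∂F.mu t := by
              refine lintegral_mono_ae ?_
              filter_upwards [ae_restrict_of_ae (FV.ae_sl hF.mcf.1 t),
                ae_restrict_mem measurableSet_ball] with x hx hy
              rw [← ENNReal.ofReal_mul hK0]
              exact (ENNReal.ofReal_le_ofReal (H_sq_le hF.mcf.1 hr ht'.2.le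
                (by linarith [ht'.1]) hx hy)).trans ENNReal.ofReal_add_le
          _ ≤ _ := by
              rw [lintegral_add_right _ measurable_const,
                lintegral_const_mul' _ _ ENNReal.ofReal_ne_top, setLIntegral_const]
              refine add_le_add (mul_le_mul_right (setLIntegral_le_lintegral _ _) _) ?_
              refine (mul_le_mul_right (ar t y _ (by positivity)) _).trans (le_of_eq ?_)
              rw [← ENNReal.ofReal_mul (by positivity)]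
              congr 1
              field_simp
              ring
    _ ≤ _ := by
        rw [lintegral_add_right _ measurable_const,
          lintegral_const_mul' _ _ ENNReal.ofReal_ne_top, setLIntegral_const, Real.volume_Ioo]
        change ENNReal.ofReal K * F.stI (fun p => F.dev (y, t₂ + r ^ 2) p ^ 2 *
          Phi (y, t₂ + r ^ 2) p) t₁ t₂ + _ ≤ _
        rw [h2, ← ENNReal.ofReal_mul hK0, ← ENNReal.ofReal_mul (by positivity)]
        have h5 : F.Fs t₁ y (t₂ + r ^ 2 - t₁) - F.Fs t₂ y (t₂ + r ^ 2 - t₂) ≤ C * |Λ| := by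
          have : F.Fs t₁ y (t₂ + r ^ 2 - t₁) ≤ C * |Λ| := h3
          linarith
        refine le_trans (add_le_add (ENNReal.ofReal_le_ofReal
          (mul_le_mul_of_nonneg_left h5 hK0)) le_rfl) ?_
        rw [← ENNReal.ofReal_add (by positivity) (mul_nonneg (by positivity) (by linarith))]
        refine ENNReal.ofReal_le_ofReal ?_
        have := mul_le_mul_of_nonneg_left ht (by positivity : 0 ≤ 8 * |Λ|)
        rw [hK]
        nlinarith

theorem a2S_of (hH : HuiskenS) (hG : GauS) : A2S := by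
  intro Λ G
  obtain ⟨C, hC, h⟩ := H2_le hH hG Λ
  refine ⟨|G| * (1 + C) + 1, by positivity, fun F I y r t₁ t₂ hI hF hL hr hsub ht => ?_⟩
  calc _ ≤ ∫⁻ t in Ioo t₁ t₂, ENNReal.ofReal |G| * (1 + ∫⁻ x in Metric.ball y (2 * r),
          ENNReal.ofReal (F.H (x, t) ^ 2) ∂F.mu t) := by
        refine lintegral_mono fun t => ?_
        refine le_trans (le_of_eq ?_) ((hL t y r hr).trans
          (mul_le_mul_left (ENNReal.ofReal_le_ofReal (le_abs_self _)) _))
        rw [← lintegral_indicator measurableSet_ball]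
        refine lintegral_congr fun x => ?_
        by_cases hx : x ∈ Metric.ball y r
        · rw [indicator_of_mem hx, indicator_of_mem (by exact ⟨hx, trivial⟩)]
        · rw [indicator_of_notMem hx, indicator_of_notMem (by exact fun h => hx h.1)]; simp
    _ ≤ _ := by
        rw [lintegral_const_mul' _ _ ENNReal.ofReal_ne_top, lintegral_add_left measurable_const,
          setLIntegral_const, Real.volume_Ioo, one_mul]
        refine (mul_le_mul_right (add_le_add (ENNReal.ofReal_le_ofReal ht)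
          (h F I y r t₁ t₂ hI hF hr hsub ht)) _).trans ?_
        rw [← ENNReal.ofReal_add (by positivity) (by positivity),
          ← ENNReal.ofReal_mul (abs_nonneg _)]
        exact ENNReal.ofReal_le_ofReal (by nlinarith [sq_nonneg r])

end Crest.Agent.N250.A

end
end

-- ▼ part N250/FV/Closed
section

/-!
# Row 250 (helper35): closed form of `A2S`
-/

set_option autoImplicit false

namespace Crest.Agent.N250

theorem A.a2S_holds : A.A2S := A.a2S_of huiskenS_holds gauS_holds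

end Crest.Agent.N250
end

-- ▼ part N250/A/PsiC
section

/-!
# Row 250, block A (helper37): `PsiCS` and basic facts on the spacetime measure
-/

set_option autoImplicit false
open MeasureTheory Set Filter Topology
open scoped ContDiff InnerProductSpace
open Crest.GeometryTopology.MCF

noncomputable section

namespace Crest.Agent.N250.A

namespace PC

variable {F : Mv} {a Λ G : ℝ} {m : Measure ST}

theorem gau_symm (y : E) (s : ℝ) (x : E) : gau y s x = gau x s y := by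
  simp only [gau, norm_sub_rev x y]

theorem gau_le_inv (y : E) {s : ℝ} (hs : 0 < s) (x : E) : gau y s x ≤ (4 * Real.pi * s)⁻¹ := by
  refine mul_le_of_le_one_right (by positivity) (Real.exp_le_one_iff.2 ?_)
  exact div_nonpos_of_nonpos_of_nonneg (neg_nonpos.2 (sq_nonneg _)) (by positivity)

theorem A2_nonneg (F : Mv) (q : ST) : 0 ≤ F.A2 q := by
  simp only [Mv.A2, Finset.sum_apply, Pi.mul_apply]
  exact Finset.sum_nonneg fun _ _ => Finset.sum_nonneg fun _ _ => mul_self_nonneg _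

theorem damp_mem {s t : ℝ} (hst : s < t) (ht : t < 0) : 1 - ((t - s) / s) ^ 2 ∈ Icc (0 : ℝ) 1 := by
  have hs : s < 0 := hst.trans ht
  refine ⟨?_, by linarith [sq_nonneg ((t - s) / s)]⟩
  rw [sub_nonneg, div_pow, div_le_one (by nlinarith)]
  nlinarith

theorem dens_nonneg (F : Mv) (y : E) {ε B t : ℝ} (hε : 0 ≤ ε) (hB : 0 ≤ B) {q : ST} (hq : q.2 < t)
    (ht : t < 0) : 0 ≤ dens F y ε B t q :=
  add_nonneg (mul_nonneg (mul_nonneg hε (A2_nonneg F q)) (damp_mem hq ht).1) (by positivity)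

/-- the track over a compact time interval is compact -/
theorem cpt_track (hF : Cpt F a Λ G) {s t : ℝ} (hs : a < s) (ht : t < 0) :
    IsCompact (F.M ∩ univ ×ˢ Icc s t) := by
  obtain ⟨ρ, hρ⟩ := hF.bdd
  refine ((isCompact_closedBall (0 : E) ρ).prod (isCompact_Icc (a := s) (b := t))).of_isClosed_subset
    ?_ fun p hp => ⟨by simpa using hρ p hp.1, hp.2.2⟩
  refine isClosed_of_closure_subset fun p hp => ?_
  have h1 : p ∈ (univ ×ˢ Icc s t : Set ST) :=
    closure_minimal inter_subset_right (isClosed_univ.prod isClosed_Icc) hp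
  exact ⟨hF.fl.proper p (closure_mono inter_subset_left hp)
    ⟨trivial, hs.trans_le h1.2.1, h1.2.2.trans_lt ht⟩, h1⟩

theorem stm_null (hm : IsStm F m) {S : Set ST} (hS : MeasurableSet S)
    (h : ∀ᵐ t : ℝ, F.mu t {x | (x, t) ∈ S} = 0) : m S = 0 := by
  rw [← lintegral_indicator_one hS, (hm _ (measurable_one.indicator hS)).2]
  refine (lintegral_congr_ae (g := fun _ => 0) ?_).trans lintegral_zero
  filter_upwards [h] with t ht
  have : (fun x => S.indicator (1 : ST → ENNReal) (x, t)) = {x | (x, t) ∈ S}.indicator 1 := by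
    ext x
    by_cases hx : (x, t) ∈ S <;> simp [hx]
  have hS' : MeasurableSet {x | (x, t) ∈ S} := measurable_prodMk_right hS
  rw [this]
  exact (lintegral_indicator_one hS').trans ht

theorem stm_ae (hF : F.Reg) (hm : IsStm F m) : ∀ᵐ q ∂m, q ∈ F.M :=
  stm_null hm (Hu.meas_M hF).compl (Eventually.of_forall fun t => Hu.ae_sl hF t)

theorem stm_ne (hm : IsStm F m) (t : ℝ) : ∀ᵐ q ∂m, q.2 ≠ t := by
  have : m {q | q.2 = t} = 0 := by
    refine stm_null hm (measurable_snd (measurableSet_singleton t)) ?_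
    filter_upwards [compl_mem_ae_iff.2 (measure_singleton t)] with s hs
    have : s ≠ t := hs
    simp [this]
  simpa [ae_iff] using this

theorem aesm_stm (hF : F.Reg) (hm : IsStm F m) {S : Set ST} (hS : MeasurableSet S) {f : ST → ℝ}
    (hf : ContinuousOn f (F.M ∩ S)) : AEStronglyMeasurable f (m.restrict S) := by
  have h1 : m.restrict S = m.restrict (F.M ∩ S) := by
    refine Measure.restrict_congr_set ?_
    filter_upwards [stm_ae hF hm] with q hq
    exact propext ⟨fun h => ⟨hq, h⟩, fun h => h.2⟩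
  rw [h1]
  exact hf.aestronglyMeasurable ((Hu.meas_M hF).inter hS)

/-- a slice-wise bound gives a bound on a time slab -/
theorem stm_slab (hm : IsStm F m) {g : ST → ENNReal} (hg : Measurable g) {s t : ℝ} {C : ENNReal}
    (h : ∀ u ∈ Ioo s t, ∫⁻ x, g (x, u) ∂F.mu u ≤ C) :
    ∫⁻ q in {q : ST | s < q.2 ∧ q.2 < t}, g q ∂m ≤ C * ENNReal.ofReal (t - s) := by
  have hS : MeasurableSet {q : ST | s < q.2 ∧ q.2 < t} := measurable_snd measurableSet_Ioo
  rw [← lintegral_indicator hS, (hm _ (hg.indicator hS)).2, ← Real.volume_Ioo,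
    ← setLIntegral_const, ← lintegral_indicator measurableSet_Ioo]
  refine lintegral_mono fun u => ?_
  by_cases hu : u ∈ Ioo s t
  · rw [indicator_of_mem hu]
    refine le_trans (lintegral_mono fun x => indicator_le_self _ _ _) (h u hu)
  · have : ∀ x : E, {q : ST | s < q.2 ∧ q.2 < t}.indicator g (x, u) = 0 := fun x =>
      indicator_of_notMem (s := {q : ST | s < q.2 ∧ q.2 < t}) (a := (x, u)) hu _
    simp [this]

theorem stm_fin (hF : Cpt F a Λ G) (hm : IsStm F m) (s t : ℝ) :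
    m {q : ST | s < q.2 ∧ q.2 < t} < ⊤ := by
  obtain ⟨ρ, hρ⟩ := hF.bdd
  rw [← setLIntegral_one]
  refine lt_of_le_of_lt (stm_slab hm measurable_const (C := ENNReal.ofReal (Λ * (|ρ| + 1) ^ 2))
    fun u _ => ?_) (ENNReal.mul_lt_top ENNReal.ofReal_lt_top ENNReal.ofReal_lt_top)
  rw [lintegral_one]
  refine le_trans ?_ (hF.fl.ar u 0 _ (by positivity))
  refine measure_mono_ae ?_
  filter_upwards [Hu.ae_sl hF.fl.mcf.1 u] with x hx _
  have := hρ _ hx
  exact mem_ball_zero_iff.2 (by linarith [le_abs_self ρ])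

theorem dev_cont (hF : F.Reg) (y : E) : ContinuousOn (F.dev (y, 0)) (F.M ∩ {q | q.2 < 0}) := by
  refine (hF.sm_H.continuousOn.mono inter_subset_left).sub
    (((hF.sm_xn y).continuousOn.mono inter_subset_left).div (by fun_prop) fun q hq => ?_)
  have : q.2 < 0 := hq.2
  simp only
  linarith

theorem dens_cont (hF : F.Reg) (y : E) (ε B t : ℝ) :
    ContinuousOn (dens F y ε B t) (F.M ∩ {q | q.2 < 0}) := by
  refine ((continuousOn_const.mul (hF.sm_A2.continuousOn.mono inter_subset_left)).mul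
    (continuousOn_const.sub (ContinuousOn.pow (ContinuousOn.div (by fun_prop) (by fun_prop)
      fun q hq => ?_) 2))).add (continuousOn_const.mul ((dev_cont hF y).pow 2))
  exact ne_of_lt hq.2

/-- the density is bounded on compact time intervals -/
theorem dens_le (hF : Cpt F a Λ G) (y : E) {ε : ℝ} (B : ℝ) (hε : 0 ≤ ε) {s t : ℝ} (hs : a < s)
    (ht : t < 0) : ∃ K : ℝ, 0 ≤ K ∧ ∀ u, u ≤ t → ∀ q ∈ F.M, s < q.2 → q.2 < u →
      dens F y ε B u q ≤ K := by
  have hsub : F.M ∩ univ ×ˢ Icc s t ⊆ F.M ∩ {q | q.2 < 0} := fun q hq =>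
    ⟨hq.1, hq.2.2.2.trans_lt ht⟩
  have hc : ContinuousOn (fun q => ε * F.A2 q + ε * B * F.dev (y, 0) q ^ 2)
      (F.M ∩ univ ×ˢ Icc s t) :=
    (continuousOn_const.mul (hF.fl.mcf.1.sm_A2.continuousOn.mono inter_subset_left)).add
      (continuousOn_const.mul (((dev_cont hF.fl.mcf.1 y).mono hsub).pow 2))
  obtain ⟨K, hK⟩ := (cpt_track hF hs ht).exists_bound_of_continuousOn hc
  refine ⟨max K 0, le_max_right _ _, fun u hu q hq h1 h2 => ?_⟩
  have h3 := (le_abs_self _).trans (hK q ⟨hq, trivial, h1.le, h2.le.trans hu⟩)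
  have h4 := mul_le_of_le_one_right (mul_nonneg hε (A2_nonneg F q)) (damp_mem h2 (hu.trans_lt ht)).2
  unfold dens
  linarith [le_max_left K 0]

theorem UU_nonneg (F : Mv) (m : Measure ST) (y : E) {ε B σ : ℝ} (a₀ : ℝ) (hε : 0 ≤ ε) (hB : 0 ≤ B)
    (hσ : 0 < σ) {p : ST} (hp : p.2 < 0) : 0 ≤ UU F m y ε B σ a₀ p :=
  setIntegral_nonneg (measurable_snd measurableSet_Ioo) fun q hq =>
    mul_nonneg (Gau.gau_pos _ (by linarith [hq.2]) _).le (dens_nonneg F y hε hB hq.2 hp)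

theorem meas_gau (σ : ℝ) (p : ST) : Measurable fun q : ST => gau q.1 (p.2 - q.2 + σ) p.1 := by
  unfold gau
  fun_prop

/-- the potential of the area measure itself -/
theorem gau_slab (hF : F.AR Λ) (hm : IsStm F m) {σ : ℝ} (hσ : 0 < σ) (a₀ : ℝ) (p : ST) :
    IntegrableOn (fun q : ST => gau q.1 (p.2 - q.2 + σ) p.1) {q : ST | a₀ < q.2 ∧ q.2 < p.2} m ∧
    ∫ q in {q : ST | a₀ < q.2 ∧ q.2 < p.2}, gau q.1 (p.2 - q.2 + σ) p.1 ∂m ≤
      Gau.C0 * max Λ 0 * max (p.2 - a₀) 0 := by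
  have hS : MeasurableSet {q : ST | a₀ < q.2 ∧ q.2 < p.2} := measurable_snd measurableSet_Ioo
  have h0 : 0 ≤ᵐ[m.restrict {q : ST | a₀ < q.2 ∧ q.2 < p.2}]
      fun q : ST => gau q.1 (p.2 - q.2 + σ) p.1 := by
    filter_upwards [ae_restrict_mem hS] with q hq
    exact (Gau.gau_pos _ (by linarith [hq.2]) _).le
  have hΛ : 0 ≤ max Λ 0 := le_max_right _ _
  have hC := Gau.C0_nonneg
  have h1 := stm_slab hm (meas_gau σ p).ennreal_ofReal (s := a₀) (t := p.2)
    (C := ENNReal.ofReal (Gau.C0 * max Λ 0)) fun u hu => by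
      have hr : Gau.Rat (F.mu u) (max Λ 0) := fun y r hr => (hF u y r hr).trans
        (ENNReal.ofReal_le_ofReal (mul_le_mul_of_nonneg_right (le_max_left _ _) (sq_nonneg _)))
      have hs : 0 < p.2 - u + σ := by linarith [hu.2]
      simp only [gau_symm _ _ p.1]
      rw [← ofReal_integral_eq_lintegral_ofReal (Gau.int_gau hΛ hr _ hs)
        (Eventually.of_forall fun x => (Gau.gau_pos _ hs x).le)]
      exact ENNReal.ofReal_le_ofReal (Gau.integral_gau_le hΛ hr _ hs)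
  refine ⟨⟨(meas_gau σ p).aestronglyMeasurable, (hasFiniteIntegral_iff_ofReal h0).2
    (h1.trans_lt (ENNReal.mul_lt_top ENNReal.ofReal_lt_top ENNReal.ofReal_lt_top))⟩, ?_⟩
  rw [integral_eq_lintegral_of_nonneg_ae h0 (meas_gau σ p).aestronglyMeasurable]
  refine ENNReal.toReal_le_of_le_ofReal (by positivity) (h1.trans ?_)
  rw [ENNReal.ofReal_mul (p := Gau.C0 * max Λ 0) (by positivity)]
  gcongr
  exact le_max_left _ _

/-- the potential is bounded independently of `σ` -/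
theorem UU_le (hF : Cpt F a Λ G) (hm : IsStm F m) (y : E) {ε B : ℝ} (hε : 0 ≤ ε) (hB : 0 ≤ B)
    {a₀ t : ℝ} (hs : a < a₀) (ht : t < 0) : ∃ C : ℝ, ∀ σ, 0 < σ → ∀ p : ST, p.2 ≤ t →
      UU F m y ε B σ a₀ p ≤ C := by
  obtain ⟨K, hK0, hK⟩ := dens_le hF y B hε hs ht
  refine ⟨K * (Gau.C0 * max Λ 0 * max (t - a₀) 0), fun σ hσ p hp => ?_⟩
  have hS : MeasurableSet {q : ST | a₀ < q.2 ∧ q.2 < p.2} := measurable_snd measurableSet_Ioo
  obtain ⟨h1, h2⟩ := gau_slab hF.fl.ar hm hσ a₀ p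
  have hC := Gau.C0_nonneg
  calc UU F m y ε B σ a₀ p
      ≤ ∫ q in {q : ST | a₀ < q.2 ∧ q.2 < p.2}, K * gau q.1 (p.2 - q.2 + σ) p.1 ∂m := by
        refine integral_mono_of_nonneg ?_ (h1.const_mul K) ?_
        · filter_upwards [ae_restrict_mem hS] with q hq
          exact mul_nonneg (Gau.gau_pos _ (by linarith [hq.2]) _).le
            (dens_nonneg F y hε hB hq.2 (hp.trans_lt ht))
        · filter_upwards [ae_restrict_mem hS, ae_restrict_of_ae (stm_ae hF.fl.mcf.1 hm)]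
            with q hq hqM
          rw [mul_comm]
          exact mul_le_mul_of_nonneg_right (hK _ hp q hqM hq.1 hq.2)
            (Gau.gau_pos _ (by linarith [hq.2]) _).le
    _ ≤ _ := by
        rw [integral_const_mul]
        refine mul_le_mul_of_nonneg_left (h2.trans ?_) hK0
        gcongr

theorem aesm_UU (hF : F.Reg) (hm : IsStm F m) (y : E) (ε B σ a₀ : ℝ) {p : ST} (hp : p.2 ≤ 0) :
    AEStronglyMeasurable (fun q : ST => gau q.1 (p.2 - q.2 + σ) p.1 * dens F y ε B p.2 q)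
      (m.restrict {q : ST | a₀ < q.2 ∧ q.2 < p.2}) :=
  (meas_gau σ p).aestronglyMeasurable.mul (aesm_stm hF hm (measurable_snd measurableSet_Ioo)
    ((dens_cont hF y ε B p.2).mono fun _ hq => ⟨hq.1, hq.2.2.trans_le hp⟩))

theorem UU_cont (hF : Cpt F a Λ G) (hm : IsStm F m) (y : E) {ε B σ : ℝ} (hε : 0 ≤ ε) (hB : 0 ≤ B)
    (hσ : 0 < σ) {a₀ : ℝ} (hs : a < a₀) {p : ST} (hp : p.2 < 0) :
    ContinuousAt (UU F m y ε B σ a₀) p := by
  have ht : p.2 / 2 < 0 := by linarith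
  obtain ⟨K, hK0, hK⟩ := dens_le hF y B hε hs ht
  have hS : ∀ t, MeasurableSet {q : ST | a₀ < q.2 ∧ q.2 < t} := fun t =>
    measurable_snd measurableSet_Ioo
  have hn : ∀ᶠ p' : ST in 𝓝 p, p'.2 < p.2 / 2 :=
    continuous_snd.continuousAt.eventually (gt_mem_nhds (by linarith))
  have e : UU F m y ε B σ a₀ = fun p' : ST => ∫ q, {q : ST | a₀ < q.2 ∧ q.2 < p'.2}.indicator
      (fun q : ST => gau q.1 (p'.2 - q.2 + σ) p'.1 * dens F y ε B p'.2 q) q ∂m := by
    ext p'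
    rw [integral_indicator (hS _)]
    rfl
  rw [e]
  refine continuousAt_of_dominated (bound := {q : ST | a₀ < q.2 ∧ q.2 < p.2 / 2}.indicator
    fun _ => (4 * Real.pi * σ)⁻¹ * K) ?_ ?_ ?_ ?_
  · filter_upwards [hn] with p' hp'
    exact (aestronglyMeasurable_indicator_iff (hS _)).2
      (aesm_UU hF.fl.mcf.1 hm y ε B σ a₀ (by linarith))
  · filter_upwards [hn] with p' hp'
    filter_upwards [stm_ae hF.fl.mcf.1 hm] with q hq
    by_cases h : q ∈ {q : ST | a₀ < q.2 ∧ q.2 < p'.2}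
    · have h' : q ∈ {q : ST | a₀ < q.2 ∧ q.2 < p.2 / 2} := ⟨h.1, h.2.trans hp'⟩
      have hl : 0 < p'.2 - q.2 + σ := by linarith [h.2]
      have h0 := dens_nonneg F y hε hB h.2 (hp'.trans ht)
      rw [indicator_of_mem h, indicator_of_mem h',
        Real.norm_of_nonneg (mul_nonneg (Gau.gau_pos _ hl _).le h0)]
      refine mul_le_mul ((gau_le_inv _ hl _).trans ?_) (hK _ hp'.le q hq h.1 h.2) h0 (by positivity)
      exact inv_anti₀ (by positivity) (mul_le_mul_of_nonneg_left (by linarith [h.2]) (by positivity))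
    · rw [indicator_of_notMem h, norm_zero]
      exact indicator_nonneg (fun _ _ => by positivity) _
  · exact (integrable_indicator_iff (hS _)).2 (integrableOn_const (stm_fin hF hm _ _).ne)
  · filter_upwards [stm_ne hm p.2] with q hq
    by_cases h1 : a₀ < q.2 ∧ q.2 < p.2
    · have hn' : ∀ᶠ p' : ST in 𝓝 p, q.2 < p'.2 :=
        continuous_snd.continuousAt.eventually (lt_mem_nhds h1.2)
      refine ContinuousAt.congr (f := fun p' : ST =>
        gau q.1 (p'.2 - q.2 + σ) p'.1 * dens F y ε B p'.2 q) ?_ ?_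
      · have hl : p.2 - q.2 + σ ≠ 0 := by linarith [h1.2]
        have := Real.pi_pos.ne'
        unfold gau dens
        fun_prop (disch := simp [*])
      · filter_upwards [hn'] with p' hp'
        rw [indicator_of_mem (show q ∈ {q : ST | a₀ < q.2 ∧ q.2 < p'.2} from ⟨h1.1, hp'⟩)]
    · refine ContinuousAt.congr (f := fun _ => (0 : ℝ)) continuousAt_const ?_
      by_cases h2 : a₀ < q.2
      · have h3 : p.2 < q.2 := lt_of_le_of_ne (not_lt.1 fun h => h1 ⟨h2, h⟩) hq.symm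
        filter_upwards [continuous_snd.continuousAt.eventually (gt_mem_nhds h3)] with p' hp'
        rw [indicator_of_notMem fun h => lt_asymm hp' h.2]
      · exact Eventually.of_forall fun p' => (indicator_of_notMem (fun h => h2 h.1) _).symm

end PC

theorem psiCS_holds : PsiCS := by
  intro F a Λ G m hF hm y ε B θ₁ hε hB hθ
  have ha : a < 3 * a / 4 := by linarith [hF.neg]
  refine ⟨?_, fun σ hσ => ⟨fun p hp => ?_, fun p hp => PC.UU_nonneg F m y _ hε hB.le hσ hp⟩⟩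
  · obtain ⟨C, hC⟩ := PC.UU_le hF hm y hε hB.le ha (t := -θ₁) (by linarith)
    obtain ⟨ρ, hρ⟩ := hF.bdd
    refine ⟨B⁻¹ * √√(θ₁ * θ₁) * Real.exp (-(ρ + ‖y‖) ^ 2 / (32 * θ₁) - C), by positivity,
      fun σ hσ p hp ht => ?_⟩
    have h1 : θ₁ ≤ -p.2 := by linarith [ht.2]
    have h2 : ‖p.1 - y‖ ≤ ρ + ‖y‖ := (norm_sub_le _ _).trans (by linarith [hρ p hp])
    have h3 := hC σ hσ p ht.2
    have h4 : ‖p.1 - y‖ ^ 2 / (32 * -p.2) ≤ (ρ + ‖y‖) ^ 2 / (32 * θ₁) := by gcongr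
    unfold psi
    gcongr ?_ * √√?_ * Real.exp ?_
    · gcongr
    · rw [neg_div, neg_div]
      linarith
  · have hp' : p.2 < 0 := hp.2
    have h1 := PC.UU_cont hF hm y hε hB.le hσ ha hp'
    have h2 : 32 * -p.2 ≠ 0 := by linarith
    refine ContinuousAt.continuousWithinAt ?_
    unfold psi
    fun_prop (disch := assumption)

end Crest.Agent.N250.A

end
end

-- ▼ part N250/A/Cost

/-!
# Row 250, block A (helper37): heat potentials of `|A|²` on time windows, the cost of the damping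
-/

set_option autoImplicit false
open MeasureTheory Set Filter Topology
open scoped ContDiff InnerProductSpace
open Crest.GeometryTopology.MCF

noncomputable section

namespace Crest.Agent.N250.A.Cost

open PC

variable {F : Mv} {a Λ G : ℝ} {m : Measure ST}

/-- the time slab -/
abbrev Sl (s t : ℝ) : Set ST := {q : ST | s < q.2 ∧ q.2 < t}

theorem meas_Sl (s t : ℝ) : MeasurableSet (Sl s t) := measurable_snd measurableSet_Ioo

/-- a function continuous on the track agrees there with a measurable function -/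
theorem exists_meas (hF : F.Reg) {f : ST → ℝ} (hf : ContinuousOn f F.M) :
    ∃ g : ST → ℝ, Measurable g ∧ ∀ q ∈ F.M, g q = f q := by
  classical
  exact ⟨F.M.piecewise f 0, hf.measurable_piecewise continuousOn_const (Hu.meas_M hF),
    fun q hq => piecewise_eq_of_mem _ _ _ hq⟩

/-- integrals over a slab, for functions that agree with a measurable function on the track -/
theorem stm_eq (hF : F.Reg) (hm : IsStm F m) {f g : ST → ENNReal} (hg : Measurable g)
    (e : ∀ q ∈ F.M, g q = f q) (s t : ℝ) :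
    ∫⁻ q in Sl s t, f q ∂m = ∫⁻ u in Ioo s t, ∫⁻ x, f (x, u) ∂F.mu u := by
  have h1 : ∫⁻ q in Sl s t, f q ∂m = ∫⁻ q in Sl s t, g q ∂m := by
    refine lintegral_congr_ae ?_
    filter_upwards [ae_restrict_of_ae (stm_ae hF hm)] with q hq using (e q hq).symm
  rw [h1, ← lintegral_indicator (meas_Sl s t), (hm _ (hg.indicator (meas_Sl s t))).2,
    ← lintegral_indicator measurableSet_Ioo]
  refine lintegral_congr fun u => ?_
  by_cases hu : u ∈ Ioo s t
  · rw [indicator_of_mem hu]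
    refine lintegral_congr_ae ?_
    filter_upwards [Hu.ae_sl hF u] with x hx
    rw [indicator_of_mem (s := Sl s t) (a := (x, u)) hu, e _ hx]
  · have : ∀ x : E, (Sl s t).indicator g (x, u) = 0 := fun x =>
      indicator_of_notMem (s := Sl s t) (a := (x, u)) hu _
    simp [this, indicator_of_notMem hu]

theorem stI_eq (hF : F.Reg) (hm : IsStm F m) {f : ST → ℝ} (hf : ContinuousOn f F.M) {U : Set ST}
    (hU : MeasurableSet U) (s t : ℝ) :
    ∫⁻ q in Sl s t, ENNReal.ofReal (U.indicator f q) ∂m = F.stI (U.indicator f) s t := by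
  obtain ⟨g, hg, e⟩ := exists_meas hF hf
  refine stm_eq hF hm (hg.indicator hU).ennreal_ofReal (fun q hq => ?_) s t
  by_cases h : q ∈ U <;> simp [h, e q hq]

theorem aem_A2 (hF : F.Reg) (hm : IsStm F m) : AEMeasurable F.A2 m := by
  obtain ⟨g, hg, e⟩ := exists_meas hF hF.sm_A2.continuousOn
  refine ⟨g, hg, ?_⟩
  filter_upwards [stm_ae hF hm] with q hq using (e q hq).symm

/-- the bound on one block -/
def Blk (Λ G C : ℝ) : Prop := ∀ (F : Mv) (a : ℝ) (m : Measure ST), Cpt F a Λ G → IsStm F m →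
  ∀ (x : E) (t₁ t₂ L : ℝ), a < t₁ → t₂ < 0 → 0 < L → t₂ - t₁ ≤ L →
    ∫⁻ q in Sl t₁ t₂, ENNReal.ofReal (Real.exp (-‖q.1 - x‖ ^ 2 / (8 * L)) * F.A2 q) ∂m ≤
      ENNReal.ofReal (C * L)

theorem blk (hA : A2S) (Λ G : ℝ) : ∃ C : ℝ, 0 < C ∧ Blk Λ G C := by
  obtain ⟨C, hC, hA⟩ := hA Λ G
  have hC0 := Gau.C0_nonneg
  refine ⟨Gau.C0 * C + 1, by positivity, fun F a m hF hm y t₁ t₂ s h1 h2 hs h3 => ?_⟩
  have hR := hF.fl.mcf.1
  have hq : 0 < √s := Real.sqrt_pos.2 hs
  have hqq : √s ^ 2 = s := Real.sq_sqrt hs.le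
  have hU : ∀ k : ℕ, MeasurableSet (Metric.ball y (((k : ℝ) + 1) * √s) ×ˢ (univ : Set ℝ)) :=
    fun k => Metric.isOpen_ball.measurableSet.prod MeasurableSet.univ
  calc ∫⁻ q in Sl t₁ t₂, ENNReal.ofReal (Real.exp (-‖q.1 - y‖ ^ 2 / (8 * s)) * F.A2 q) ∂m
      ≤ ∫⁻ q in Sl t₁ t₂, ∑' k : ℕ, ENNReal.ofReal (Real.exp (-(k : ℝ) ^ 2 / 8)) * ENNReal.ofReal
          ((Metric.ball y (((k : ℝ) + 1) * √s) ×ˢ (univ : Set ℝ)).indicator F.A2 q) ∂m := by
        refine lintegral_mono fun q => ?_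
        refine le_trans ?_ (ENNReal.le_tsum ⌊‖q.1 - y‖ / √s⌋₊)
        have h1 : ‖q.1 - y‖ / √s < (⌊‖q.1 - y‖ / √s⌋₊ : ℝ) + 1 := Nat.lt_floor_add_one _
        have h2 : (⌊‖q.1 - y‖ / √s⌋₊ : ℝ) ≤ ‖q.1 - y‖ / √s := Nat.floor_le (by positivity)
        rw [indicator_of_mem (mk_mem_prod (by
          rw [Metric.mem_ball, dist_eq_norm]; rwa [div_lt_iff₀ hq] at h1) (mem_univ _)),
          ← ENNReal.ofReal_mul (Real.exp_pos _).le]
        apply ENNReal.ofReal_le_ofReal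
        refine mul_le_mul_of_nonneg_right ?_ (A2_nonneg F q)
        apply Real.exp_le_exp.2
        have h3 : (⌊‖q.1 - y‖ / √s⌋₊ : ℝ) ^ 2 ≤ (‖q.1 - y‖ / √s) ^ 2 := by gcongr
        rw [div_pow, hqq] at h3
        have : -‖q.1 - y‖ ^ 2 / (8 * s) = -(‖q.1 - y‖ ^ 2 / s) / 8 := by field_simp
        rw [this]; linarith
    _ = ∑' k : ℕ, ENNReal.ofReal (Real.exp (-(k : ℝ) ^ 2 / 8)) *
          F.stI ((Metric.ball y (((k : ℝ) + 1) * √s) ×ˢ (univ : Set ℝ)).indicator F.A2) t₁ t₂ := by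
        rw [lintegral_tsum fun k => (((aem_A2 hR hm).restrict.indicator
          (hU k)).ennreal_ofReal.const_mul _)]
        congr 1; funext k
        rw [lintegral_const_mul' _ _ ENNReal.ofReal_ne_top,
          stI_eq hR hm hR.sm_A2.continuousOn (hU k)]
    _ ≤ ∑' k : ℕ, ENNReal.ofReal (((k : ℝ) + 1) ^ 2 * Real.exp (-(k : ℝ) ^ 2 / 8) * (C * s)) := by
        refine ENNReal.tsum_le_tsum fun k => ?_
        have hk : s ≤ (((k : ℝ) + 1) * √s) ^ 2 := by
          rw [mul_pow, hqq]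
          exact le_mul_of_one_le_left hs.le (one_le_pow₀ (by linarith [k.cast_nonneg (α := ℝ)]))
        refine le_trans (mul_le_mul_right (hA F _ y _ t₁ t₂ isOpen_Ioo hF.fl hF.lgb (by positivity)
          (Icc_subset_Ioo h1 h2) (h3.trans hk)) _) ?_
        rw [← ENNReal.ofReal_mul (Real.exp_pos _).le]
        apply le_of_eq; congr 1; rw [mul_pow, hqq]; ring
    _ ≤ ENNReal.ofReal ((Gau.C0 * C + 1) * s) := by
        rw [← ENNReal.ofReal_tsum_of_nonneg (fun k => by positivity) (Gau.summ.mul_right _),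
          tsum_mul_right]
        refine ENNReal.ofReal_le_ofReal ?_
        change Gau.C0 * (C * s) ≤ _
        nlinarith

variable {C : ℝ}

/-- `τ gau τ ≤ exp (-|z - x|² / (8 L))` for `τ ≤ 2 L` -/
theorem gau_le_exp (z x : E) {τ L : ℝ} (hτ : 0 < τ) (h : τ ≤ 2 * L) :
    gau z τ x ≤ τ⁻¹ * Real.exp (-‖z - x‖ ^ 2 / (8 * L)) := by
  unfold gau
  have h1 : (4 * Real.pi * τ)⁻¹ ≤ τ⁻¹ :=
    inv_anti₀ hτ (le_mul_of_one_le_left hτ.le (by linarith [Real.pi_gt_three]))
  have h2 : -‖x - z‖ ^ 2 / (4 * τ) ≤ -‖z - x‖ ^ 2 / (8 * L) := by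
    rw [norm_sub_rev x z, neg_div, neg_div, neg_le_neg_iff]
    exact div_le_div_of_nonneg_left (sq_nonneg _) (by positivity) (by linarith)
  gcongr

/-- a block with a weight `w` : `gau · w ≤ K exp` -/
theorem Blk.wt (hB : Blk Λ G C) (hF : Cpt F a Λ G) (hm : IsStm F m) (x : E) {t₁ t₂ L K : ℝ}
    (h1 : a < t₁) (h2 : t₂ < 0) (hL : 0 < L) (h3 : t₂ - t₁ ≤ L) (hK : 0 ≤ K) {w : ST → ℝ}
    (hw : ∀ q ∈ Sl t₁ t₂, w q ≤ K * (Real.exp (-‖q.1 - x‖ ^ 2 / (8 * L)) * F.A2 q)) :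
    ∫⁻ q in Sl t₁ t₂, ENNReal.ofReal (w q) ∂m ≤ ENNReal.ofReal (K * (C * L)) := by
  rw [ENNReal.ofReal_mul hK]
  refine le_trans ?_ (mul_le_mul_right (hB F a m hF hm x t₁ t₂ L h1 h2 hL h3) _)
  rw [← lintegral_const_mul' _ _ ENNReal.ofReal_ne_top]
  refine setLIntegral_mono' (meas_Sl _ _) fun q hq => ?_
  rw [← ENNReal.ofReal_mul hK]
  exact ENNReal.ofReal_le_ofReal (hw q hq)


/-- splitting a slab below the time `-θ` into dyadic windows of `|s|` -/
theorem dyadic (hm : IsStm F m) (f : ST → ENNReal) (a₀ : ℝ) {θ : ℝ} (hθ : 0 < θ) :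
    ∫⁻ q in Sl a₀ (-θ), f q ∂m ≤
      ∑' j : ℕ, ∫⁻ q in Sl (max a₀ (-(2 ^ (j + 1) * θ))) (-(2 ^ j * θ)), f q ∂m := by
  refine le_trans (lintegral_mono_set' ?_) (lintegral_iUnion_le _ _)
  filter_upwards [ae_all_iff.2 fun j : ℕ => stm_ne hm (-(2 ^ j * θ))] with q hq h
  obtain ⟨j, h1, h2⟩ := exists_nat_pow_near (x := -q.2 / θ) (y := 2)
    (by rw [le_div_iff₀ hθ]; linarith [h.2]) one_lt_two
  rw [le_div_iff₀ hθ] at h1
  rw [div_lt_iff₀ hθ] at h2
  exact mem_iUnion.2 ⟨j, max_lt h.1 (by linarith), lt_of_le_of_ne (by linarith) (hq j)⟩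

/-- the cost of the damping (lower integral) -/
theorem Blk.cost_l (hB : Blk Λ G C) (hC : 0 ≤ C) (hF : Cpt F a Λ G) (hm : IsStm F m) {a₀ σ : ℝ}
    (ha : a < a₀) (hσ : 0 < σ) {p : ST} (hp : σ ≤ -p.2) :
    ∫⁻ q in Sl a₀ p.2, ENNReal.ofReal (gau q.1 (p.2 - q.2 + σ) p.1 *
      (F.A2 q * ((p.2 - q.2) / q.2 ^ 2))) ∂m ≤ ENNReal.ofReal (2 * C / -p.2) := by
  obtain ⟨θ, hθe⟩ : ∃ θ, θ = -p.2 := ⟨_, rfl⟩
  have hθ : 0 < θ := by linarith
  have ht : p.2 = -θ := by linarith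
  rw [← hθe]
  conv_lhs => enter [1, 2, 2]; rw [ht]
  refine (dyadic hm _ a₀ hθ).trans ?_
  have hs : HasSum (fun j : ℕ => C / θ * (1 / 2 : ℝ) ^ j) (2 * C / θ) := by
    rw [show 2 * C / θ = C / θ * 2 by ring]
    exact hasSum_geometric_two.mul_left (C / θ)
  rw [← hs.tsum_eq, ENNReal.ofReal_tsum_of_nonneg (fun j => by positivity) hs.summable]
  refine ENNReal.tsum_le_tsum fun j => ?_
  have hL : 0 < 2 ^ j * θ := by positivity
  have h1 : θ ≤ 2 ^ j * θ := le_mul_of_one_le_left hθ.le (one_le_pow₀ one_le_two)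
  have := hB.wt hF hm p.1 (t₁ := max a₀ (-(2 ^ (j + 1) * θ))) (t₂ := -(2 ^ j * θ))
    (ha.trans_le (le_max_left _ _)) (by linarith) hL
    (by linarith [le_max_right a₀ (-(2 ^ (j + 1) * θ)), pow_succ (2 : ℝ) j ▸ mul_right_comm ((2 : ℝ) ^ j) 2 θ])
    (K := ((2 ^ j * θ) ^ 2)⁻¹) (by positivity)
    (w := fun q => gau q.1 (p.2 - q.2 + σ) p.1 * (F.A2 q * ((p.2 - q.2) / q.2 ^ 2))) fun q hq => by
      have q1 : -(2 ^ (j + 1) * θ) < q.2 := (le_max_right _ _).trans_lt hq.1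
      rw [pow_succ, mul_right_comm] at q1
      have q2 : q.2 < -(2 ^ j * θ) := hq.2
      have hl : 0 < p.2 - q.2 := by linarith
      have hτ : 0 < p.2 - q.2 + σ := by linarith
      have g1 := gau_le_exp q.1 p.1 hτ (L := 2 ^ j * θ) (by linarith)
      have g2 : (p.2 - q.2) / q.2 ^ 2 ≤ (p.2 - q.2 + σ) * ((2 ^ j * θ) ^ 2)⁻¹ := by
        rw [div_eq_mul_inv]
        refine mul_le_mul (by linarith) (inv_anti₀ (by positivity) ?_) (by positivity) hτ.le
        nlinarith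
      have hA := A2_nonneg F q
      calc _ ≤ (p.2 - q.2 + σ)⁻¹ * Real.exp (-‖q.1 - p.1‖ ^ 2 / (8 * (2 ^ j * θ))) *
            (F.A2 q * ((p.2 - q.2 + σ) * ((2 ^ j * θ) ^ 2)⁻¹)) := by gcongr
        _ = _ := by field_simp
  refine this.trans (le_of_eq ?_)
  congr 1
  rw [one_div, inv_pow]
  field_simp

/-- **the cost of the damping** -/
theorem Blk.cost (hB : Blk Λ G C) (hC : 0 ≤ C) (hF : Cpt F a Λ G) (hm : IsStm F m) {a₀ σ : ℝ}
    (ha : a < a₀) (hσ : 0 < σ) {p : ST} (hp : σ ≤ -p.2) :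
    IntegrableOn (fun q : ST => gau q.1 (p.2 - q.2 + σ) p.1 * (F.A2 q * ((p.2 - q.2) / q.2 ^ 2)))
      {q : ST | a₀ < q.2 ∧ q.2 < p.2} m ∧
    ∫ q in {q : ST | a₀ < q.2 ∧ q.2 < p.2}, gau q.1 (p.2 - q.2 + σ) p.1 *
      (F.A2 q * ((p.2 - q.2) / q.2 ^ 2)) ∂m ≤ 2 * C / -p.2 := by
  have h0 : 0 ≤ᵐ[m.restrict (Sl a₀ p.2)] fun q : ST => gau q.1 (p.2 - q.2 + σ) p.1 *
      (F.A2 q * ((p.2 - q.2) / q.2 ^ 2)) := by
    filter_upwards [ae_restrict_mem (meas_Sl a₀ p.2)] with q hq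
    exact mul_nonneg (Gau.gau_pos _ (by linarith [hq.2]) _).le
      (mul_nonneg (A2_nonneg F q) (div_nonneg (by linarith [hq.2]) (sq_nonneg _)))
  have hme : AEStronglyMeasurable (fun q : ST => gau q.1 (p.2 - q.2 + σ) p.1 *
      (F.A2 q * ((p.2 - q.2) / q.2 ^ 2))) (m.restrict (Sl a₀ p.2)) :=
    ((meas_gau σ p).aemeasurable.mul ((aem_A2 hF.fl.mcf.1 hm).restrict.mul
      (Measurable.aemeasurable (by fun_prop)))).aestronglyMeasurable
  have h1 := hB.cost_l hC hF hm ha hσ hp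
  refine ⟨⟨hme, (hasFiniteIntegral_iff_ofReal h0).2 (h1.trans_lt ENNReal.ofReal_lt_top)⟩, ?_⟩
  rw [integral_eq_lintegral_of_nonneg_ae h0 hme]
  exact ENNReal.toReal_le_of_le_ofReal (div_nonneg (by positivity) (by linarith)) h1

end Crest.Agent.N250.A.Cost

end
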