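import Crest.Agent.N250.MP.Chart
import Crest.Agent.N250.A.Stm
import Crest.Agent.N250.Lim.A
import Crest.Agent.N250.Tr.Inst
import Crest.Agent.N250.MP.Avoid
import Crest.Agent.N250.Im.MV
import Crest.Agent.N250.A.Cfg0
import Crest.Agent.N250.A.Good

-- ▼ part N250/A/Bar0
section

/-!
# Row 250, block A (helper62): local geometry for the first contact argument
-/

set_option autoImplicit false
open MeasureTheory Set Filter Topology Metric
open scoped ContDiff InnerProductSpace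
open Crest.GeometryTopology.MCF

noncomputable section

namespace Crest.Agent.N250.Bar

variable {F : Mv} {p : ST}

/-- a curve in the track through a given point, parametrised by time -/
theorem exists_curve (hF : F.Reg) (hp : p ∈ F.M) : ∃ c : ℝ → E, ContinuousAt c p.2 ∧ c p.2 = p.1 ∧
    ∀ᶠ s in 𝓝 p.2, (c s, s) ∈ F.M := by
  obtain ⟨U, π, hr⟩ := hF.exists_retr hp
  have h1 : ContinuousAt (fun s : ℝ => ((p.1, s) : ST)) p.2 := by fun_prop
  have h2 : ContinuousAt π p := (hr.sm.contDiffAt (hr.isOpen.mem_nhds hr.mem)).continuousAt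
  refine ⟨fun s => (π (p.1, s)).1, (ContinuousAt.comp (f := fun s : ℝ => ((p.1, s) : ST)) h2 h1).fst,
    congrArg Prod.fst (hr.fix p hr.mem hp), ?_⟩
  filter_upwards [h1.eventually (hr.isOpen.mem_nhds hr.mem)] with s hs
  have := hr.maps hs
  rwa [show π (p.1, s) = ((π (p.1, s)).1, s) from Prod.ext rfl (hr.time _ hs)] at this


theorem A2_nonneg (F : Mv) (p : ST) : 0 ≤ F.A2 p := by
  simp only [Mv.A2, Finset.sum_apply, Pi.mul_apply]
  exact Finset.sum_nonneg fun a _ => Finset.sum_nonneg fun b _ => mul_self_nonneg _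

theorem abs_Aq_le (F : Mv) (p : ST) (v : E) : |MP.Aq F p v v| ≤ √(F.A2 p) * ‖v‖ ^ 2 := by
  have h := Finset.sum_mul_sq_le_sq_mul_sq (Finset.univ : Finset (Fin 3 × Fin 3))
    (fun ab => F.A ab.1 ab.2 p) (fun ab => v ab.1 * v ab.2)
  simp only [Fintype.sum_prod_type] at h
  have e1 : ∑ a, ∑ b, F.A a b p ^ 2 = F.A2 p := by
    simp only [Mv.A2, Finset.sum_apply, Pi.mul_apply, sq]
  have e2 : ∑ a, ∑ b, (v a * v b) ^ 2 = (‖v‖ ^ 2) ^ 2 := by
    rw [EuclideanSpace.norm_sq_eq, sq, Finset.sum_mul_sum]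
    simp only [Real.norm_eq_abs, sq_abs, mul_pow]
  rw [e1, e2] at h
  refine abs_le_of_sq_le_sq' ?_ (by positivity) |> abs_le.2
  rw [mul_pow, Real.sq_sqrt (A2_nonneg F p)]
  exact h

/-- the slice is quadratically close to its tangent plane -/
theorem loc_quad (hF : F.Reg) (hp : p ∈ F.M) {ε : ℝ} (hε : 0 < ε) : ∀ᶠ y in 𝓝 p.1,
    (y, p.2) ∈ F.M → |⟪F.n p, y - p.1⟫_ℝ| ≤ 2 * (√(F.A2 p) + ε) * ‖y - p.1‖ ^ 2 := by
  obtain ⟨W, φ, hW, hL⟩ := hF p hp
  set N : ST → E := fun q => ‖gradX φ q.1 q.2‖⁻¹ • gradX φ q.1 q.2 with hN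
  have dN : DifferentiableAt ℝ N p :=
    (hL.sm_n.contDiffAt (hL.isOpen.mem_nhds hW)).differentiableAt (by simp)
  set L := fderiv ℝ N p with hLd
  have eN : F.n =ᶠ[𝓝[F.M] p] N := by
    filter_upwards [nhdsWithin_le_nhds (hL.isOpen.mem_nhds hW), self_mem_nhdsWithin] with q a b
      using hL.n_eq q a b
  have Np : N p = F.n p := (hL.n_eq p hW hp).symm
  obtain ⟨r, hr, hb⟩ := Metric.eventually_nhds_iff_ball.1
    ((dN.hasFDerivAt.isLittleO.bound hε).and (hL.isOpen.mem_nhds hW))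
  have hL0 : 0 < 1 / (2 * (‖L‖ + 1)) := by positivity
  filter_upwards [ball_mem_nhds p.1 (lt_min hr hL0)] with y hy hyM
  rw [mem_ball, dist_eq_norm, lt_min_iff] at hy
  set h := y - p.1 with hh
  have mem : ∀ s ∈ Icc (0 : ℝ) 1, ((p.1 + s • h, p.2) : ST) ∈ ball p r := fun s hs => by
    rw [mem_ball, Prod.dist_eq, dist_self, dist_eq_norm, add_sub_cancel_left, norm_smul,
      Real.norm_eq_abs, abs_of_nonneg hs.1]
    exact max_lt (lt_of_le_of_lt (mul_le_of_le_one_left (norm_nonneg _) hs.2) hy.1) hr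
  have der : ∀ s ∈ Icc (0 : ℝ) 1, HasDerivAt (fun s : ℝ => φ (p.1 + s • h, p.2))
      (fderiv ℝ φ (p.1 + s • h, p.2) (h, 0)) s := fun s hs => by
    have d1 : HasDerivAt (fun s : ℝ => ((p.1 + s • h, p.2) : ST)) (h, 0) s := by
      simpa using (((hasDerivAt_id s).smul_const h).const_add p.1).prodMk (hasDerivAt_const s p.2)
    exact HasFDerivAt.comp_hasDerivAt s (l := φ) (hL.diffAt (hb _ (mem s hs)).2).hasFDerivAt d1
  obtain ⟨s, hs, h0⟩ := exists_hasDerivAt_eq_zero zero_lt_one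
    (fun s hs => (der s hs).continuousAt.continuousWithinAt)
    (by
      have e1 : φ (p.1 + (1 : ℝ) • h, p.2) = 0 := by
        have := (hb _ (mem 1 ⟨zero_le_one, le_rfl⟩)).2
        refine (hL.mem _ this).1 ?_
        simpa [hh] using hyM
      have e0 : φ (p.1 + (0 : ℝ) • h, p.2) = 0 := by simpa using (hL.mem _ hW).1 hp
      rw [e0, e1])
    fun s hs => der s (Ioo_subset_Icc_self hs)
  have hq := hb _ (mem s (Ioo_subset_Icc_self hs))
  set q : ST := (p.1 + s • h, p.2) with hqd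
  have z1 : ⟪N q, h⟫_ℝ = 0 := by
    rw [hN, real_inner_smul_left, inner_gradX (hL.diffAt hq.2), h0, mul_zero]
  have z2 : q - p = s • ((F.PL p h, 0) : ST) + (s * ⟪F.n p, h⟫_ℝ) • ((F.n p, 0) : ST) := by
    ext1
    · simp only [hqd, Prod.fst_sub, add_sub_cancel_left, Prod.fst_add, Prod.smul_fst, Mv.PL,
        smul_sub, smul_smul, sub_add_cancel]
    · simp [hqd]
  have z3 : ⟪L (F.PL p h, 0), h⟫_ℝ = MP.Aq F p h h := by
    rw [← MP.td_n hF hp, hF.td_ext hp dN eN (hF.tg_PL hp h)]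
  have z4 : ‖q - p‖ ≤ ‖h‖ := by
    rw [← dist_eq_norm, Prod.dist_eq, dist_self, dist_eq_norm, add_sub_cancel_left, norm_smul,
      Real.norm_eq_abs, abs_of_pos hs.1]
    exact max_le (mul_le_of_le_one_left (norm_nonneg _) hs.2.le) (norm_nonneg _)
  have z5 : ⟪F.n p, h⟫_ℝ = -⟪N q - N p - L (q - p), h⟫_ℝ - s * MP.Aq F p h h -
      s * ⟪F.n p, h⟫_ℝ * ⟪L (F.n p, 0), h⟫_ℝ := by
    rw [inner_sub_left, inner_sub_left, z1, Np, z2, map_add, map_smul, map_smul, inner_add_left,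
      real_inner_smul_left, real_inner_smul_left, z3]
    ring
  have b1 : |⟪N q - N p - L (q - p), h⟫_ℝ| ≤ ε * ‖h‖ ^ 2 := by
    refine (abs_real_inner_le_norm _ _).trans ?_
    have := mul_le_mul_of_nonneg_right (hq.1.trans (mul_le_mul_of_nonneg_left z4 hε.le))
      (norm_nonneg h)
    linarith
  have b2 : |s * MP.Aq F p h h| ≤ √(F.A2 p) * ‖h‖ ^ 2 := by
    rw [abs_mul, abs_of_pos hs.1]
    exact (mul_le_of_le_one_left (abs_nonneg _) hs.2.le).trans (abs_Aq_le F p h)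
  have b3 : |⟪L (F.n p, 0), h⟫_ℝ| ≤ 1 / 2 := by
    refine (abs_real_inner_le_norm _ _).trans ?_
    have e1 : ‖L (F.n p, 0)‖ ≤ ‖L‖ := by
      simpa [hF.norm_n hp] using L.le_opNorm (F.n p, 0)
    have e2 := hy.2
    rw [lt_div_iff₀ (by positivity)] at e2
    nlinarith [norm_nonneg h, norm_nonneg L]
  have b4 : |s * ⟪F.n p, h⟫_ℝ * ⟪L (F.n p, 0), h⟫_ℝ| ≤ |⟪F.n p, h⟫_ℝ| / 2 := by
    rw [abs_mul, abs_mul, abs_of_pos hs.1]
    have := mul_le_mul (mul_le_of_le_one_left (abs_nonneg ⟪F.n p, h⟫_ℝ) hs.2.le) b3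
      (abs_nonneg _) (abs_nonneg _)
    linarith
  have b5 := abs_sub (-⟪N q - N p - L (q - p), h⟫_ℝ - s * MP.Aq F p h h)
    (s * ⟪F.n p, h⟫_ℝ * ⟪L (F.n p, 0), h⟫_ℝ)
  have b6 := abs_sub (-⟪N q - N p - L (q - p), h⟫_ℝ) (s * MP.Aq F p h h)
  rw [← z5] at b5
  rw [abs_neg] at b6
  linarith

/-- a critical point of the distance with small curvature is a strict local minimum -/
theorem strict_min (hF : F.Reg) (hp : p ∈ F.M) {x : E} (hx : F.PL p (x - p.1) = 0)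
    (hA : 16 * dist x p.1 ^ 2 * F.A2 p < 1) :
    ∀ᶠ y in 𝓝 p.1, (y, p.2) ∈ F.M → y ≠ p.1 → dist x p.1 < dist x y := by
  have d0 : 0 ≤ dist x p.1 := dist_nonneg
  have h1 : 4 * dist x p.1 * √(F.A2 p) < 1 := by
    refine lt_of_pow_lt_pow_left₀ 2 zero_le_one ?_
    rw [mul_pow, mul_pow, Real.sq_sqrt (A2_nonneg F p)]
    linarith
  obtain ⟨ε, hε, h2⟩ : ∃ ε, 0 < ε ∧ 4 * dist x p.1 * (√(F.A2 p) + ε) < 1 := by
    have c1 : ContinuousAt (fun ε : ℝ => 4 * dist x p.1 * (√(F.A2 p) + ε)) 0 := by fun_prop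
    have c2 := c1.eventually_lt continuousAt_const (g := fun _ => 1) (by simpa using h1)
    obtain ⟨ε, a, b⟩ := ((c2.filter_mono nhdsWithin_le_nhds).and
      (self_mem_nhdsWithin (s := Ioi (0 : ℝ)))).exists
    exact ⟨ε, b, a⟩
  filter_upwards [loc_quad hF hp hε] with y hy hM hne
  have h3 := hy hM
  have h4 : x - p.1 = ⟪F.n p, x - p.1⟫_ℝ • F.n p := sub_eq_zero.1 hx
  have h5 : |⟪F.n p, x - p.1⟫_ℝ| = dist x p.1 := by
    rw [dist_eq_norm]
    conv_rhs => rw [h4, norm_smul, hF.norm_n hp, mul_one, Real.norm_eq_abs]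
  have h6 : |⟪x - p.1, y - p.1⟫_ℝ| ≤ dist x p.1 * (2 * (√(F.A2 p) + ε) * ‖y - p.1‖ ^ 2) := by
    rw [h4, real_inner_smul_left, abs_mul, h5]
    exact mul_le_mul_of_nonneg_left h3 d0
  have h7 : 0 < ‖y - p.1‖ ^ 2 := pow_pos (norm_pos_iff.2 (sub_ne_zero.2 hne)) 2
  refine lt_of_pow_lt_pow_left₀ 2 dist_nonneg ?_
  have h8 : dist x y ^ 2 = dist x p.1 ^ 2 - 2 * ⟪x - p.1, y - p.1⟫_ℝ + ‖y - p.1‖ ^ 2 := by
    rw [dist_eq_norm, dist_eq_norm, ← norm_sub_sq_real, sub_sub_sub_cancel_right]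
  nlinarith [le_abs_self ⟪x - p.1, y - p.1⟫_ℝ, mul_lt_mul_of_pos_right h2 h7]

/-- first order condition for the distance on a slice -/
theorem crit_of_min (hF : F.Reg) (hp : p ∈ F.M) {x : E}
    (h : ∀ᶠ y in 𝓝 p.1, (y, p.2) ∈ F.M → dist x p.1 ≤ dist x y) : F.PL p (x - p.1) = 0 := by
  obtain ⟨U, π, hr⟩ := hF.exists_retr hp
  set v := F.PL p (x - p.1) with hv
  have d0 := ((hr.sm.contDiffAt (hr.isOpen.mem_nhds hr.mem)).differentiableAt (by simp)).hasFDerivAt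
  have d1 : HasDerivAt (fun s : ℝ => ((p.1 + s • v, p.2) : ST)) (v, 0) 0 := by
    simpa using (((hasDerivAt_id (0 : ℝ)).smul_const v).const_add p.1).prodMk
      (hasDerivAt_const (0 : ℝ) p.2)
  have e0 : ((p.1 + (0 : ℝ) • v, p.2) : ST) = p := by simp
  have d2 := HasFDerivAt.comp_hasDerivAt_of_eq (0 : ℝ) d0 d1 e0.symm
  rw [hr.der _ (hF.tg_PL hp _)] at d2
  have d4 : HasDerivAt (fun s : ℝ => ((π ∘ fun s : ℝ => ((p.1 + s • v, p.2) : ST)) s).1) v 0 :=
    (ContinuousLinearMap.fst ℝ E ℝ).hasFDerivAt.comp_hasDerivAt (0 : ℝ) d2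
  have d3 := (d4.const_sub x).norm_sq
  have pp : π p = p := hr.fix p hr.mem hp
  have lm : IsLocalMin (fun s : ℝ => ‖x - ((π ∘ fun s : ℝ => ((p.1 + s • v, p.2) : ST)) s).1‖ ^ 2)
      0 := by
    have t1 := d4.continuousAt.tendsto
    have t2 := d1.continuousAt.tendsto
    simp only [Function.comp_apply, e0, pp] at t1 t2
    filter_upwards [t1.eventually h, t2.eventually (hr.isOpen.mem_nhds hr.mem)] with s a b
    have := hr.maps b
    rw [show π (p.1 + s • v, p.2) = ((π (p.1 + s • v, p.2)).1, p.2) from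
      Prod.ext rfl (hr.time _ b)] at this
    have := a this
    simp only [Function.comp_apply, e0, pp]
    rw [dist_eq_norm, dist_eq_norm] at this
    exact pow_le_pow_left₀ (norm_nonneg _) this 2
  have z := lm.hasDerivAt_eq_zero d3
  simp only [Function.comp_apply, e0, pp, inner_neg_right, mul_neg, neg_eq_zero, mul_eq_zero,
    OfNat.ofNat_ne_zero, false_or] at z
  have z2 : ⟪v, v⟫_ℝ = 0 := by
    have := hF.tg_PL hp (x - p.1)
    simp only [Mv.Tg, mul_zero] at this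
    change ⟪x - p.1 - ⟪F.n p, x - p.1⟫_ℝ • F.n p, v⟫_ℝ = 0
    rw [inner_sub_left, real_inner_smul_left, z, this, mul_zero, sub_zero]
  exact inner_self_eq_zero.1 z2

/-- compact pieces of a proper track -/
theorem isCompact_inter {Ω K : Set ST} (hP : F.Proper Ω) (hK : IsCompact K) (h : K ⊆ Ω) :
    IsCompact (F.M ∩ K) := by
  have : F.M ∩ K = closure F.M ∩ K :=
    Subset.antisymm (inter_subset_inter_left _ subset_closure)
      fun q hq => ⟨hP q hq.1 (h hq.2), hq.2⟩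
  rw [this]
  exact hK.inter_left isClosed_closure

theorem locProper (hF : F.Reg) (hp : p ∈ F.M) : ∃ W, IsOpen W ∧ p ∈ W ∧ F.Proper W := by
  obtain ⟨W, φ, hW, hL⟩ := hF p hp
  refine ⟨W, hL.isOpen, hW, fun q hq hqW => (hL.mem q hqW).2 ?_⟩
  have c := (hL.contDiffAt hqW).continuousAt
  by_contra h
  obtain ⟨z, ⟨z1, z2⟩, z3⟩ := mem_closure_iff_nhds.1 hq _
    (inter_mem (c.eventually_ne h) (hL.isOpen.mem_nhds hqW))
  exact z1 ((hL.mem z z2).1 z3)

/-- a strict local minimum of the distance persists as a critical point -/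
theorem persist (hF : F.Reg) (hp : p ∈ F.M) {x : E}
    (h : ∀ᶠ y in 𝓝 p.1, (y, p.2) ∈ F.M → y ≠ p.1 → dist x p.1 < dist x y) {ε : ℝ} (hε : 0 < ε) :
    ∃ r, 0 < r ∧ r ≤ ε ∧ ∀ᶠ z : ST in 𝓝 (x, p.2), ∃ y, (y, z.2) ∈ F.M ∧ dist y p.1 < r ∧
      F.PL (y, z.2) (z.1 - y) = 0 ∧
      ∀ y', (y', z.2) ∈ F.M → dist y' p.1 ≤ r → dist z.1 y ≤ dist z.1 y' := by
  obtain ⟨W, hW, hpW, hP⟩ := locProper hF hp
  obtain ⟨r1, hr1, h1⟩ := Metric.nhds_basis_closedBall.mem_iff.1 (hW.mem_nhds hpW)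
  obtain ⟨r2, hr2, h2⟩ := Metric.nhds_basis_closedBall.mem_iff.1 h
  obtain ⟨r, r0, q0, q1, q2⟩ : ∃ r, 0 < r ∧ r ≤ ε ∧ r ≤ r1 ∧ r ≤ r2 :=
    ⟨min ε (min r1 r2), lt_min hε (lt_min hr1 hr2), min_le_left _ _,
      (min_le_right _ _).trans (min_le_left _ _), (min_le_right _ _).trans (min_le_right _ _)⟩
  have hK : IsCompact (F.M ∩ closedBall p r) :=
    isCompact_inter hP (isCompact_closedBall p r) ((closedBall_subset_closedBall q1).trans h1)
  obtain ⟨c, c1, c2, c3⟩ := exists_curve hF hp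
  have hB : IsCompact ((F.M ∩ closedBall p r) ∩ {q | dist q.1 p.1 = r}) :=
    hK.inter_right (isClosed_eq (by fun_prop) continuous_const)
  have cs : ContinuousAt (fun z : ST => c z.2) (x, p.2) :=
    ContinuousAt.comp (f := fun z : ST => z.2) c1 continuousAt_snd
  have e1 : ∀ᶠ z : ST in 𝓝 (x, p.2), ∀ q ∈ (F.M ∩ closedBall p r) ∩ {q | dist q.1 p.1 = r},
      q.2 = z.2 → dist z.1 (c z.2) < dist z.1 q.1 := by
    refine hB.eventually_forall_of_forall_eventually fun q hq => ?_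
    by_cases e : q.2 = p.2
    · have a0 : ContinuousAt (fun w : ST × ST => c w.1.2) ((x, p.2), q) :=
        ContinuousAt.comp_of_eq (f := fun w : ST × ST => w.1.2) c1 (by fun_prop) rfl
      have a1 : ContinuousAt (fun w : ST × ST => dist w.1.1 (c w.1.2)) ((x, p.2), q) :=
        continuous_dist.continuousAt.comp₂ (by fun_prop) a0
      have a2 : ContinuousAt (fun w : ST × ST => dist w.1.1 w.2.1) ((x, p.2), q) := by fun_prop
      have hd : dist q.1 p.1 = r := hq.2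
      refine (a1.eventually_lt a2 ?_).mono fun w hw _ => hw
      simp only [c2]
      have hq' : ((q.1, p.2) : ST) ∈ F.M := by rw [← e]; exact hq.1.1
      refine h2 (mem_closedBall.2 (hd.trans_le q2)) hq' fun e' => ?_
      rw [e', dist_self] at hd
      exact r0.ne hd
    · have a1 : ContinuousAt (fun w : ST × ST => w.2.2 - w.1.2) ((x, p.2), q) := by fun_prop
      exact (a1.eventually_ne (sub_ne_zero.2 e)).mono fun w hw h' => absurd (sub_eq_zero.2 h') hw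
  have e2 : ∀ᶠ z : ST in 𝓝 (x, p.2), (c z.2, z.2) ∈ F.M :=
    (continuousAt_snd (p := ((x, p.2) : ST))).eventually c3
  have e3 : ∀ᶠ z : ST in 𝓝 (x, p.2), dist (c z.2) p.1 < r :=
    cs.eventually (show ∀ᶠ w in 𝓝 (c p.2), dist w p.1 < r by rw [c2]; exact ball_mem_nhds p.1 r0)
  have e4 : ∀ᶠ z : ST in 𝓝 (x, p.2), dist z.2 p.2 < r :=
    (continuousAt_snd (p := ((x, p.2) : ST))).eventually (ball_mem_nhds p.2 r0)
  refine ⟨r, r0, q0, ?_⟩
  filter_upwards [e1, e2, e3, e4] with z z1 z2 z3 z4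
  have mem : ∀ y', (y', z.2) ∈ F.M → dist y' p.1 ≤ r →
      ((y', z.2) : ST) ∈ (F.M ∩ closedBall p r) ∩ {q | q.2 = z.2} := fun y' a b =>
    ⟨⟨a, mem_closedBall.2 (by rw [Prod.dist_eq]; exact max_le b z4.le)⟩, rfl⟩
  have hK' : IsCompact ((F.M ∩ closedBall p r) ∩ {q : ST | q.2 = z.2}) :=
    hK.inter_right (isClosed_eq continuous_snd continuous_const)
  have cd : Continuous fun q : ST => dist z.1 q.1 := continuous_const.dist continuous_fst
  obtain ⟨q, hq, hm⟩ := hK'.exists_isMinOn ⟨_, mem _ z2 z3.le⟩ cd.continuousOn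
  have t1 : q.2 = z.2 := hq.2
  have t2 : ((q.1, z.2) : ST) ∈ F.M := by rw [← t1]; exact hq.1.1
  have t3 : ∀ y', (y', z.2) ∈ F.M → dist y' p.1 ≤ r → dist z.1 q.1 ≤ dist z.1 y' :=
    fun y' a b => by
      have := isMinOn_iff.1 hm (y', z.2) (mem y' a b)
      simpa only using this
  have t4 : dist q.1 p.1 < r := by
    have a0 := mem_closedBall.1 hq.1.2
    rw [Prod.dist_eq] at a0
    have a : dist q.1 p.1 ≤ r := (le_max_left _ _).trans a0
    refine lt_of_le_of_ne a fun e => ?_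
    exact (z1 q ⟨hq.1, e⟩ t1).not_ge (t3 _ z2 z3.le)
  refine ⟨q.1, t2, t4, crit_of_min hF t2 ?_, t3⟩
  have a : ∀ᶠ y in 𝓝 q.1, dist y p.1 < r := isOpen_ball.mem_nhds t4
  filter_upwards [a] with y b c using t3 y c b.le

end Crest.Agent.N250.Bar

end
end

-- ▼ part N250/A/Bar
section

/-!
# Row 250, block A (helper62): the first contact argument, `barS_of`
-/

set_option autoImplicit false
open MeasureTheory Set Filter Topology Metric
open scoped ContDiff InnerProductSpace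
open Crest.GeometryTopology.MCF

noncomputable section

namespace Crest.Agent.N250

namespace Bar

open A

variable {F : Mv}

/-- critical pairs are far apart when the reach is positive -/
theorem far (hF : F.Reg) {x y : E} {t ρ : ℝ} (hx : (x, t) ∈ F.M) (hy : (y, t) ∈ F.M) (hne : y ≠ x)
    (hc : F.PL (y, t) (x - y) = 0) (hr : F.Reach (y, t) ρ) : 2 * ρ ≤ dist x y := by
  have h4 : x - y = ⟪F.n (y, t), x - y⟫_ℝ • F.n (y, t) := sub_eq_zero.1 hc
  set c := ⟪F.n (y, t), x - y⟫_ℝ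
  have hn := hF.norm_n hy
  have e0 : dist x y = |c| := by rw [dist_eq_norm, h4, norm_smul, hn, mul_one, Real.norm_eq_abs]
  have c0 : c ≠ 0 := fun e => hne (by rw [e, zero_smul, sub_eq_zero] at h4; exact h4.symm)
  obtain ⟨h1, h2⟩ := hr x hx
  rw [dist_eq_norm, ← sub_sub, h4, ← sub_smul, norm_smul, hn, mul_one, Real.norm_eq_abs] at h1
  rw [dist_eq_norm, ← sub_add, h4, ← add_smul, norm_smul, hn, mul_one, Real.norm_eq_abs] at h2
  rw [e0]
  rcases lt_or_gt_of_ne c0 with h | h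
  · rw [abs_of_neg h]
    rcases le_abs'.1 h2 with h' | h' <;> linarith
  · rw [abs_of_pos h]
    rcases le_abs'.1 h1 with h' | h' <;> linarith

theorem hb_add (n : E) (g : ST → ℝ) (c : ℝ) (p : ST) : hb n (fun q => g q + c) p = hb n g p := by
  simp only [hb, d2, fderiv_add_const]

/-- one step of the continuity argument: no critical pair appears -/
theorem step (hT : TwoS) (hF : F.IsMCF) {ψ : ST → ℝ} {a₀ τ τ' ρ : ℝ} (hτ : a₀ < τ)
    (hK : IsCompact (F.M ∩ univ ×ˢ Icc τ τ')) (hρ : 0 < ρ)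
    (hR : ∀ p ∈ F.M, p.2 ∈ Icc τ τ' → F.Reach p ρ)
    (hc : ContinuousOn ψ (univ ×ˢ Icc τ τ')) (hp : ∀ p ∈ F.M, p.2 < τ' → 0 < ψ p)
    (hA : ∀ p ∈ F.M, p.2 ∈ Icc τ τ' → ∀ z, (z, p.2) ∈ F.M → dist z p.1 ≤ 2 * ψ p →
      64 * ψ p ^ 2 * F.A2 (z, p.2) < 1)
    (hS : ∀ p ∈ F.M, p.2 ∈ Icc τ τ' → ∃ g : ST → ℝ, ContDiffAt ℝ 2 g p ∧ g p = Real.log (ψ p) ∧
      (∀ᶠ q in 𝓝 p, q.2 < p.2 → g q ≤ Real.log (ψ q)) ∧ ∀ n : E, ‖n‖ = 1 → hb n g p < 0)
    (h0 : ∀ p ∈ F.M, a₀ < p.2 → p.2 ≤ τ → NoCrit F p (2 * ψ p)) :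
    ∀ p ∈ F.M, a₀ < p.2 → p.2 ≤ τ' → NoCrit F p (2 * ψ p) := by
  have hreg := hF.1
  set K := F.M ∩ univ ×ˢ Icc τ τ' with hKd
  let V : Set (ST × ST) := (K ×ˢ K) ∩ ((fun w : ST × ST =>
    ((w.1.2 - w.2.2, F.PL w.2 (w.1.1 - w.2.1), dist w.1.1 w.2.1 - 2 * ρ,
      2 * ψ w.1 - dist w.1.1 w.2.1) : ℝ × E × ℝ × ℝ)) ⁻¹' ({0} ×ˢ {0} ×ˢ Ici 0 ×ˢ Ici 0))
  have hV : IsCompact V := by
    refine (hK.prod hK).of_isClosed_subset ?_ inter_subset_left
    refine ContinuousOn.preimage_isClosed_of_isClosed ?_ (hK.prod hK).isClosed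
      (isClosed_singleton.prod (isClosed_singleton.prod (isClosed_Ici.prod isClosed_Ici)))
    have c1 : ContinuousOn (fun w : ST × ST => F.n w.2) (K ×ˢ K) :=
      hreg.sm_n.continuousOn.comp continuousOn_snd fun w hw => hw.2.1
    have c2 : ContinuousOn (fun w : ST × ST => ψ w.1) (K ×ˢ K) :=
      hc.comp continuousOn_fst fun w hw => hw.1.2
    have c3 : Continuous fun w : ST × ST => w.1.1 - w.2.1 := by fun_prop
    have c4 : Continuous fun w : ST × ST => dist w.1.1 w.2.1 := by fun_prop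
    refine ContinuousOn.prodMk (by fun_prop) (ContinuousOn.prodMk ?_ (ContinuousOn.prodMk
      (c4.continuousOn.sub continuousOn_const) ((continuousOn_const.mul c2).sub c4.continuousOn)))
    exact c3.continuousOn.sub ((c1.inner (𝕜 := ℝ) c3.continuousOn).smul c1)
  have memV : ∀ x y t, (x, t) ∈ F.M → (y, t) ∈ F.M → t ∈ Icc τ τ' → y ≠ x →
      F.PL (y, t) (x - y) = 0 → dist x y ≤ 2 * ψ (x, t) → ((x, t), (y, t)) ∈ V :=
    fun x y t hx hy ht hne hpl hd => ⟨⟨⟨hx, trivial, ht⟩, ⟨hy, trivial, ht⟩⟩, sub_self t, hpl,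
      sub_nonneg.2 (far hreg hx hy hne hpl (hR _ hy ht)), sub_nonneg.2 hd⟩
  have emp : ¬ V.Nonempty := by
    intro hne
    obtain ⟨⟨⟨x, t⟩, ⟨y, t'⟩⟩, ⟨⟨⟨hx, -, ht⟩, ⟨hy, -⟩⟩, e1, e2, e3, e4⟩, hm⟩ :=
      hV.exists_isMinOn hne (f := fun w => w.1.2) (by fun_prop)
    obtain rfl : t = t' := sub_eq_zero.1 e1
    have e2 : F.PL (y, t) (x - y) = 0 := e2
    have e3 : 2 * ρ ≤ dist x y := sub_nonneg.1 e3
    have e4 : dist x y ≤ 2 * ψ (x, t) := sub_nonneg.1 e4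
    have ht : t ∈ Icc τ τ' := ht
    have dpos : 0 < dist x y := by linarith
    have hxy : x ≠ y := dist_pos.1 dpos
    have past : ∀ p ∈ F.M, a₀ < p.2 → p.2 < t → NoCrit F p (2 * ψ p) := by
      intro p hp1 hp2 hp3
      rcases le_or_gt p.2 τ with h | h
      · exact h0 p hp1 hp2 h
      · intro z hz hne' hpl
        by_contra hd
        have := isMinOn_iff.1 hm _
          (memV p.1 z p.2 hp1 hz ⟨h.le, hp3.le.trans ht.2⟩ hne' hpl (not_lt.1 hd))
        exact absurd hp3 (not_lt.2 this)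
    have a1 := hA _ hx ht y hy (by rw [dist_comm]; exact e4)
    have a2 : 16 * dist x y ^ 2 * F.A2 (y, t) < 1 := by
      have b1 : dist x y ^ 2 ≤ (2 * ψ (x, t)) ^ 2 := pow_le_pow_left₀ dpos.le e4 2
      have b2 := mul_le_mul_of_nonneg_right b1 (A2_nonneg F (y, t))
      simp only at a1
      linarith
    obtain ⟨r, r0, r1, hper⟩ := persist hreg hy (strict_min hreg hy e2 a2) (half_pos dpos)
    obtain ⟨g, g1, g2, g3, g4⟩ := hS _ hx ht
    have l2 : ∀ s : ℝ, 0 < s → Real.log s + Real.log 2 = Real.log (2 * s) := fun s hs => by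
      rw [Real.log_mul two_ne_zero hs.ne', add_comm]
    have key := hT F hF x y t (fun q => g q + Real.log 2) hx hy hxy (g1.add contDiffAt_const) ?_ ?_
    · rw [hb_add] at key
      exact absurd (g4 _ (hreg.norm_n hx)) (not_lt.2 key)
    · have f1 : Tendsto (fun q : ST × E => q.1) (𝓝 ((x, t), y)) (𝓝 (x, t)) := continuousAt_fst
      have f2 : ∀ᶠ q : ST × E in 𝓝 ((x, t), y), dist q.2 y < r :=
        (continuousAt_snd (p := (((x, t), y) : ST × E))).eventually (ball_mem_nhds y r0)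
      have f3 : ∀ᶠ q : ST in 𝓝 (x, t), dist q.1 x < dist x y / 2 :=
        (continuousAt_fst (p := ((x, t) : ST))).eventually (ball_mem_nhds x (half_pos dpos))
      have f4 : ∀ᶠ q : ST in 𝓝 (x, t), a₀ < q.2 :=
        (continuousAt_snd (p := ((x, t) : ST))).eventually (Ioi_mem_nhds (hτ.trans_le ht.1))
      filter_upwards [f1.eventually hper, f1.eventually g3, f2, f1.eventually f3, f1.eventually f4]
        with q q1 q2 q3 q4 q5 hq hq' hlt
      obtain ⟨z, z1, z2, z3, z4⟩ := q1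
      have zne : z ≠ q.1.1 := fun e => by
        rw [e] at z2
        have := dist_triangle_left x y q.1.1
        linarith
      have n1 := past q.1 hq q5 hlt z z1 zne z3
      have n2 := z4 q.2 hq' q3.le
      have n3 := hp q.1 hq (hlt.trans_le ht.2)
      have n4 := q2 hlt
      have n5 := Real.log_le_log (by linarith) (n1.le.trans n2)
      linarith [l2 _ n3]
    · have n3 : 0 < ψ (x, t) := by linarith
      have := Real.log_le_log dpos e4
      linarith [l2 _ n3]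
  intro p hp1 hp2 hp3
  rcases le_or_gt p.2 τ with h | h
  · exact h0 p hp1 hp2 h
  · intro z hz hne hpl
    by_contra hd
    exact emp ⟨_, memV p.1 z p.2 hp1 hz ⟨h.le, hp3⟩ hne hpl (not_lt.1 hd)⟩

theorem psi_pos (F : Mv) (m : Measure ST) (y : E) (ε σ a₀ : ℝ) {B θ₁ : ℝ} {p : ST} (hB : 0 < B)
    (hθ : 0 < θ₁) (hp : p.2 < 0) : 0 < psi F m y ε B σ a₀ θ₁ p := by
  have : 0 < θ₁ * -p.2 := mul_pos hθ (neg_pos.2 hp)
  unfold psi
  positivity

theorem psi_le {m : Measure ST} {y : E} {ε σ a₀ B θ₁ : ℝ} {p : ST} (hB : 0 < B)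
    (hp : p.2 < 0) (hU : 0 ≤ UU F m y ε B σ a₀ p) :
    psi F m y ε B σ a₀ θ₁ p ≤ B⁻¹ * √√(θ₁ * -p.2) := by
  refine mul_le_of_le_one_right (by positivity) (Real.exp_le_one_iff.2 ?_)
  have : -‖p.1 - y‖ ^ 2 / (32 * -p.2) ≤ 0 :=
    div_nonpos_of_nonpos_of_nonneg (neg_nonpos.2 (sq_nonneg _)) (by linarith)
  linarith

theorem slice_closed {I : Set ℝ} {Λ : ℝ} (h : Fl F I Λ) {t : ℝ} (ht : t ∈ I) :
    IsClosed (F.sl t) := by
  refine isClosed_of_closure_subset fun x hx => h.proper (x, t) ?_ ⟨trivial, ht⟩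
  exact map_mem_closure (f := fun y : E => ((y, t) : ST)) (by fun_prop) hx fun y hy => hy

end Bar

open Bar A in
theorem A.barS_of (hKey : KeyS) (hCfg : CfgS) (hCR : A.CRS) (hT : TwoS) (hC : PsiCS)
    (hSub : PsiSubS) (hRP : ReachPosS) : BarS := by
  intro F a Λ G m hF hm
  have ha := hF.neg
  have hreg := hF.fl.mcf.1
  obtain ⟨ρ, hρ⟩ := hF.bdd
  obtain ⟨ε₀, hε₀, hSub⟩ := hSub Λ G
  obtain ⟨η₀, hη₀, hCR⟩ := hCR
  refine ⟨min ε₀ 1, lt_min hε₀ one_pos, fun ε hε hε1 => ?_⟩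
  obtain ⟨B₀, hKey⟩ := hKey Λ G ε 2 (min η₀ (1 / 65)) hε (lt_min hη₀ (by norm_num))
  obtain ⟨B₁, hB₁, hCfg⟩ := hCfg Λ G ε B₀ hε (hε1.trans (min_le_right _ _))
  have sub : ∀ s t, a < s → t < 0 → closedBall (0 : E) ρ ×ˢ Icc s t ⊆ univ ×ˢ Ioo a 0 :=
    fun s t hs ht q hq => ⟨trivial, hs.trans_le hq.2.1, hq.2.2.trans_lt ht⟩
  have rp : ∀ t < 0, ∃ r, 0 < r ∧ ∀ p ∈ F.M, p.2 ∈ Icc (3 * a / 4) t → F.Reach p r := fun t ht => by
    obtain ⟨r, h1, h2⟩ := hRP F hreg _ _ (isOpen_univ.prod isOpen_Ioo) hF.fl.proper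
      ((isCompact_closedBall (0 : E) ρ).prod isCompact_Icc) (sub (3 * a / 4) t (by linarith) ht)
    exact ⟨r, h1, fun p hp h => h2 p ⟨hp, mem_closedBall_zero_iff.2 (hρ p hp), h⟩⟩
  have cp : ∀ s t, a < s → t < 0 → IsCompact (F.M ∩ univ ×ˢ Icc s t) := fun s t hs ht => by
    have := isCompact_inter hF.fl.proper
      ((isCompact_closedBall (0 : E) ρ).prod isCompact_Icc) (sub s t hs ht)
    convert this using 1
    exact Subset.antisymm (fun q hq => ⟨hq.1, mem_closedBall_zero_iff.2 (hρ q hq.1), hq.2.2⟩)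
      fun q hq => ⟨hq.1, trivial, hq.2.2⟩
  obtain ⟨r₀, hr₀, hR₀⟩ := rp (a / 2) (by linarith)
  set B := max B₁ (√√(-a) / r₀ + 1) with hBd
  have hB : 0 < B := hB₁.trans_le (le_max_left _ _)
  refine ⟨B, 1, hB, one_pos, fun y θ₁ hθ hθ1 => ?_⟩
  obtain ⟨⟨c, hc, hlow⟩, hcont⟩ := hC F a Λ G m hF hm y ε B θ₁ hε.le hB hθ
  refine ⟨min (c ^ 2) θ₁, lt_min (pow_pos hc 2) hθ, fun σ hσ hσ1 => ?_⟩
  set ψ := psi F m y ε B σ (3 * a / 4) θ₁ with hψ
  obtain ⟨hcont, hU⟩ := hcont σ hσ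
  have neg : ∀ p ∈ F.M, p.2 < 0 := fun p hp => (hF.fl.time p hp).2
  have pos : ∀ p ∈ F.M, 0 < ψ p := fun p hp => psi_pos F m y ε σ _ hB hθ (neg p hp)
  obtain ⟨r₁, hr₁, hR₁⟩ := rp (-θ₁) (by linarith)
  have init : ∀ p ∈ F.M, 3 * a / 4 < p.2 → p.2 ≤ a / 2 →
      F.Reach p (ψ p) ∧ NoCrit F p (2 * ψ p) := by
    intro p hp h1 h2
    have l1 : ψ p < r₀ := by
      refine (psi_le hB (neg p hp) (hU p (neg p hp))).trans_lt ?_
      have l2 : √√(θ₁ * -p.2) ≤ √√(-a) :=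
        Real.sqrt_le_sqrt (Real.sqrt_le_sqrt (by nlinarith [neg p hp]))
      have l3 : √√(-a) / r₀ < B := lt_of_lt_of_le (lt_add_one _) (le_max_right _ _)
      rw [div_lt_iff₀ hr₀] at l3
      rw [inv_mul_lt_iff₀ hB]
      linarith
    refine ⟨Lim.reach_mono (hreg.norm_n hp) (hR₀ p hp ⟨h1.le, h2⟩) l1.le, fun z hz hne hpl => ?_⟩
    have := far hreg (t := p.2) hp hz hne hpl (hR₀ _ hz ⟨h1.le, h2⟩)
    linarith
  have main : ∀ n : ℕ, ∀ p ∈ F.M, 3 * a / 4 < p.2 → p.2 ≤ a / 2 + n * c ^ 2 →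
      (p.2 ≤ -θ₁ ∨ p.2 ≤ a / 2) → F.Reach p (ψ p) ∧ NoCrit F p (2 * ψ p) := by
    intro n
    induction n with
    | zero => exact fun p hp h1 h2 _ => init p hp h1 (by simpa using h2)
    | succ n ih =>
      have c2 : 0 < c ^ 2 := pow_pos hc 2
      have nc : 0 ≤ (n : ℝ) * c ^ 2 := by positivity
      have curv : ∀ p ∈ F.M, p.2 ∈ Icc (a / 2 + n * c ^ 2) (min (a / 2 + (n + 1) * c ^ 2) (-θ₁)) →
          ∀ z, (z, p.2) ∈ F.M → dist z p.1 ≤ 2 * ψ p →
          F.A2 (z, p.2) ≤ min η₀ (1 / 65) / ψ p ^ 2 := by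
        intro p hp ht z hz hd
        have t1 := ht.2.trans (min_le_left _ _)
        have t2 := ht.2.trans (min_le_right _ _)
        have p0 := pos p hp
        have l1 : c ^ 2 ≤ ψ p ^ 2 :=
          pow_le_pow_left₀ hc.le (hlow σ hσ p hp ⟨by linarith [ht.1], t2⟩) 2
        obtain ⟨ν, σ', B', R, b1, b2, b3⟩ := hCfg F a m hF hm y B σ θ₁ p (le_max_left _ _) hσ hθ
          ⟨by linarith [ht.1], t2⟩ ((hσ1.trans (min_le_left _ _)).trans l1) fun q hq q1 q2 => by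
            obtain ⟨u1, u2⟩ := ih q hq q1 (by linarith) (Or.inl (by linarith))
            exact ⟨u1, fun w w1 w2 w3 => by linarith [u2 w w1 w2 w3, pos q hq]⟩
        have e : ((p.1 + (ψ p)⁻¹⁻¹ • ((ψ p)⁻¹ • (z - p.1)), p.2 + 0 / (ψ p)⁻¹ ^ 2) : ST) =
            (z, p.2) := by
          rw [inv_inv, smul_smul, mul_inv_cancel₀ p0.ne', one_smul, add_sub_cancel, zero_div,
            add_zero]
        have mem : (((ψ p)⁻¹ • (z - p.1), 0) : ST) ∈ (F.para p (ψ p)⁻¹).M := by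
          change _ ∈ F.M
          simp only [e]
          exact hz
        have k := hKey _ ν σ' B' R b1 b2 b3 _ mem (by
          rw [norm_smul, norm_inv, Real.norm_eq_abs, abs_of_pos p0, ← dist_eq_norm,
            inv_mul_le_iff₀ p0]
          linarith)
        rw [Tr.para_A2 p (inv_pos.2 p0) hreg mem] at k
        simp only [e] at k
        rw [inv_inv] at k
        rw [le_div_iff₀ (pow_pos p0 2)]
        linarith
      intro p hp h1 h2 h3
      rcases le_or_gt p.2 (a / 2 + n * c ^ 2) with h4 | h4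
      · exact ih p hp h1 h4 h3
      have h5 : p.2 ≤ -θ₁ := h3.resolve_right (by linarith)
      push_cast at h2
      have h6 : p.2 ≤ min (a / 2 + (n + 1) * c ^ 2) (-θ₁) := le_min h2 h5
      have m0 : min (a / 2 + (n + 1) * c ^ 2) (-θ₁) ≤ -θ₁ := min_le_right _ _
      have nocrit : NoCrit F p (2 * ψ p) := by
        refine step hT hF.fl.mcf (a₀ := 3 * a / 4) (τ := a / 2 + n * c ^ 2)
          (τ' := min (a / 2 + (n + 1) * c ^ 2) (-θ₁)) (by linarith)
          (cp _ _ (by linarith) (by linarith)) hr₁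
          (fun q hq ht => hR₁ q hq ⟨by linarith [ht.1], ht.2.trans m0⟩)
          (hcont.mono fun q hq => ⟨trivial, lt_of_le_of_lt (hq.2.2.trans m0) (by linarith)⟩)
          (fun q hq _ => pos q hq) (fun q hq ht z hz hd => ?_) (fun q hq ht => ?_)
          (fun q hq q1 q2 => (ih q hq q1 q2 (Or.inl (by linarith))).2) p hp h1 h6
        · have := curv q hq ht z hz hd
          rw [le_div_iff₀ (pow_pos (pos q hq) 2)] at this
          linarith [min_le_right η₀ (1 / 65)]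
        · exact hSub F a m hF hm y ε B σ θ₁ q hε.le (hε1.trans (min_le_left _ _)) hB hσ hθ
            ((hσ1.trans (min_le_right _ _)).trans (by linarith [ht.2.trans m0]))
      refine ⟨hCR F p _ hreg hp (pos p hp) (slice_closed hF.fl (hF.fl.time p hp)) nocrit
        fun z hz hd => (curv p hp ⟨h4.le, h6⟩ z hz hd).trans ?_, nocrit⟩
      exact div_le_div_of_nonneg_right (min_le_left _ _) (sq_nonneg _)
  intro p hp h1 h2
  obtain ⟨n, hn⟩ := exists_nat_ge (-a / c ^ 2)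
  rw [div_le_iff₀ (pow_pos hc 2)] at hn
  exact (main n p hp h1 (by linarith [neg p hp]) (Or.inl h2)).1

end Crest.Agent.N250

end
end

-- ▼ part N250/A/CR
section

/-!
# Row 250, block A (helper60): no critical pairs and small curvature give the two balls
-/

set_option autoImplicit false
open MeasureTheory Set Filter Topology Metric
open scoped ContDiff InnerProductSpace
open Crest.GeometryTopology.MCF

noncomputable section

namespace Crest.Agent.N250.A.CR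

open MP

variable {F : Mv}

theorem ev_gt {f : ℝ → ℝ} {d : ℝ} (h : HasDerivAt f d 0) (hd : 0 < d) :
    ∀ᶠ s in 𝓝[>] 0, f 0 < f s := by
  have := ((hasDerivAt_iff_tendsto_slope_zero.1 h).mono_left (nhdsGT_le_nhdsNE 0)).eventually
    (lt_mem_nhds hd)
  filter_upwards [this, self_mem_nhdsWithin] with s h1 h2
  simp only [zero_add, smul_eq_mul] at h1
  have := (mul_pos_iff_of_pos_left (inv_pos.2 h2)).1 h1
  linarith

theorem inner_PL_self (hF : F.Reg) {p : ST} (hp : p ∈ F.M) (v : E) :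
    ⟪v, F.PL p v⟫_ℝ = ‖F.PL p v‖ ^ 2 := by
  rw [← real_inner_self_eq_norm_sq]
  nth_rewrite 2 [Mv.PL]
  rw [inner_sub_left, inner_smul_left, inner_PL hF hp]; simp

theorem norm_PL_sq (hF : F.Reg) {p : ST} (hp : p ∈ F.M) (v : E) :
    ‖F.PL p v‖ ^ 2 = ‖v‖ ^ 2 - ⟪F.n p, v⟫_ℝ ^ 2 := by
  rw [← inner_PL_self hF hp, Mv.PL, inner_sub_right, inner_smul_right, real_inner_self_eq_norm_sq,
    real_inner_comm]
  ring

/-- a function that increases towards the centre is at most its value at the centre -/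
theorem lagr (hF : F.Reg) {x : E} {t R : ℝ} (hK : IsCompact (F.sl t ∩ closedBall x R))
    (hN : NoCrit F (x, t) R) {h : ST → ℝ} (hc : ContinuousOn h F.M)
    (h0 : (x, t) ∈ F.M → h (x, t) ≤ 0)
    (hd : ∀ y ∈ F.sl t, dist y x ≤ R → y ≠ x → F.PL (y, t) (x - y) ≠ 0 →
      ∃ g, DifferentiableAt ℝ g (y, t) ∧ h =ᶠ[𝓝[F.M] (y, t)] g ∧
        0 < fderiv ℝ g (y, t) (F.PL (y, t) (x - y), 0)) :
    ∀ y ∈ F.sl t, dist y x ≤ R → h (y, t) ≤ 0 := by
  intro y₀ hy₀ hd₀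
  obtain ⟨y, ⟨hy, hyR⟩, hmax⟩ := hK.exists_isMaxOn ⟨y₀, hy₀, hd₀⟩
    (hc.comp (f := fun z : E => (z, t)) (by fun_prop) fun z hz => hz.1)
  refine le_trans (hmax ⟨hy₀, hd₀⟩) ?_
  by_cases hyx : y = x
  · subst hyx; exact h0 hy
  exfalso
  have hP : F.PL (y, t) (x - y) ≠ 0 := fun h =>
    absurd (hN y hy hyx h) (not_lt.2 (by rw [dist_comm]; exact hyR))
  obtain ⟨g, hg, he, hpos⟩ := hd y hy hyR hyx hP
  obtain ⟨π, hπ⟩ := exists_ret hF (p := (y, t)) hy
  set P := F.PL (y, t) (x - y) with hPd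
  have hcv : HasDerivAt (fun s : ℝ => π ((y, t) + s • ((P, 0) : ST))) (P, 0) 0 := by
    have := HasFDerivAt.comp_hasDerivAt 0 (f := fun s : ℝ => (y, t) + s • ((P, 0) : ST)) (l := π)
      (by simpa using (hπ.sm.differentiableAt (by simp)).hasFDerivAt) (line_deriv _ _ 0)
    rwa [hπ.tan _ (tn_PL hF hy _)] at this
  have hc0 : π ((y, t) + (0 : ℝ) • ((P, 0) : ST)) = (y, t) := by simpa using hπ.fix
  have h1 : HasDerivAt (fun s : ℝ => g (π ((y, t) + s • ((P, 0) : ST))))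
      (fderiv ℝ g (y, t) (P, 0)) 0 :=
    HasFDerivAt.comp_hasDerivAt 0 (l := g) (by rw [hc0]; exact hg.hasFDerivAt) hcv
  have h2 : HasDerivAt (fun s : ℝ => -‖(π ((y, t) + s • ((P, 0) : ST))).1 - x‖ ^ 2)
      (2 * ‖P‖ ^ 2) 0 := by
    have h5 : HasDerivAt (fun s : ℝ => (π ((y, t) + s • ((P, 0) : ST))).1 - x) P 0 :=
      ((ContinuousLinearMap.fst ℝ E ℝ).hasFDerivAt.comp_hasDerivAt 0 hcv).sub_const x
    have := h5.norm_sq.neg
    rw [hc0] at this
    refine this.congr_deriv ?_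
    rw [← inner_PL_self hF hy, ← neg_sub x y, inner_neg_left]; ring
  have t1 := line_tendsto ((y, t) : ST) (P, 0)
  obtain ⟨s, s1, s2, s3, s4⟩ := ((ev_gt h1 hpos).and ((ev_gt h2 (by positivity)).and
    (((t1.eventually hπ.ev).and ((hπ.tendsto.comp t1).eventually he)).filter_mono
      nhdsWithin_le_nhds))).exists
  rw [hc0] at s1 s2
  set q := π ((y, t) + s • ((P, 0) : ST)) with hq
  have hq2 : q = (q.1, t) := Prod.ext rfl (s3.2.1.trans (by simp))
  have hq1 : q.1 ∈ F.sl t ∩ closedBall x R := by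
    refine ⟨by show (q.1, t) ∈ F.M; rw [← hq2]; exact s3.1,
      mem_closedBall.2 (le_trans ?_ (mem_closedBall.1 hyR))⟩
    rw [dist_eq_norm, dist_eq_norm]
    exact (lt_of_pow_lt_pow_left₀ 2 (norm_nonneg _) (by linarith)).le
  have h3 : h (q.1, t) ≤ h (y, t) := hmax hq1
  rw [← hq2, he.eq_of_nhdsWithin hy] at h3
  have h4 : h q = g q := s4
  linarith

/-- the derivative of the normal along tangent vectors -/
theorem dN_le (hF : F.Reg) {p : ST} (hp : p ∈ F.M) {N : ST → E} (hN : DifferentiableAt ℝ N p)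
    (hn : F.n =ᶠ[𝓝[F.M] p] N) {κ : ℝ} (hκ : 0 ≤ κ) (hA : F.A2 p ≤ κ ^ 2) (v : E) :
    ‖fderiv ℝ N p (F.PL p v, 0)‖ ≤ κ * ‖F.PL p v‖ := by
  set w := F.PL p v with hw
  let L : E →L[ℝ] E := (fderiv ℝ N p).comp (ContinuousLinearMap.inl ℝ E ℝ)
  have e1 : ∀ b, fderiv ℝ N p (w, 0) b = ∑ a, w a * F.A a b p := fun b => by
    have : fderiv ℝ N p (w, 0) = L (∑ a, w a • F.PL p (ee a)) := by
      rw [← PL_sum, sum_ee, hw, PL_PL hF hp]; rfl
    rw [this, map_sum]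
    simp [L, A_eq hF hp hN hn]
  refine abs_le_of_sq_le_sq' ?_ (by positivity) |>.2
  rw [mul_pow, EuclideanSpace.real_norm_sq_eq, EuclideanSpace.real_norm_sq_eq]
  calc ∑ b, fderiv ℝ N p (w, 0) b ^ 2 ≤ ∑ b, (∑ a, w a ^ 2) * ∑ a, F.A a b p ^ 2 :=
        Finset.sum_le_sum fun b _ => by rw [e1]; exact Finset.sum_mul_sq_le_sq_mul_sq _ _ _
    _ = (∑ a, w a ^ 2) * F.A2 p := by
        rw [← Finset.mul_sum, Finset.sum_comm]
        simp [Mv.A2, sq]
    _ ≤ _ := by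
        rw [mul_comm]
        exact mul_le_mul_of_nonneg_right hA (Finset.sum_nonneg fun _ _ => sq_nonneg _)

theorem dN_n (hF : F.Reg) {p : ST} (hp : p ∈ F.M) {N : ST → E} (hN : DifferentiableAt ℝ N p)
    (hn : F.n =ᶠ[𝓝[F.M] p] N) (v : E) : ⟪fderiv ℝ N p (F.PL p v, 0), F.n p⟫_ℝ = 0 := by
  have h1 := hN.hasFDerivAt.inner ℝ hN.hasFDerivAt
  have h2 : (fun _ => (1 : ℝ)) =ᶠ[𝓝[F.M] p] fun q => ⟪N q, N q⟫_ℝ := by
    filter_upwards [hn, self_mem_nhdsWithin] with q q1 q2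
    rw [← q1, inner_nn hF q2]
  have h3 := td_eq hF hp h1.differentiableAt h2 (tn_PL hF hp v)
  rw [td_eq hF hp (differentiableAt_const (1 : ℝ)) EventuallyEq.rfl (tn_PL hF hp v), h1.fderiv] at h3
  simp only [fderiv_fun_const, Pi.zero_apply, _root_.zero_apply, ContinuousLinearMap.comp_apply,
    ContinuousLinearMap.prod_apply, fderivInnerCLM_apply, ← hn.eq_of_nhdsWithin hp] at h3
  rw [real_inner_comm] at h3
  linarith

/-- the chord from the centre is almost tangent at its other end -/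
theorem chord (hF : F.Reg) {x : E} {t R κ κ' : ℝ} (hK : IsCompact (F.sl t ∩ closedBall x R))
    (hN : NoCrit F (x, t) R) (hκ : 0 ≤ κ) (hκ' : κ < κ')
    (hA : ∀ y ∈ F.sl t, dist y x ≤ R → F.A2 (y, t) ≤ κ ^ 2) :
    ∀ y ∈ F.sl t, dist y x ≤ R → |⟪F.n (y, t), y - x⟫_ℝ| ≤ κ' * ‖y - x‖ ^ 2 / 2 := by
  have key : ∀ e : ℝ, |e| = 1 → ∀ y ∈ F.sl t, dist y x ≤ R →
      e * ⟪F.n (y, t), y - x⟫_ℝ - κ' / 2 * ‖y - x‖ ^ 2 ≤ 0 := fun e he => by
    refine lagr hF hK hN (h := fun q => e * ⟪F.n q, q.1 - x⟫_ℝ - κ' / 2 * ‖q.1 - x‖ ^ 2)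
      ((continuousOn_const.mul ((sm_n hF).continuousOn.inner (by fun_prop))).sub (by fun_prop))
      (fun _ => by simp) fun y hy hR _ hP => ?_
    obtain ⟨N, hNs, hn⟩ := n_ext hF (p := (y, t)) hy
    have hNd := hNs.differentiableAt (by simp)
    have h0 := (hasFDerivAt_fst (𝕜 := ℝ) (p := ((y, t) : ST))).sub_const x
    have h1 := ((hNd.hasFDerivAt.inner ℝ h0).const_mul e).sub (h0.norm_sq.const_mul (κ' / 2))
    refine ⟨_, h1.differentiableAt, hn.mono fun q hq => by simp [hq], ?_⟩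
    rw [h1.fderiv]
    have a1 := dN_le hF hy hNd hn hκ (hA y hy hR) (x - y)
    have a2 := dN_n hF hy hNd hn (x - y)
    have a3 := inner_PL_self hF hy (x - y)
    have a4 := inner_PL hF hy (x - y)
    have a6 : x - y = F.PL (y, t) (x - y) + ⟪F.n (y, t), x - y⟫_ℝ • F.n (y, t) := by simp [Mv.PL]
    set P := F.PL (y, t) (x - y) with hPd
    set u := fderiv ℝ N (y, t) (P, 0) with hu
    have a5 : ⟪u, x - y⟫_ℝ = ⟪u, P⟫_ℝ := by
      rw [a6, inner_add_right, inner_smul_right, a2, mul_zero, add_zero]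
    have a7 : |e * ⟪u, P⟫_ℝ| ≤ κ * ‖P‖ * ‖P‖ := by
      rw [abs_mul, he, one_mul]
      exact (abs_real_inner_le_norm _ _).trans (mul_le_mul_of_nonneg_right a1 (norm_nonneg _))
    have a8 : 0 < ‖P‖ ^ 2 := by positivity
    simp only [_root_.sub_apply, _root_.smul_apply, ContinuousLinearMap.comp_apply,
      ContinuousLinearMap.prod_apply, fderivInnerCLM_apply, ← hn.eq_of_nhdsWithin hy,
      ContinuousLinearMap.coe_fst', innerSL_apply_apply, smul_eq_mul, nsmul_eq_mul]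
    rw [a4, ← hu, ← neg_sub x y, inner_neg_right, inner_neg_left, a5, a3]
    have := (abs_le.1 a7).2
    push_cast
    nlinarith
  intro y hy hR
  have h1 := key 1 (by simp) y hy hR
  have h2 := key (-1) (by simp) y hy hR
  exact abs_le.2 ⟨by linarith, by linarith⟩

/-- the normal is Lipschitz from the centre -/
theorem nlip (hF : F.Reg) {x : E} {t R κ : ℝ} (hK : IsCompact (F.sl t ∩ closedBall x R))
    (hN : NoCrit F (x, t) R) (hκ : 0 < κ)
    (hA : ∀ y ∈ F.sl t, dist y x ≤ R → F.A2 (y, t) ≤ κ ^ 2)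
    (hT : ∀ y ∈ F.sl t, dist y x ≤ R → ‖x - y‖ ≤ 2 * ‖F.PL (y, t) (x - y)‖) :
    ∀ y ∈ F.sl t, dist y x ≤ R → ‖F.n (y, t) - F.n (x, t)‖ ≤ 3 * κ * ‖y - x‖ := by
  have key : ∀ w : E, w ≠ 0 → ∀ y ∈ F.sl t, dist y x ≤ R →
      ⟪F.n (y, t) - F.n (x, t), w⟫_ℝ - 3 * κ * ‖w‖ * √(‖y - x‖ ^ 2) ≤ 0 := fun w hw => by
    refine lagr hF hK hN
      (h := fun q => ⟪F.n q - F.n (x, t), w⟫_ℝ - 3 * κ * ‖w‖ * √(‖q.1 - x‖ ^ 2))
      ((((sm_n hF).continuousOn.sub continuousOn_const).inner continuousOn_const).sub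
        (by fun_prop)) (fun _ => by simp) fun y hy hR hyx hP => ?_
    obtain ⟨N, hNs, hn⟩ := n_ext hF (p := (y, t)) hy
    have hNd := hNs.differentiableAt (by simp)
    have hd : 0 < ‖y - x‖ := norm_pos_iff.2 (sub_ne_zero.2 hyx)
    have h0 := (hasFDerivAt_fst (𝕜 := ℝ) (p := ((y, t) : ST))).sub_const x
    have h1 := ((hNd.hasFDerivAt.sub_const (F.n (x, t))).inner ℝ (hasFDerivAt_const w _)).sub
      ((h0.norm_sq.sqrt (by positivity)).const_mul (3 * κ * ‖w‖))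
    refine ⟨_, h1.differentiableAt, hn.mono fun q hq => by simp [hq], ?_⟩
    rw [h1.fderiv]
    have a1 := dN_le hF hy hNd hn hκ.le (hA y hy hR) (x - y)
    have a3 := inner_PL_self hF hy (x - y)
    have a4 := hT y hy hR
    set P := F.PL (y, t) (x - y) with hPd
    set u := fderiv ℝ N (y, t) (P, 0) with hu
    have a7 : |⟪u, w⟫_ℝ| ≤ κ * ‖P‖ * ‖w‖ :=
      (abs_real_inner_le_norm _ _).trans (mul_le_mul_of_nonneg_right a1 (norm_nonneg _))
    have a8 : 0 < ‖P‖ := norm_pos_iff.2 hP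
    have a9 : 0 < ‖w‖ := norm_pos_iff.2 hw
    simp only [_root_.sub_apply, _root_.smul_apply, ContinuousLinearMap.comp_apply,
      ContinuousLinearMap.prod_apply, fderivInnerCLM_apply, _root_.zero_apply, inner_zero_right,
      ContinuousLinearMap.coe_fst', innerSL_apply_apply, smul_eq_mul, nsmul_eq_mul,
      Real.sqrt_sq hd.le]
    rw [← hu, ← neg_sub x y, inner_neg_left, a3, norm_neg]
    rw [← norm_sub_rev] at hd
    have b1 : 1 / 2 ≤ ‖P‖ / ‖x - y‖ := by rw [le_div_iff₀ hd]; linarith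
    have b2 : 1 / (2 * ‖x - y‖) * (((2 : ℕ) : ℝ) * -‖P‖ ^ 2) = -(‖P‖ * (‖P‖ / ‖x - y‖)) := by
      push_cast; field_simp
    rw [b2]
    have b3 : 0 < κ * ‖P‖ * ‖w‖ := by positivity
    have := (abs_le.1 a7).1
    nlinarith
  intro y hy hR
  by_cases h : F.n (y, t) - F.n (x, t) = 0
  · rw [h, norm_zero]; positivity
  have h1 := key _ h y hy hR
  rw [Real.sqrt_sq (norm_nonneg _), real_inner_self_eq_norm_sq] at h1
  have h2 := norm_pos_iff.2 h
  nlinarith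

end CR

open CR MP in
theorem crS_holds : CRS := by
  refine ⟨1 / 100, by norm_num, fun F p r hF hp hr hc hN hA => ?_⟩
  obtain ⟨x, t⟩ := p
  have hK : IsCompact (F.sl t ∩ closedBall x (2 * r)) :=
    (isCompact_closedBall x (2 * r)).inter_left hc
  have hκ : 0 < 1 / (10 * r) := by positivity
  have hA' : ∀ y ∈ F.sl t, dist y x ≤ 2 * r → F.A2 (y, t) ≤ (1 / (10 * r)) ^ 2 := fun y hy h =>
    (hA y hy h).trans_eq (by field_simp; norm_num)
  have h1 := chord hF hK hN hκ.le (κ' := 2 * (1 / (10 * r))) (by linarith) hA'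
  have h1' : ∀ y ∈ F.sl t, dist y x ≤ 2 * r →
      |⟪F.n (y, t), y - x⟫_ℝ| ≤ ‖y - x‖ ^ 2 / (10 * r) := fun y hy h =>
    (h1 y hy h).trans_eq (by field_simp)
  have h2 := nlip hF hK hN hκ hA' fun y hy h => by
    have b1 := h1' y hy h
    rw [dist_eq_norm] at h
    have b2 : ‖y - x‖ ^ 2 / (10 * r) ≤ ‖y - x‖ / 5 := by
      rw [div_le_div_iff₀ (by positivity) (by norm_num)]
      nlinarith [norm_nonneg (y - x)]
    have b3 := norm_PL_sq hF hy (x - y)
    rw [← neg_sub y x, inner_neg_right, norm_neg] at b3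
    rw [← neg_sub y x, norm_neg]
    refine abs_le_of_sq_le_sq' ?_ (by positivity) |>.2
    have b4 := sq_le_sq' (abs_le.1 (b1.trans b2)).1 (abs_le.1 (b1.trans b2)).2
    nlinarith [sq_nonneg ‖y - x‖]
  rw [Im.reach_iff (norm_n hF hp) hr]
  intro y hy
  show |⟪F.n (x, t), y - x⟫_ℝ| ≤ ‖y - x‖ ^ 2 / (2 * r)
  by_cases h : dist y x ≤ 2 * r
  · have b1 := h1' y hy h
    have b2 := (abs_real_inner_le_norm (F.n (y, t) - F.n (x, t)) (y - x)).trans
      (mul_le_mul_of_nonneg_right (h2 y hy h) (norm_nonneg _))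
    rw [inner_sub_left] at b2
    have b3 : 3 * (1 / (10 * r)) * ‖y - x‖ * ‖y - x‖ = 3 * (‖y - x‖ ^ 2 / (10 * r)) := by
      field_simp
    have b4 : ‖y - x‖ ^ 2 / (2 * r) = 5 * (‖y - x‖ ^ 2 / (10 * r)) := by field_simp; ring
    have b5 : 0 ≤ ‖y - x‖ ^ 2 / (10 * r) := by positivity
    rw [b3] at b2
    rw [b4]
    exact abs_le.2 ⟨by linarith [abs_le.1 b1, abs_le.1 b2], by linarith [abs_le.1 b1, abs_le.1 b2]⟩
  · rw [dist_eq_norm, not_le] at h
    refine (abs_real_inner_le_norm _ _).trans ?_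
    rw [norm_n hF hp, one_mul, le_div_iff₀ (by positivity)]
    nlinarith [norm_nonneg (y - x)]

end Crest.Agent.N250.A

end
end

-- ▼ part N250/A/Cfg
section

/-!
# Row 250, block A (helper36): rescaling at a point gives a normalised configuration
-/

set_option autoImplicit false
open MeasureTheory Set Filter Topology Metric
open scoped ContDiff InnerProductSpace
open Crest.GeometryTopology.MCF

noncomputable section

namespace Crest.Agent.N250.A

namespace Cf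

variable {F : Mv} {m : Measure ST} {a Λ G ε B κ σ t t' : ℝ} {y : E} {p q : ST}

/-- the strip -/
abbrev Sp (a t : ℝ) : Set ST := {q : ST | 3 * a / 4 < q.2 ∧ q.2 < t}

theorem meas_Sp (a t : ℝ) : MeasurableSet (Sp a t) := measurable_snd measurableSet_Ioo

/-- the compensating density -/
def ex (F : Mv) (t : ℝ) (q : ST) : ℝ := F.A2 q * (2 * (t - q.2) / q.2 ^ 2)

/-- the frozen density -/
def ww (F : Mv) (y : E) (ε B κ t : ℝ) (q : ST) : ℝ := dens F y ε B t q + κ * ex F t q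

/-- the frozen source -/
def rho (F : Mv) (m : Measure ST) (y : E) (a ε B κ t : ℝ) : Measure ST :=
  (m.restrict (Sp a t)).withDensity fun q => ENNReal.ofReal (ww F y ε B κ t q)

theorem ex_nonneg (h : q.2 ≤ t) : 0 ≤ ex F t q :=
  mul_nonneg (A2_nonneg F q) (div_nonneg (by linarith) (sq_nonneg _))

theorem damp (h : q.2 ≤ t) (ht : t < 0) : 0 ≤ 1 - ((t - q.2) / q.2) ^ 2 := by
  have : 0 < q.2 ^ 2 := by nlinarith
  rw [div_pow, sub_nonneg, div_le_one this]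
  nlinarith

theorem dev_le (hε : 0 ≤ ε) (hκ : 0 ≤ κ) (h : q.2 ≤ t) (ht : t < 0) :
    ε * B * F.dev (y, 0) q ^ 2 ≤ ww F y ε B κ t q := by
  have h1 := mul_nonneg (mul_nonneg hε (A2_nonneg F q)) (damp h ht)
  have h2 := mul_nonneg hκ (ex_nonneg (F := F) h)
  unfold ww dens
  linarith

theorem ww_nonneg (hε : 0 ≤ ε) (hB : 0 ≤ B) (hκ : 0 ≤ κ) (h : q.2 ≤ t) (ht : t < 0) : 0 ≤ ww F y ε B κ t q :=
  le_trans (by positivity) (dev_le hε hκ h ht)

theorem A2_le (hε : 0 ≤ ε) (hB : 0 ≤ B) (hκ : 0 ≤ κ) (h : q.2 ≤ t) (h2 : ((t - q.2) / q.2) ^ 2 ≤ 1 / 2) :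
    ε / 2 * F.A2 q ≤ ww F y ε B κ t q := by
  have h1 := mul_le_mul_of_nonneg_left h2 (mul_nonneg hε (A2_nonneg F q))
  have h3 := mul_nonneg hκ (ex_nonneg (F := F) h)
  have h4 : 0 ≤ ε * B * F.dev (y, 0) q ^ 2 := by positivity
  unfold ww dens
  linarith

theorem dens_le (hε : 0 ≤ ε) (h : q.2 ≤ t') (h' : t' ≤ t) (hκ : ε * (t - t') ≤ κ) :
    dens F y ε B t' q ≤ ww F y ε B κ t q := by
  have h1 : ((t - q.2) / q.2) ^ 2 - ((t' - q.2) / q.2) ^ 2 ≤ (t - t') * (2 * (t - q.2) / q.2 ^ 2) := by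
    rw [div_pow, div_pow, ← sub_div, ← mul_div_assoc]
    refine div_le_div_of_nonneg_right ?_ (sq_nonneg _)
    nlinarith
  have h2 := mul_le_mul_of_nonneg_left h1 (mul_nonneg hε (A2_nonneg F q))
  have h3 := mul_le_mul_of_nonneg_right hκ (ex_nonneg (F := F) (h.trans h'))
  unfold ww dens
  unfold ex at h3 ⊢
  linarith

theorem cont_dens (hF : F.Reg) (ht : t < 0) (s : ℝ) :
    ContinuousOn (dens F y ε B t') (F.M ∩ univ ×ˢ Icc s t) := by
  have h1 := (cont_A2 hF).mono (inter_subset_left (t := univ ×ˢ Icc s t))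
  have h2 : ContinuousOn (F.dev (y, 0)) (F.M ∩ univ ×ˢ Icc s t) := fun q hq =>
    (hF.dev_cont hq.1 (hq.2.2.2.trans_lt ht)).mono inter_subset_left
  have h3 : ∀ q ∈ F.M ∩ univ ×ˢ Icc s t, q.2 ≠ 0 := fun q hq => (hq.2.2.2.trans_lt ht).ne
  unfold dens
  fun_prop (disch := exact h3)

theorem cont_ex (hF : F.Reg) (ht : t < 0) (s : ℝ) : ContinuousOn (ex F t') (F.M ∩ univ ×ˢ Icc s t) := by
  have h1 := (cont_A2 hF).mono (inter_subset_left (t := univ ×ˢ Icc s t))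
  have h3 : ∀ q ∈ F.M ∩ univ ×ˢ Icc s t, q.2 ^ 2 ≠ 0 := fun q hq => pow_ne_zero 2 (hq.2.2.2.trans_lt ht).ne
  unfold ex
  fun_prop (disch := exact h3)

theorem cont_ww (hF : F.Reg) (ht : t < 0) (s : ℝ) :
    ContinuousOn (ww F y ε B κ t') (F.M ∩ univ ×ˢ Icc s t) :=
  (cont_dens hF ht s).add (continuousOn_const.mul (cont_ex hF ht s))

theorem cont_gau (hσ : 0 < σ) (p : ST) (s : ℝ) :
    ContinuousOn (fun q : ST => gau q.1 (p.2 - q.2 + σ) p.1) (F.M ∩ univ ×ˢ Icc s p.2) := by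
  have h : ∀ q ∈ F.M ∩ univ ×ˢ Icc s p.2, 0 < p.2 - q.2 + σ := fun q hq => by linarith [hq.2.2.2]
  have h1 : ∀ q ∈ F.M ∩ univ ×ˢ Icc s p.2, 4 * Real.pi * (p.2 - q.2 + σ) ≠ 0 := fun q hq => by
    have := h q hq; positivity
  have h2 : ∀ q ∈ F.M ∩ univ ×ˢ Icc s p.2, 4 * (p.2 - q.2 + σ) ≠ 0 := fun q hq => by
    have := h q hq; positivity
  unfold gau
  fun_prop (disch := first | exact h1 | exact h2)

theorem intg' (hF : Cpt F a Λ G) (hm : IsStm F m) (ht : t < 0) {f : ST → ℝ}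
    (hf : ContinuousOn f (F.M ∩ univ ×ˢ Icc (3 * a / 4) t)) : IntegrableOn f (Sp a t) m :=
  intg hF hm (by linarith [hF.neg]) ht hf

theorem rho_fin (hF : Cpt F a Λ G) (hm : IsStm F m) (ht : t < 0) : IsFiniteMeasure (rho F m y a ε B κ t) :=
  isFiniteMeasure_withDensity_ofReal (intg' hF hm ht (cont_ww hF.fl.mcf.1 ht _)).2

theorem rho_apply {U : Set ST} (hU : MeasurableSet U) (h : U ⊆ Sp a t) :
    rho F m y a ε B κ t U = ∫⁻ q in U, ENNReal.ofReal (ww F y ε B κ t q) ∂m := by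
  rw [rho, withDensity_apply _ hU, Measure.restrict_restrict hU, inter_eq_left.2 h]

theorem pot_rho (hF : Cpt F a Λ G) (hm : IsStm F m) (hε : 0 ≤ ε) (hB : 0 ≤ B) (hκ : 0 ≤ κ) (ht : t < 0)
    (h : p.2 ≤ t) : pot (rho F m y a ε B κ t) σ p =
      ∫ q in Sp a p.2, gau q.1 (p.2 - q.2 + σ) p.1 * ww F y ε B κ t q ∂m := by
  have hS : MeasurableSet {q : ST | q.2 < p.2} := measurable_snd measurableSet_Iio
  have e : {q : ST | q.2 < p.2} ∩ Sp a t = Sp a p.2 :=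
    Subset.antisymm (fun q hq => ⟨hq.2.1, hq.1⟩) fun q hq => ⟨hq.2, hq.1, hq.2.trans_le h⟩
  have i := intg' (f := ww F y ε B κ t) hF hm (h.trans_lt ht) (cont_ww hF.fl.mcf.1 (h.trans_lt ht) _)
  rw [pot, rho, restrict_withDensity hS, Measure.restrict_restrict hS, e,
    integral_withDensity_eq_integral_toReal_smul₀ i.aemeasurable.ennreal_ofReal
      (ae_of_all _ fun _ => ENNReal.ofReal_lt_top)]
  refine setIntegral_congr_fun (meas_Sp _ _) fun q hq => ?_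
  simp only [smul_eq_mul]
  rw [ENNReal.toReal_ofReal (ww_nonneg hε hB hκ (hq.2.le.trans h) ht), mul_comm]

theorem pot_top (hF : Cpt F a Λ G) (hm : IsStm F m) (hε : 0 ≤ ε) (hB : 0 ≤ B) (hκ : 0 ≤ κ) (hσ : 0 < σ)
    (ht : p.2 < 0) : pot (rho F m y a ε B κ p.2) σ p = UU F m y ε B σ (3 * a / 4) p +
      κ * ∫ q in Sp a p.2, gau q.1 (p.2 - q.2 + σ) p.1 * ex F p.2 q ∂m := by
  have hR := hF.fl.mcf.1
  have i1 : IntegrableOn (fun q => gau q.1 (p.2 - q.2 + σ) p.1 * dens F y ε B p.2 q) (Sp a p.2) m :=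
    intg' hF hm ht ((cont_gau hσ p _).mul (cont_dens hR ht _))
  have i2 : IntegrableOn (fun q => gau q.1 (p.2 - q.2 + σ) p.1 * ex F p.2 q) (Sp a p.2) m :=
    intg' hF hm ht ((cont_gau hσ p _).mul (cont_ex hR ht _))
  rw [pot_rho hF hm hε hB hκ ht le_rfl, UU, ← integral_const_mul, ← integral_add i1 (i2.const_mul κ)]
  congr 1
  funext q
  simp only [ww]
  ring

theorem UU_le (hF : Cpt F a Λ G) (hm : IsStm F m) (hε : 0 ≤ ε) (hB : 0 ≤ B) (hσ : 0 < σ)
    (ht : t < 0) (h : p.2 ≤ t) (hκ : ε * (t - p.2) ≤ κ) :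
    UU F m y ε B σ (3 * a / 4) p ≤ pot (rho F m y a ε B κ t) σ p := by
  have hR := hF.fl.mcf.1
  have h0 := h.trans_lt ht
  rw [pot_rho hF hm hε hB ((mul_nonneg hε (sub_nonneg.2 h)).trans hκ) ht h, UU]
  refine setIntegral_mono_on (intg' hF hm h0 ((cont_gau hσ p _).mul (cont_dens hR h0 _)))
    (intg' hF hm h0 ((cont_gau hσ p _).mul (cont_ww hR h0 _))) (meas_Sp _ _) fun q hq => ?_
  exact mul_le_mul_of_nonneg_left (dens_le hε hq.2.le h hκ) (gau_nonneg _ (by linarith [hq.2]) _)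

theorem UU_nonneg (hε : 0 ≤ ε) (hB : 0 ≤ B) (hσ : 0 < σ) (ht : p.2 < 0) : 0 ≤ UU F m y ε B σ (3 * a / 4) p := by
  refine setIntegral_nonneg (meas_Sp _ _) fun q hq => mul_nonneg (gau_nonneg _ (by linarith [hq.2]) _) ?_
  simpa [ww] using ww_nonneg (F := F) (y := y) hε hB le_rfl hq.2.le ht

/-- the numerical situation at the contact point -/
structure Nm (a : ℝ) (y : E) (p : ST) (c R : ℝ) : Prop where
  c0 : 0 < c
  R4 : 4 ≤ R
  lo : a / 2 ≤ p.2
  th : p.2 = -(R ^ 4 * c ^ 2)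
  dx : ‖p.1 - y‖ ^ 2 ≤ 64 * (R ^ 4 * c ^ 2) * Real.log R

variable {c R D t₁ t₂ : ℝ}

theorem Nm.neg (h : Nm a y p c R) : p.2 < 0 := by
  have := h.c0
  have : 0 < R := by linarith [h.R4]
  rw [h.th, neg_lt_zero]; positivity

theorem Nm.low (h : Nm a y p c R) (h1 : -R ^ 2 ≤ t₁) : 3 * a / 4 < p.2 + c ^ 2 * t₁ := by
  have h2 : 0 < c ^ 2 := pow_pos h.c0 2
  have h3 : 16 ≤ R ^ 2 := by nlinarith [h.R4]
  have h4 : 16 * R ^ 2 ≤ R ^ 4 := by nlinarith
  have h5 := mul_le_mul_of_nonneg_left h1 h2.le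
  have h6 := mul_le_mul_of_nonneg_left h4 h2.le
  have h7 := mul_le_mul_of_nonneg_left h3 h2.le
  linarith [h.lo, h.th]

theorem Nm.dx' (h : Nm a y p c R) : ‖p.1 - y‖ ^ 2 ≤ 64 * R ^ 5 * c ^ 2 := by
  have h0 : 0 < R := by linarith [h.R4]
  have := mul_le_mul_of_nonneg_left (Real.log_le_self h0.le) (by positivity : 0 ≤ 64 * (R ^ 4 * c ^ 2))
  linarith [h.dx]

theorem Nm.near (h : Nm a y p c R) {z : E} (hz : ‖z - p.1‖ ≤ c * R) :
    ‖z - y‖ ^ 2 ≤ ‖p.1 - y‖ ^ 2 + 32 * (R ^ 4 * c ^ 2) ∧ ‖z - y‖ ^ 2 ≤ 130 * R ^ 5 * c ^ 2 := by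
  have h0 : 0 < R := by linarith [h.R4]
  have hc := h.c0
  have h1 : ‖z - y‖ ≤ ‖p.1 - y‖ + c * R := by linarith [norm_sub_le_norm_sub_add_norm_sub z p.1 y]
  have h2 : ‖z - y‖ ^ 2 ≤ (‖p.1 - y‖ + c * R) ^ 2 := by gcongr
  have h3 := h.dx'
  have h4 : ‖p.1 - y‖ ≤ 8 * R ^ 3 * c := by
    refine abs_le_of_sq_le_sq' (h3.trans ?_) (by positivity) |>.2
    have : R ^ 5 ≤ R ^ 6 := pow_le_pow_right₀ (by linarith [h.R4]) (by norm_num)
    nlinarith [sq_nonneg c]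
  have h5 : ‖p.1 - y‖ * (c * R) ≤ 8 * R ^ 3 * c * (c * R) := by gcongr
  have h6 : R ^ 2 * c ^ 2 ≤ R ^ 4 * c ^ 2 := by gcongr <;> linarith [h.R4]
  have h7 : R ^ 2 * c ^ 2 ≤ R ^ 5 * c ^ 2 := by gcongr <;> linarith [h.R4]
  have h8 : 0 ≤ R ^ 4 * c ^ 2 := by positivity
  constructor
  · nlinarith
  · nlinarith [sq_nonneg (‖p.1 - y‖ - c * R)]

theorem dv (c t : ℝ) : t / c⁻¹ ^ 2 = c ^ 2 * t := by rw [inv_pow, div_inv_eq_mul, mul_comm]

theorem box_sub (h : Nm a y p c R) (h1 : -R ^ 2 ≤ t₁) (h2 : t₂ ≤ 0) :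
    ball p.1 (c * D) ×ˢ Ioo (p.2 + c ^ 2 * t₁) (p.2 + c ^ 2 * t₂) ⊆ Sp a p.2 := fun q hq =>
  ⟨(h.low h1).trans hq.2.1, by nlinarith [hq.2.2, sq_nonneg c]⟩

theorem nu_box (h : Nm a y p c R) (h1 : -R ^ 2 ≤ t₁) (h2 : t₂ ≤ 0) :
    sc p (inv_pos.2 h.c0) (rho F m y a ε B κ p.2) (ball 0 D ×ˢ Ioo t₁ t₂) =
      ∫⁻ q in ball p.1 (c * D) ×ˢ Ioo (p.2 + c ^ 2 * t₁) (p.2 + c ^ 2 * t₂),
        ENNReal.ofReal (c⁻¹ ^ 2 * ww F y ε B κ p.2 q) ∂m := by
  rw [← pre_box p (inv_pos.2 h.c0), sc_pre, inv_inv, dv, dv,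
    rho_apply (measurableSet_ball.prod measurableSet_Ioo) (box_sub h h1 h2),
    ← lintegral_const_mul' _ _ ENNReal.ofReal_ne_top]
  simp only [ENNReal.ofReal_mul (sq_nonneg c⁻¹)]

theorem stI_box (hc : 0 < c) (hF : F.Reg) (hm : IsStm F m) {f f' : ST → ℝ} (hf : ContinuousOn f F.M)
    (h : ∀ q ∈ (F.para p c⁻¹).M, f' q = c ^ 2 * f (Th p (inv_pos.2 hc) q)) {b : ℝ} (hb : 0 ≤ b) :
    ENNReal.ofReal b * (F.para p c⁻¹).stI ((ball 0 D ×ˢ univ).indicator f') t₁ t₂ =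
      ∫⁻ q in ball p.1 (c * D) ×ˢ Ioo (p.2 + c ^ 2 * t₁) (p.2 + c ^ 2 * t₂),
        ENNReal.ofReal (c⁻¹ ^ 2 * (b * f q)) ∂m := by
  rw [stI_para p (inv_pos.2 hc) hF hm (f := fun q => c ^ 2 * f q) (continuousOn_const.mul hf) h, inv_inv, dv, dv,
    ← mul_assoc, ← ENNReal.ofReal_mul hb, ← lintegral_const_mul' _ _ ENNReal.ofReal_ne_top]
  refine lintegral_congr fun q => ?_
  rw [← ENNReal.ofReal_mul (by positivity)]
  congr 1
  field_simp

theorem domA (h : Nm a y p c R) (hF : F.Reg) (hm : IsStm F m) (hε : 0 ≤ ε) (hB : 0 ≤ B) (hκ : 0 ≤ κ)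
    (h1 : -R ^ 2 ≤ t₁) (h2 : t₂ ≤ 0) :
    ENNReal.ofReal (ε / 2) * (F.para p c⁻¹).stI ((ball 0 D ×ˢ univ).indicator (F.para p c⁻¹).A2) t₁ t₂ ≤
      sc p (inv_pos.2 h.c0) (rho F m y a ε B κ p.2) (ball 0 D ×ˢ Ioo t₁ t₂) := by
  rw [nu_box h h1 h2, stI_box h.c0 hF hm (cont_A2 hF)
    (fun q hq => by rw [Tr.para_A2 p (inv_pos.2 h.c0) hF hq, Th_apply, inv_inv]) (by positivity)]
  refine setLIntegral_mono' (measurableSet_ball.prod measurableSet_Ioo) fun q hq => ENNReal.ofReal_le_ofReal ?_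
  have k := (box_sub h h1 h2 hq).2.le
  refine mul_le_mul_of_nonneg_left (A2_le hε hB hκ k ?_) (sq_nonneg _)
  have n := h.neg
  have c2 : 0 < c ^ 2 := pow_pos h.c0 2
  have h3 : 16 ≤ R ^ 2 := by nlinarith [h.R4]
  have h4 : 16 * R ^ 2 ≤ R ^ 4 := by nlinarith
  have h5 := mul_le_mul_of_nonneg_left h1 c2.le
  have h6 := mul_le_mul_of_nonneg_left h4 c2.le
  have h7 : 16 * (p.2 - q.2) ≤ -q.2 := by linarith [hq.2.1, h.th]
  rw [div_pow, div_le_iff₀ (by nlinarith)]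
  nlinarith

theorem H_le (h : Nm a y p c R) (hF : F.Reg) (hq : q ∈ F.M) (hz : ‖q.1 - p.1‖ ≤ c * R) (ht : q.2 ≤ p.2) :
    F.H q ^ 2 ≤ 2 * F.dev (y, 0) q ^ 2 + c⁻¹ ^ 2 * (65 / R) := by
  have h0 : 0 < R := by linarith [h.R4]
  have hc := h.c0
  have h1 : |F.xn y q| ≤ ‖q.1 - y‖ := by
    simpa [Mv.xn, Tr.n_unit hF hq] using abs_real_inner_le_norm (q.1 - y) (F.n q)
  have h2 : F.xn y q ^ 2 ≤ 130 * R ^ 5 * c ^ 2 := by
    rw [← sq_abs]
    exact le_trans (by gcongr) (h.near hz).2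
  have h3 : R ^ 4 * c ^ 2 ≤ 0 - q.2 := by linarith [h.th]
  have h4 : R ^ 5 * R ≤ R ^ 4 * R ^ 4 := by
    rw [← pow_succ, ← pow_add]; exact pow_le_pow_right₀ (by linarith [h.R4]) (by norm_num)
  have h5 : 2 * (F.xn y q / (2 * (0 - q.2))) ^ 2 ≤ c⁻¹ ^ 2 * (65 / R) := by
    calc _ = F.xn y q ^ 2 / (2 * (0 - q.2) ^ 2) := by
          have : 0 < 0 - q.2 := lt_of_lt_of_le (by positivity) h3
          field_simp
      _ ≤ 130 * R ^ 5 * c ^ 2 / (2 * (R ^ 4 * c ^ 2) ^ 2) := by gcongr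
      _ = c⁻¹ ^ 2 * (65 * (R ^ 5 / (R ^ 4 * R ^ 4))) := by field_simp; ring
      _ ≤ c⁻¹ ^ 2 * (65 * (1 / R)) := by
          gcongr _ * (_ * ?_)
          rw [div_le_div_iff₀ (by positivity) h0]; linarith
      _ = _ := by ring
  have e : F.H q = F.dev (y, 0) q + F.xn y q / (2 * (0 - q.2)) := by simp only [Mv.dev]; ring
  rw [e]
  nlinarith [sq_nonneg (F.dev (y, 0) q - F.xn y q / (2 * (0 - q.2)))]

theorem domH (h : Nm a y p c R) (hF : F.Reg) (hA : F.AR Λ) (hm : IsStm F m) (hε : 0 ≤ ε) (hκ : 0 ≤ κ) {B' : ℝ}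
    (hB' : 0 < B') (hB : 2 * B' ≤ ε * B) (hΛ : 65 * |Λ| * B' ≤ R) (hD : D ≤ R) (h1 : -R ^ 2 ≤ t₁) (h2 : t₂ ≤ 0) :
    (F.para p c⁻¹).stI ((ball 0 D ×ˢ univ).indicator fun q => (F.para p c⁻¹).H q ^ 2) t₁ t₂ ≤
      ENNReal.ofReal B'⁻¹ * (sc p (inv_pos.2 h.c0) (rho F m y a ε B κ p.2) (ball 0 D ×ˢ Ioo t₁ t₂) +
        ENNReal.ofReal (D ^ 2 * (t₂ - t₁))) := by
  have h0 : 0 < R := by linarith [h.R4]
  have hc := h.c0
  have e := stI_box (D := D) (t₁ := t₁) (t₂ := t₂) (f' := fun q => (F.para p c⁻¹).H q ^ 2)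
    (f := fun q => F.H q ^ 2) hc hF hm (hF.smH.continuousOn.pow 2)
    (fun q hq => by rw [Tr.para_H p (inv_pos.2 hc) hF hq, Th_apply, inv_inv, mul_pow]) hB'.le
  rw [ENNReal.ofReal_inv_of_pos hB', ← ENNReal.div_eq_inv_mul,
    ENNReal.le_div_iff_mul_le (Or.inl (ENNReal.ofReal_pos.2 hB').ne') (Or.inl ENNReal.ofReal_ne_top), mul_comm, e,
    nu_box h h1 h2]
  rcases le_or_gt D 0 with hD0 | hD0
  · rw [ball_eq_empty.2 (mul_nonpos_of_nonneg_of_nonpos hc.le hD0)]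
    simp
  set U := ball p.1 (c * D) ×ˢ Ioo (p.2 + c ^ 2 * t₁) (p.2 + c ^ 2 * t₂)
  have hU : MeasurableSet U := measurableSet_ball.prod measurableSet_Ioo
  calc _ ≤ ∫⁻ q in U, (ENNReal.ofReal (c⁻¹ ^ 2 * ww F y ε B κ p.2 q) +
        ENNReal.ofReal (c⁻¹ ^ 4 * (65 * B' / R))) ∂m := by
        refine lintegral_mono_ae ?_
        filter_upwards [ae_restrict_mem hU, ae_restrict_of_ae (ae_M hF hm)] with q hq hM
        refine le_trans (ENNReal.ofReal_le_ofReal ?_) ENNReal.ofReal_add_le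
        have k := (box_sub h h1 h2 hq).2.le
        have k1 := mul_le_mul_of_nonneg_left (H_le h hF hM
          ((mem_ball_iff_norm.1 hq.1).le.trans (by gcongr)) k) hB'.le
        have k2 := dev_le (F := F) (y := y) (B := B) hε hκ k h.neg
        have k3 := mul_le_mul_of_nonneg_right hB (sq_nonneg (F.dev (y, 0) q))
        have k4 : B' * F.H q ^ 2 ≤ ww F y ε B κ p.2 q + c⁻¹ ^ 2 * (65 * B' / R) := by
          have : B' * (c⁻¹ ^ 2 * (65 / R)) = c⁻¹ ^ 2 * (65 * B' / R) := by ring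
          linarith
        calc _ ≤ c⁻¹ ^ 2 * (ww F y ε B κ p.2 q + c⁻¹ ^ 2 * (65 * B' / R)) := by gcongr
          _ = _ := by ring
    _ ≤ _ := by
        rw [lintegral_add_right _ measurable_const, setLIntegral_const]
        refine add_le_add le_rfl ((mul_le_mul_right (m_box hA hm p.1 (by positivity) _ _) _).trans ?_)
        rw [show p.2 + c ^ 2 * t₂ - (p.2 + c ^ 2 * t₁) = c ^ 2 * (t₂ - t₁) by ring, ENNReal.ofReal_mul (sq_nonneg c),
          ENNReal.ofReal_mul (sq_nonneg D), ← mul_assoc, ← mul_assoc, ← ENNReal.ofReal_mul (by positivity),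
          mul_comm _ (ENNReal.ofReal (c ^ 2)), ← ENNReal.ofReal_mul (by positivity)]
        refine mul_le_mul_left (ENNReal.ofReal_le_ofReal ?_) _
        have k : 65 * B' / R * Λ ≤ 1 := by
          rw [div_mul_eq_mul_div, div_le_one h0]
          nlinarith [le_abs_self Λ]
        calc _ = 65 * B' / R * Λ * D ^ 2 := by field_simp
          _ ≤ 1 * D ^ 2 := by gcongr
          _ = _ := one_mul _

variable {θ₁ : ℝ}

theorem psi_pos (hB : 0 < B) (hθ : 0 < θ₁) (hp : p.2 < 0) : 0 < psi F m y ε B σ (3 * a / 4) θ₁ p := by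
  have : 0 < θ₁ * -p.2 := mul_pos hθ (neg_pos.2 hp)
  unfold psi
  positivity

/-- the normalised barrier lies below the barrier -/
theorem rad_le (h : Nm a y p c R) (hF : Cpt F a Λ G) (hm : IsStm F m) (hε : 0 ≤ ε) (hB : 0 < B) (hσ : 0 < σ)
    (hθ : 0 < θ₁) (hc : psi F m y ε B σ (3 * a / 4) θ₁ p = c) (hκ : ε * (R ^ 2 * c ^ 2) ≤ κ)
    (h0 : pot (rho F m y a ε B κ p.2) σ p ≤ UU F m y ε B σ (3 * a / 4) p + 1)
    (hz : ‖q.1 - p.1‖ ≤ c * R) (h1 : p.2 - R ^ 2 * c ^ 2 ≤ q.2) (h2 : q.2 ≤ p.2) :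
    Real.exp (pot (rho F m y a ε B κ p.2) σ p - pot (rho F m y a ε B κ p.2) σ q - 2) * c ≤
      psi F m y ε B σ (3 * a / 4) θ₁ q := by
  have n := neg_pos.2 h.neg
  have k1 := UU_le (y := y) (κ := κ) hF hm hε hB.le hσ h.neg h2
    ((mul_le_mul_of_nonneg_left (by linarith) hε).trans hκ)
  have k2 : ‖q.1 - y‖ ^ 2 / (32 * -q.2) ≤ ‖p.1 - y‖ ^ 2 / (32 * -p.2) + 1 := by
    calc _ ≤ (‖p.1 - y‖ ^ 2 + 32 * -p.2) / (32 * -p.2) := by
          gcongr
          rw [h.th, neg_neg]; exact (h.near hz).1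
      _ = _ := by rw [add_div, div_self (by positivity)]
  rw [← hc, psi, psi, mul_left_comm, ← Real.exp_add]
  gcongr
  rw [neg_div, neg_div]
  linarith

/-- the numbers -/
theorem nm (hε : 0 ≤ ε) (hB : 16 ≤ B) (hσ : 0 < σ) (hθ : 0 < θ₁) (hp : p.2 ∈ Icc (a / 2) (-θ₁))
    (hc : psi F m y ε B σ (3 * a / 4) θ₁ p = c) :
    ∃ R, Nm a y p c R ∧ B ≤ R ^ 2 ∧ UU F m y ε B σ (3 * a / 4) p ≤ 2 * Real.log R := by
  have n : p.2 < 0 := by linarith [hp.2]
  have n' := neg_pos.2 n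
  have B0 : 0 < B := by linarith
  have c0 : 0 < c := hc ▸ psi_pos B0 hθ n
  have U0 := UU_nonneg (F := F) (m := m) (y := y) (a := a) hε B0.le hσ n
  set U := UU F m y ε B σ (3 * a / 4) p
  set R := √√(-p.2 / c ^ 2)
  have R0 : 0 < R := by positivity
  have e2 : R ^ 2 = √(-p.2) / c := by
    rw [Real.sq_sqrt (Real.sqrt_nonneg _), Real.sqrt_div n'.le, Real.sqrt_sq c0.le]
  have e4 : R ^ 4 * c ^ 2 = -p.2 := by
    rw [show R ^ 4 = (R ^ 2) ^ 2 by ring, e2, div_pow, Real.sq_sqrt n'.le]; field_simp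
  have x0 : 0 ≤ ‖p.1 - y‖ ^ 2 / (32 * -p.2) := by positivity
  have s1 : √√(θ₁ * -p.2) ≤ √(-p.2) :=
    Real.sqrt_le_sqrt (Real.sqrt_le_iff.2 ⟨n'.le, by nlinarith [hp.2]⟩)
  have k : B * Real.exp (‖p.1 - y‖ ^ 2 / (32 * -p.2) + U) ≤ R ^ 2 := by
    rw [e2, le_div_iff₀ c0, ← hc, psi, neg_div, ← neg_add', Real.exp_neg]
    refine le_trans (le_of_eq ?_) s1
    field_simp
    exact mul_comm _ _
  have k1 : 1 ≤ Real.exp (‖p.1 - y‖ ^ 2 / (32 * -p.2) + U) := Real.one_le_exp (by positivity)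
  have k2 : ‖p.1 - y‖ ^ 2 / (32 * -p.2) + U ≤ 2 * Real.log R := by
    have := Real.log_pow R 2
    push_cast at this
    rw [← this, Real.le_log_iff_exp_le (by positivity)]
    nlinarith
  have k3 : B ≤ R ^ 2 := by nlinarith
  refine ⟨R, ⟨c0, by nlinarith, hp.1, by linarith, ?_⟩, k3, by linarith⟩
  have k4 : ‖p.1 - y‖ ^ 2 / (32 * -p.2) ≤ 2 * Real.log R := by linarith
  rw [div_le_iff₀ (by positivity)] at k4
  rw [e4]
  linarith

end Cf

open Cf in
theorem cfgS_of (hC : CostS) : CfgS := by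
  intro Λ G ε B₀ hε hε1
  obtain ⟨C, C0, hC⟩ := hC Λ G
  set B' := |B₀| + 1
  have B'0 : 0 < B' := by positivity
  set R₁ := 4 + C + B' + 65 * |Λ| * B'
  have R₁0 : 0 < R₁ := by positivity
  have l0 : 0 ≤ 65 * |Λ| * B' := by positivity
  refine ⟨R₁ ^ 2 + 2 * B' / ε, by positivity, fun F a m hF hm y B σ θ₁ p hB hσ hθ hp hσc hg => ?_⟩
  have b0 : 0 < 2 * B' / ε := by positivity
  have b1 : 2 * B' ≤ ε * B := by
    rw [mul_comm ε, ← div_le_iff₀ hε]; linarith [sq_nonneg R₁]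
  have b2 : R₁ ^ 2 ≤ B := by linarith
  have b3 : 16 ≤ B := by nlinarith [show 4 ≤ R₁ by simp only [R₁]; linarith]
  have B0 : 0 < B := by linarith
  generalize hc : psi F m y ε B σ (3 * a / 4) θ₁ p = c at hσc hg ⊢
  obtain ⟨R, h, hR, hU⟩ := nm hε.le b3 hσ hθ hp hc
  have R4 := h.R4
  have hR1 : R₁ ≤ R := (abs_le_of_sq_le_sq' (b2.trans hR) (by linarith)).2
  simp only [R₁] at hR1
  have c0 := h.c0
  have c2 : 0 < c ^ 2 := by positivity
  have hl := inv_pos.2 c0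
  have hr := hF.fl.mcf.1
  have r2 : 16 ≤ R ^ 2 := by nlinarith
  have r4 : 16 * R ^ 2 ≤ R ^ 4 := by nlinarith
  have κ0 : 0 ≤ ε * (R ^ 2 * c ^ 2) := by positivity
  have := rho_fin (y := y) (ε := ε) (B := B) (κ := ε * (R ^ 2 * c ^ 2)) hF hm h.neg
  have T0 : Th p hl 0 = p := by simp [Th_apply]
  have h0 : pot (rho F m y a ε B (ε * (R ^ 2 * c ^ 2)) p.2) σ p ≤ UU F m y ε B σ (3 * a / 4) p + 1 := by
    rw [pot_top hF hm hε.le B0.le κ0 hσ h.neg]
    have k := hC F a m hF hm σ p hσ (by rw [h.th, neg_neg]; nlinarith)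
    refine add_le_add le_rfl ((mul_le_mul_of_nonneg_left k κ0).trans ?_)
    rw [h.th, neg_neg, ← mul_div_assoc, div_le_one (by positivity)]
    have : ε * C ≤ R ^ 2 := by nlinarith
    calc _ = ε * C * (R ^ 2 * c ^ 2) := by ring
      _ ≤ R ^ 2 * (R ^ 2 * c ^ 2) := by gcongr
      _ = _ := by ring
  refine ⟨sc p hl (rho F m y a ε B (ε * (R ^ 2 * c ^ 2)) p.2), σ * c⁻¹ ^ 2, B', R,
    by linarith [le_abs_self B₀], by linarith [le_abs_self B₀], ⟨(a - p.2) / c ^ 2, R ^ 4, ?_, by nlinarith, ?_⟩,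
    Tr.para_lgb p hl hr hF.lgb, sc_fin p hl _, by positivity, ?_, ?_,
    fun D t₁ t₂ _ h1 h2 => domA h hr hm hε.le B0.le κ0 h1 h2,
    fun D t₁ t₂ hD h1 h2 => domH h hr hF.fl.ar hm hε.le κ0 B'0 b1 (by linarith) hD h1 h2, fun q hq hz ht => ?_⟩
  · rw [div_lt_iff₀ c2]
    nlinarith [h.lo, h.th]
  · convert Tr.para_fl p hl hF.fl using 1
    ext t
    simp only [mem_Ioo, mem_ofPred_eq, dv, div_lt_iff₀ c2]
    refine and_congr ⟨fun k => by linarith, fun k => by linarith⟩ ?_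
    rw [h.th, ← mul_lt_mul_iff_left₀ c2]
    constructor <;> intro k <;> linarith
  · rw [inv_pow, ← div_eq_mul_inv, div_le_one c2]; exact hσc
  · rw [pot_sc, T0]; linarith
  · have e1 : (Th p hl q).1 - p.1 = c • q.1 := by simp [Th_apply]
    have e2 : (Th p hl q).2 = p.2 + c ^ 2 * q.2 := by rw [Th_apply, dv]
    have t1 := mul_le_mul_of_nonneg_left ht.1 c2.le
    have t2 := mul_le_mul_of_nonneg_left ht.2 c2.le
    obtain ⟨g1, g2⟩ := hg (Th p hl q) hq (e2 ▸ h.low ht.1) (by rw [e2]; linarith)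
    have k := rad_le (q := Th p hl q) h hF hm hε.le B0 hσ hθ hc le_rfl h0
      (by rw [e1, norm_smul, Real.norm_eq_abs, abs_of_pos c0]; gcongr) (by rw [e2]; linarith) (by rw [e2]; linarith)
    have e : rad (sc p hl (rho F m y a ε B (ε * (R ^ 2 * c ^ 2)) p.2)) (σ * c⁻¹ ^ 2) q / c⁻¹ ≤
        psi F m y ε B σ (3 * a / 4) θ₁ (Th p hl q) := by
      rwa [rad, pot_sc, pot_sc, T0, div_inv_eq_mul]
    exact ⟨(Tr.para_reach p hl hq _).2 (g1.mono_reg hr hq e),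
      noCrit_para p hl fun z hz h1 h2 => e.trans_lt (g2 z hz h1 h2)⟩

end Crest.Agent.N250.A

end
end

-- ▼ part N250/A/KAt

/-!
# Row 250, block A (helper68): the kernel leaves `KMassS` and `KAtS`
-/

set_option autoImplicit false
open MeasureTheory Set Filter Topology Metric
open scoped ContDiff InnerProductSpace ENNReal
open Crest.GeometryTopology.MCF

noncomputable section

namespace Crest.Agent.N250.A

namespace KAt

theorem meas_g (σ s : ℝ) : Measurable fun w : E × ST => gau w.2.1 (s - w.2.2 + σ) w.1 := by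
  unfold gau; fun_prop

theorem meas_g1 (σ s : ℝ) (y : E) : Measurable fun q : ST => gau q.1 (s - q.2 + σ) y := by
  unfold gau; fun_prop

theorem meas_T (σ r : ℝ) :
    Measurable fun q : ST => gau q.1 (σ - q.2) 0 * min 1 (r * isc σ q) := by
  unfold gau isc; fun_prop

theorem meas_lt (s : ℝ) : MeasurableSet {q : ST | q.2 < s} :=
  measurableSet_lt measurable_snd measurable_const

theorem isc_nonneg {σ : ℝ} {q : ST} (h : 0 ≤ σ - q.2) : 0 ≤ isc σ q := by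
  unfold isc; positivity

theorem inv_le {a b : ℝ} (ha : 0 < a) (h : a ≤ b) : (4 * Real.pi * b)⁻¹ ≤ (4 * Real.pi * a)⁻¹ := by
  have := Real.pi_pos
  exact inv_anti₀ (by positivity) (by gcongr)

theorem pot_eq (ν : Measure ST) [IsFiniteMeasure ν] {σ : ℝ} (hσ : 0 < σ) (p : ST) :
    0 ≤ pot ν σ p ∧ ENNReal.ofReal (pot ν σ p) =
      ∫⁻ q in {q : ST | q.2 < p.2}, ENNReal.ofReal (gau q.1 (p.2 - q.2 + σ) p.1) ∂ν := by
  have h0 : 0 ≤ᵐ[ν.restrict {q : ST | q.2 < p.2}] fun q => gau q.1 (p.2 - q.2 + σ) p.1 :=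
    ae_restrict_of_forall_mem (meas_lt _) fun q hq => by
      have : q.2 < p.2 := hq
      exact (gau_pos (by linarith) _ _).le
  refine ⟨integral_nonneg_of_ae h0, ofReal_integral_eq_lintegral_ofReal ?_ h0⟩
  refine Integrable.of_bound (meas_g1 σ _ _).aestronglyMeasurable (4 * Real.pi * σ)⁻¹ ?_
  refine ae_restrict_of_forall_mem (meas_lt _) fun q hq => ?_
  have : q.2 < p.2 := hq
  rw [Real.norm_of_nonneg (gau_pos (by linarith) _ _).le]
  exact (gau_le (by linarith) _ _).trans (inv_le hσ (by linarith))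

theorem TT_eq (ν : Measure ST) [IsFiniteMeasure ν] {σ r : ℝ} (hσ : 0 < σ) (hr : 0 ≤ r) :
    0 ≤ TT ν σ r ∧ ENNReal.ofReal (TT ν σ r) =
      ∫⁻ q in {q : ST | q.2 < 0},
        ENNReal.ofReal (gau q.1 (σ - q.2) 0 * min 1 (r * isc σ q)) ∂ν := by
  have hm : ∀ q : ST, q.2 < 0 → 0 ≤ min 1 (r * isc σ q) := fun q hq =>
    le_min zero_le_one (mul_nonneg hr (isc_nonneg (by linarith)))
  have h0 : 0 ≤ᵐ[ν.restrict {q : ST | q.2 < 0}]
      fun q => gau q.1 (σ - q.2) 0 * min 1 (r * isc σ q) :=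
    ae_restrict_of_forall_mem (meas_lt _) fun q hq => by
      have : q.2 < 0 := hq
      exact mul_nonneg (gau_pos (by linarith) _ _).le (hm q this)
  refine ⟨integral_nonneg_of_ae h0, ofReal_integral_eq_lintegral_ofReal ?_ h0⟩
  refine Integrable.of_bound (meas_T σ r).aestronglyMeasurable (4 * Real.pi * σ)⁻¹ ?_
  refine ae_restrict_of_forall_mem (meas_lt _) fun q hq => ?_
  have hq : q.2 < 0 := hq
  have g0 := (gau_pos (s := σ - q.2) (by linarith) q.1 0).le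
  rw [Real.norm_of_nonneg (mul_nonneg g0 (hm q hq))]
  exact (mul_le_of_le_one_right g0 (min_le_left _ _)).trans
    ((gau_le (by linarith) _ _).trans (inv_le hσ (by linarith)))

theorem gau_ratio {a b : ℝ} (ha : 0 < a) (hb : 0 < b) (y z : E) :
    gau z b y = gau z a 0 * (a / b * Real.exp (‖z‖ ^ 2 / (4 * a) - ‖y - z‖ ^ 2 / (4 * b))) := by
  unfold gau
  have := Real.pi_pos
  rw [zero_sub, norm_neg, show -‖y - z‖ ^ 2 / (4 * b) =
    -‖z‖ ^ 2 / (4 * a) + (‖z‖ ^ 2 / (4 * a) - ‖y - z‖ ^ 2 / (4 * b)) by ring, Real.exp_add]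
  field_simp

theorem exp_le_lin {c m : ℝ} (hc : 0 ≤ c) (h0 : 0 ≤ m) (h1 : m ≤ 1) :
    Real.exp (c * m) ≤ 1 + c * Real.exp c * m := by
  have h2 : Real.exp (c * m) ≤ Real.exp c := Real.exp_le_exp.2 (mul_le_of_le_one_right hc h1)
  have h3 := Real.add_one_le_exp (-(c * m))
  have h4 : Real.exp (-(c * m)) * Real.exp (c * m) = 1 := by rw [← Real.exp_add]; simp
  have h5 := mul_le_mul_of_nonneg_right h3 (Real.exp_pos (c * m)).le
  have h6 := mul_le_mul_of_nonneg_left h2 (mul_nonneg hc h0)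
  nlinarith

/-- pointwise comparison of the kernels away from the near set -/
theorem ratio {τ ρ D : ℝ} (hτ : 1 ≤ τ) (hρ : 0 < ρ) (hD : 0 ≤ D) : ∃ C : ℝ, 0 ≤ C ∧
    ∀ (σ s : ℝ) (y y₀ : E) (q : ST), 0 < σ → s ∈ Icc (-(2 * τ)) (-τ) → ‖y‖ ≤ D →
      dist y y₀ ≤ ρ / 2 → q.2 < s → q ∉ ball y₀ ρ ×ˢ Icc (-(4 * τ)) (-τ) →
      gau q.1 (s - q.2 + σ) y ≤ gau q.1 (σ - q.2) 0 * (1 + C * min 1 (1 * isc σ q)) := by
  set K := D / 2 * Real.exp (D / 2) with hK
  set K2 := 256 * τ / ρ ^ 2 * Real.exp (3 * D ^ 2 / 4) with hK2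
  have K0 : 0 ≤ K := by positivity
  have K20 : 0 ≤ K2 := by positivity
  have e0 := Real.exp_pos (D ^ 2 / 4)
  refine ⟨(4 * τ + K + 4 * τ * K) + 2 * Real.exp (D ^ 2 / 4) + 4 * τ * K2, by positivity, ?_⟩
  rintro σ s y y₀ ⟨z, t⟩ hσ ⟨s1, s2⟩ hy hyy hts hN
  simp only at hts ⊢
  obtain ⟨a, ha⟩ : ∃ a, a = σ - t := ⟨_, rfl⟩
  obtain ⟨b, hb⟩ : ∃ b, b = s - t + σ := ⟨_, rfl⟩
  have a1 : 1 ≤ a := by linarith
  have a0 : 0 < a := by linarith
  have b0 : 0 < b := by linarith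
  have ab : a = b + -s := by linarith
  have hi : isc σ (z, t) = (√a + ‖z‖) / a := by rw [ha]; rfl
  have sq1 : 1 ≤ √a := Real.one_le_sqrt.2 a1
  have z0 := norm_nonneg z
  have y0 := norm_nonneg y
  have u0 := norm_nonneg (y - z)
  have tri : ‖z‖ ≤ ‖y - z‖ + ‖y‖ := by
    have := norm_sub_le y (y - z); rw [sub_sub_cancel] at this; linarith
  have i1 : 1 / a ≤ isc σ (z, t) := by rw [hi]; gcongr; linarith
  have i2 : ‖z‖ / a ≤ isc σ (z, t) := by rw [hi]; gcongr; linarith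
  have i0 : 0 ≤ isc σ (z, t) := le_trans (by positivity) i1
  rw [one_mul, ← ha, ← hb, gau_ratio a0 b0]
  refine mul_le_mul_of_nonneg_left ?_ (gau_pos a0 _ _).le
  generalize isc σ (z, t) = i at i0 i1 i2
  have m0 : 0 ≤ min 1 i := le_min zero_le_one i0
  have τ0 : 0 < τ := by linarith
  by_cases h1 : a ≤ 2 * b
  · by_cases h2 : i ≤ 1
    · rw [min_eq_right h2]
      have r1 : a / b ≤ 1 + 4 * τ * i := by
        have : a / b = 1 + -s / b := by rw [ab]; field_simp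
        rw [this]
        have h3 : -s / b ≤ 4 * τ * (1 / a) := by
          rw [mul_one_div, div_le_div_iff₀ b0 a0]; nlinarith
        nlinarith
      have r2 : ‖z‖ ^ 2 / (4 * a) - ‖y - z‖ ^ 2 / (4 * b) ≤ D / 2 * i := by
        have h3 : ‖y - z‖ ^ 2 / (4 * a) ≤ ‖y - z‖ ^ 2 / (4 * b) := by gcongr; linarith
        have h4 : ‖z‖ ^ 2 - ‖y - z‖ ^ 2 ≤ 2 * D * ‖z‖ := by
          have h5 := abs_norm_sub_norm_le y z
          have h6 : (‖y‖ - ‖z‖) ^ 2 ≤ ‖y - z‖ ^ 2 := by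
            rw [← sq_abs]; exact pow_le_pow_left₀ (abs_nonneg _) h5 2
          nlinarith
        have h5 : ‖z‖ ^ 2 / (4 * a) - ‖y - z‖ ^ 2 / (4 * a) ≤ D / 2 * (‖z‖ / a) := by
          rw [← sub_div, div_le_iff₀ (by positivity)]
          have : D / 2 * (‖z‖ / a) * (4 * a) = 2 * D * ‖z‖ := by field_simp; ring
          linarith
        have h6 := mul_le_mul_of_nonneg_left i2 (show 0 ≤ D / 2 by positivity)
        linarith
      have r3 := (Real.exp_le_exp.2 r2).trans (exp_le_lin (by positivity) i0 h2)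
      refine (mul_le_mul r1 r3 (Real.exp_pos _).le (by positivity)).trans ?_
      rw [← hK]
      have h7 : 4 * τ * K * (i * i) ≤ 4 * τ * K * i :=
        mul_le_mul_of_nonneg_left (mul_le_of_le_one_right i0 h2) (by positivity)
      have h8 : 0 ≤ (2 * Real.exp (D ^ 2 / 4) + 4 * τ * K2) * i := by positivity
      nlinarith
    · rw [min_eq_left (not_le.1 h2).le]
      have r1 : a / b ≤ 2 := by rw [div_le_iff₀ b0]; exact h1
      have r2 : ‖z‖ ^ 2 / (4 * a) - ‖y - z‖ ^ 2 / (4 * b) ≤ D ^ 2 / 4 := by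
        have s0 : 0 < -s := by linarith
        have h3 : ‖z‖ ^ 2 / (4 * a) ≤ (‖y - z‖ + ‖y‖) ^ 2 / (4 * a) := by gcongr
        have h4 : (‖y - z‖ + ‖y‖) ^ 2 / (4 * a) ≤ ‖y - z‖ ^ 2 / (4 * b) + ‖y‖ ^ 2 / (4 * -s) := by
          rw [ab, div_add_div _ _ (by positivity) (by positivity),
            div_le_div_iff₀ (by positivity) (by positivity)]
          nlinarith [sq_nonneg (‖y - z‖ * -s - ‖y‖ * b)]
        have h5 : ‖y‖ ^ 2 / (4 * -s) ≤ D ^ 2 / (4 * 1) := by gcongr; linarith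
        linarith
      refine (mul_le_mul r1 (Real.exp_le_exp.2 r2) (Real.exp_pos _).le zero_le_two).trans ?_
      have h8 : 0 ≤ (4 * τ + K + 4 * τ * K) + 4 * τ * K2 := by positivity
      linarith
  · have h1 := not_le.1 h1
    have a4 : a ≤ 4 * τ := by linarith
    have hz : ρ ≤ dist z y₀ := by
      by_contra h
      exact hN ⟨mem_ball.2 (not_le.1 h), by simp only; linarith, by simp only; linarith⟩
    have hu : ρ / 2 ≤ ‖y - z‖ := by
      have := dist_triangle z y y₀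
      rw [dist_comm z y, dist_eq_norm y z] at this; linarith
    have m1 : 1 ≤ 4 * τ * min 1 i := by
      rcases le_total 1 i with h | h
      · rw [min_eq_left h]; linarith
      · rw [min_eq_right h]
        have h3 : 1 ≤ i * a := (div_le_iff₀ a0).1 i1
        nlinarith
    have r2 : ‖z‖ ^ 2 / (4 * a) - ‖y - z‖ ^ 2 / (4 * b) ≤ 3 * D ^ 2 / 4 + -(ρ ^ 2 / (64 * b)) := by
      have h3 : ‖z‖ ^ 2 ≤ 3 / 2 * ‖y - z‖ ^ 2 + 3 * D ^ 2 := by
        have h9 : ‖z‖ ^ 2 ≤ (‖y - z‖ + D) ^ 2 := pow_le_pow_left₀ z0 (by linarith) 2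
        nlinarith [sq_nonneg (‖y - z‖ - 2 * D)]
      have h4 : ‖z‖ ^ 2 / (4 * a) ≤ 3 / 2 * ‖y - z‖ ^ 2 / (4 * a) + 3 * D ^ 2 / (4 * a) := by
        rw [← add_div]; gcongr
      have h5 : 3 / 2 * ‖y - z‖ ^ 2 / (4 * a) ≤ 3 / 2 * ‖y - z‖ ^ 2 / (4 * (2 * b)) := by gcongr
      have h6 : 3 * D ^ 2 / (4 * a) ≤ 3 * D ^ 2 / (4 * 1) := by gcongr
      have h7 : (ρ / 2) ^ 2 / (16 * b) ≤ ‖y - z‖ ^ 2 / (16 * b) := by gcongr
      have h8 : 3 / 2 * ‖y - z‖ ^ 2 / (4 * (2 * b)) - ‖y - z‖ ^ 2 / (4 * b) =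
          -(‖y - z‖ ^ 2 / (16 * b)) := by field_simp; ring
      have h9 : (ρ / 2) ^ 2 / (16 * b) = ρ ^ 2 / (64 * b) := by field_simp; ring
      linarith
    have r3 : a / b * Real.exp (-(ρ ^ 2 / (64 * b))) ≤ 256 * τ / ρ ^ 2 := by
      have h3 : ρ ^ 2 / (64 * b) ≤ Real.exp (ρ ^ 2 / (64 * b)) := by
        linarith [Real.add_one_le_exp (ρ ^ 2 / (64 * b))]
      have h4 : Real.exp (-(ρ ^ 2 / (64 * b))) ≤ (ρ ^ 2 / (64 * b))⁻¹ := by
        rw [Real.exp_neg]; exact inv_anti₀ (by positivity) h3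
      calc a / b * Real.exp (-(ρ ^ 2 / (64 * b))) ≤ 4 * τ / b * (ρ ^ 2 / (64 * b))⁻¹ := by gcongr
        _ = 256 * τ / ρ ^ 2 := by field_simp; ring
    have r4 : a / b * Real.exp (‖z‖ ^ 2 / (4 * a) - ‖y - z‖ ^ 2 / (4 * b)) ≤ K2 := by
      refine (mul_le_mul_of_nonneg_left (Real.exp_le_exp.2 r2) (by positivity)).trans ?_
      rw [Real.exp_add, hK2, mul_left_comm, mul_comm]
      exact mul_le_mul_of_nonneg_right r3 (Real.exp_pos _).le
    have h7 := mul_le_mul_of_nonneg_left m1 K20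
    have h8 : 0 ≤ ((4 * τ + K + 4 * τ * K) + 2 * Real.exp (D ^ 2 / 4)) * min 1 i := by positivity
    nlinarith

end KAt

open KAt

theorem kMassS_holds : KMassS := by
  intro D a₀ hD ha
  have hp := Real.pi_pos
  set g := (4 * Real.pi * (D ^ 2 + 1))⁻¹ * Real.exp (-D ^ 2 / (4 * a₀)) * (√(D ^ 2 + 1))⁻¹ with hg
  have g0 : 0 < g := by positivity
  refine ⟨g⁻¹, by positivity, fun ν _ σ hσ hσ1 => ?_⟩
  have hS : MeasurableSet (ball (0 : E) D ×ˢ Icc (-D ^ 2) (-a₀)) :=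
    measurableSet_ball.prod measurableSet_Icc
  have key : ENNReal.ofReal g * ν (ball 0 D ×ˢ Icc (-D ^ 2) (-a₀)) ≤ ENNReal.ofReal (TT ν σ 1) := by
    rw [(TT_eq ν hσ zero_le_one).2, ← setLIntegral_const]
    refine le_trans (setLIntegral_mono' hS ?_) (lintegral_mono_set (s := ball 0 D ×ˢ Icc (-D ^ 2) (-a₀)) ?_)
    · rintro ⟨z, t⟩ ⟨h1, h2, h3⟩
      simp only [mem_ball, dist_zero_right] at h1 h2 h3 ⊢
      refine ENNReal.ofReal_le_ofReal ?_
      have a0 : 0 < σ - t := by linarith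
      have a1 : σ - t ≤ D ^ 2 + 1 := by linarith
      have s1 : 1 ≤ √(D ^ 2 + 1) := Real.one_le_sqrt.2 (by nlinarith)
      refine mul_le_mul ?_ (le_min (inv_le_one_of_one_le₀ s1) ?_) (by positivity) (gau_pos a0 _ _).le
      · unfold gau
        refine mul_le_mul (inv_le a0 a1) (Real.exp_le_exp.2 ?_) (by positivity) (by positivity)
        rw [zero_sub, norm_neg, neg_div, neg_div, neg_le_neg_iff]
        have := norm_nonneg z
        gcongr
        linarith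
      · rw [one_mul]
        have s0 : 0 < √(σ - t) := Real.sqrt_pos.2 a0
        calc (√(D ^ 2 + 1))⁻¹ ≤ (√(σ - t))⁻¹ := inv_anti₀ s0 (Real.sqrt_le_sqrt a1)
          _ = √(σ - t) / (σ - t) := by
            rw [eq_div_iff a0.ne']; field_simp; rw [Real.sq_sqrt a0.le]
          _ ≤ isc σ (z, t) := by
            unfold isc; simp only; gcongr; exact le_add_of_nonneg_right (norm_nonneg _)
    · rintro ⟨z, t⟩ ⟨-, -, h3⟩
      show t < 0
      simp only at h3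
      linarith
  rw [ENNReal.ofReal_mul (by positivity), ENNReal.ofReal_inv_of_pos g0]
  have h1 : ENNReal.ofReal g ≠ 0 := by simpa using g0
  calc ν _ = (ENNReal.ofReal g)⁻¹ * (ENNReal.ofReal g * ν (ball 0 D ×ˢ Icc (-D ^ 2) (-a₀))) := by
        rw [← mul_assoc, ENNReal.inv_mul_cancel h1 ENNReal.ofReal_ne_top, one_mul]
    _ ≤ _ := by gcongr

namespace KAt

/-- the kernel bound at lags `≥ r²` -/
def h1 (r τ ℓ : ℝ) : ℝ≥0∞ :=
  (Icc (r ^ 2) (3 * τ)).indicator (fun ℓ => ENNReal.ofReal (4 * Real.pi * ℓ)⁻¹) ℓ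

theorem meas_h1 (r τ : ℝ) : Measurable (h1 r τ) :=
  Measurable.indicator (by fun_prop) measurableSet_Icc

theorem int_h1 {r τ : ℝ} (hr : 0 < r) (h : r ^ 2 ≤ 3 * τ) :
    ∫⁻ ℓ, h1 r τ ℓ = ENNReal.ofReal ((4 * Real.pi)⁻¹ * Real.log (3 * τ / r ^ 2)) := by
  have hp := Real.pi_pos
  have r2 : 0 < r ^ 2 := by positivity
  unfold h1
  rw [lintegral_indicator measurableSet_Icc, ← ofReal_integral_eq_lintegral_ofReal]
  · rw [integral_Icc_eq_integral_Ioc, ← intervalIntegral.integral_of_le h,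
      ← integral_inv_of_pos r2 (by linarith), ← intervalIntegral.integral_const_mul]
    simp only [mul_inv]
  · refine ContinuousOn.integrableOn_Icc (ContinuousOn.inv₀ (by fun_prop) fun x hx => ?_)
    have : 0 < x := r2.trans_le hx.1
    positivity
  · refine ae_restrict_of_forall_mem measurableSet_Icc fun x hx => ?_
    have : 0 < x := r2.trans_le hx.1
    positivity

/-- choice of the time by averaging -/
theorem good_time (ν : Measure ST) [IsFiniteMeasure ν] {r τ : ℝ} (hr : 0 < r) (hτ : 0 < τ)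
    (h : r ^ 2 < 3 * τ) (hν : ν univ ≤ ENNReal.ofReal τ) : ∃ s ∈ Icc (-(2 * τ)) (-τ),
    ∫⁻ q, h1 r τ (s - q.2) ∂ν ≤ ENNReal.ofReal (3 * ((4 * Real.pi)⁻¹ * Real.log (3 * τ / r ^ 2))) ∧
      ν {q | s - q.2 ∈ Ioo 0 (r ^ 2)} ≤ ENNReal.ofReal (3 * r ^ 2) := by
  have hp := Real.pi_pos
  have r2 : 0 < r ^ 2 := by positivity
  set A := (4 * Real.pi)⁻¹ * Real.log (3 * τ / r ^ 2) with hA
  have A0 : 0 < A := mul_pos (by positivity) (Real.log_pos ((one_lt_div r2).2 h))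
  set H : ℝ → ℝ≥0∞ := fun ℓ => h1 r τ ℓ +
    (Ioo 0 (r ^ 2)).indicator (fun _ => ENNReal.ofReal (A / r ^ 2)) ℓ with hH
  have mH : Measurable H := (meas_h1 r τ).add (measurable_const.indicator measurableSet_Ioo)
  have iH : ∫⁻ ℓ, H ℓ = ENNReal.ofReal (2 * A) := by
    rw [hH, lintegral_add_left (meas_h1 r τ), int_h1 hr h.le, lintegral_indicator measurableSet_Ioo,
      setLIntegral_const, Real.volume_Ioo, ← ENNReal.ofReal_mul (by positivity),
      ← ENNReal.ofReal_add A0.le (by rw [sub_zero]; positivity)]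
    congr 1; rw [sub_zero]; field_simp; ring
  have tot : ∫⁻ s, ∫⁻ q, H (s - q.2) ∂ν ≤ ENNReal.ofReal (2 * A * τ) := by
    have mm : Measurable (Function.uncurry fun (s : ℝ) (q : ST) => H (s - q.2)) :=
      mH.comp (f := fun w : ℝ × ST => w.1 - w.2.2) (by fun_prop)
    rw [lintegral_lintegral_swap mm.aemeasurable]
    simp only [lintegral_sub_right_eq_self, iH, lintegral_const]
    rw [ENNReal.ofReal_mul (p := 2 * A) (q := τ) (by positivity)]
    gcongr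
  have ex : ∃ s ∈ Icc (-(2 * τ)) (-τ), ∫⁻ q, H (s - q.2) ∂ν ≤ ENNReal.ofReal (3 * A) := by
    by_contra hc
    push Not at hc
    have h2 : ENNReal.ofReal (3 * A) * volume (Icc (-(2 * τ)) (-τ)) ≤
        ENNReal.ofReal (2 * A * τ) := by
      rw [← setLIntegral_const]
      exact (setLIntegral_mono' measurableSet_Icc fun s hs => (hc s hs).le).trans
        ((setLIntegral_le_lintegral _ _).trans tot)
    rw [Real.volume_Icc, ← ENNReal.ofReal_mul (by positivity),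
      ENNReal.ofReal_le_ofReal_iff (by positivity)] at h2
    nlinarith [mul_pos A0 hτ]
  obtain ⟨s, hs, h2⟩ := ex
  refine ⟨s, hs, le_trans (lintegral_mono fun q => le_self_add) h2, ?_⟩
  have mW : MeasurableSet {q : ST | s - q.2 ∈ Ioo 0 (r ^ 2)} :=
    measurableSet_Ioo.preimage (by fun_prop)
  have h3 : ENNReal.ofReal (A / r ^ 2) * ν {q | s - q.2 ∈ Ioo 0 (r ^ 2)} ≤ ENNReal.ofReal (3 * A) := by
    rw [← setLIntegral_const, ← lintegral_indicator mW]
    refine le_trans (lintegral_mono fun q => ?_) h2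
    by_cases hq : s - q.2 ∈ Ioo 0 (r ^ 2)
    · rw [indicator_of_mem (show q ∈ {q : ST | s - q.2 ∈ Ioo 0 (r ^ 2)} from hq), hH]
      simp only [indicator_of_mem hq]; exact le_add_self
    · rw [indicator_of_notMem (show q ∉ {q : ST | s - q.2 ∈ Ioo 0 (r ^ 2)} from hq)]
      exact bot_le
  have h4 : ENNReal.ofReal (3 * A) = ENNReal.ofReal (A / r ^ 2) * ENNReal.ofReal (3 * r ^ 2) := by
    rw [← ENNReal.ofReal_mul (by positivity)]; congr 1; field_simp
  rw [h4] at h3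
  exact (ENNReal.mul_le_mul_iff_right (by simpa using div_pos A0 r2) ENNReal.ofReal_ne_top).1 h3

end KAt

theorem kAtS_holds : KAtS := by
  intro Λ L e Λ' Λ₀ τ ρ D hΛ hL he hΛ' hτ hρ
  have hp := Real.pi_gt_three
  obtain ⟨C, C0, hC⟩ := ratio (D := |D| + 1) hτ hρ (by positivity)
  obtain ⟨C₁, C1, hG⟩ := gau_ar
  set M := 3 * (C₁ * Λ) / e + 1 with hM
  have M0 : 0 < M := by positivity
  set K := C * Λ₀ + M + 2 + Real.log (3 * τ) / 4 with hK
  have L0 : 0 < L := by linarith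
  refine ⟨min (min L⁻¹ (ρ / (2 * L))) (Real.exp (-2 * (K + Real.log Λ'))), by positivity, ?_⟩
  intro r hr hr0 ν _ σ y₀ hσ hσ1 hy₀ hT hν
  have r1 : L * r ≤ 1 := by
    have := hr0.trans ((min_le_left _ _).trans (min_le_left _ _))
    rwa [inv_eq_one_div, le_div_iff₀' L0] at this
  have r2 : L * r ≤ ρ / 2 := by
    have := hr0.trans ((min_le_left _ _).trans (min_le_right _ _))
    rw [le_div_iff₀ (by positivity)] at this; linarith
  have r3 : Real.log r ≤ -2 * (K + Real.log Λ') :=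
    (Real.log_le_iff_le_exp hr).2 (hr0.trans (min_le_right _ _))
  have r4 : r ≤ 1 := by nlinarith
  have r5 : r ^ 2 < 3 * τ := by nlinarith
  set N : Set ST := ball y₀ ρ ×ˢ Icc (-(4 * τ)) (-τ) with hN
  have mN : MeasurableSet N := measurableSet_ball.prod measurableSet_Icc
  obtain ⟨s, hs, g1, g2⟩ := good_time (ν.restrict N) hr (by linarith) r5
    (by rwa [Measure.restrict_apply_univ])
  refine ⟨s, hs, fun μ hμ => ?_⟩
  set W : Set ST := {q | s - q.2 ∈ Ioo 0 (r ^ 2)} with hW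
  have mW : MeasurableSet W := measurableSet_Ioo.preimage (by fun_prop)
  set V : E → ℝ≥0∞ := fun y => ∫⁻ q in W, ENNReal.ofReal (gau q.1 (s - q.2 + σ) y) ∂ν.restrict N
    with hV
  have mg := (meas_g σ s).ennreal_ofReal
  have mV : Measurable V := mg.lintegral_prod_right'
  set μ' := μ.restrict (ball y₀ (L * r)) with hμ'
  have : IsFiniteMeasure μ' := ⟨by
    rw [Measure.restrict_apply_univ]
    exact (hμ y₀ _ (by positivity)).trans_lt ENNReal.ofReal_lt_top⟩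
  have iV : ∫⁻ y, V y ∂μ' ≤ ENNReal.ofReal M * ENNReal.ofReal (e * r ^ 2) := by
    rw [hV, lintegral_lintegral_swap mg.aemeasurable]
    refine (setLIntegral_mono' (g := fun _ => ENNReal.ofReal (C₁ * Λ)) mW fun q hq => ?_).trans ?_
    · have : 0 < s - q.2 := hq.1
      exact hG μ' Λ q.1 _ (by linarith) hΛ fun x hx =>
        (Measure.restrict_le_self _).trans (hμ q.1 x hx)
    · rw [setLIntegral_const]
      refine (mul_le_mul_right g2 _).trans ?_
      rw [← ENNReal.ofReal_mul (by positivity), ← ENNReal.ofReal_mul M0.le]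
      refine ENNReal.ofReal_le_ofReal ?_
      have : M * (e * r ^ 2) = C₁ * Λ * (3 * r ^ 2) + e * r ^ 2 := by rw [hM]; field_simp
      have : 0 ≤ e * r ^ 2 := by positivity
      linarith
  have ch : μ' {y | ENNReal.ofReal M ≤ V y} ≤ ENNReal.ofReal (e * r ^ 2) :=
    (ENNReal.mul_le_mul_iff_right (by simpa using M0) ENNReal.ofReal_ne_top).1
      ((mul_meas_ge_le_lintegral mV _).trans iV)
  rw [hμ', Measure.restrict_apply (measurableSet_le measurable_const mV)] at ch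
  refine le_trans (measure_mono ?_) ch
  rintro y ⟨h1', h2⟩
  refine ⟨?_, h2⟩
  by_contra hc
  have hc : V y ≤ ENNReal.ofReal M := (not_le.1 hc).le
  have d1 : dist y y₀ < L * r := h2
  have ny : ‖y‖ ≤ |D| + 1 := by
    have := norm_sub_norm_le y y₀
    rw [← dist_eq_norm] at this
    linarith [le_abs_self D]
  obtain ⟨p0, e0⟩ := pot_eq ν hσ (0 : ST)
  obtain ⟨t0, eT⟩ := TT_eq ν hσ zero_le_one
  obtain ⟨-, e1⟩ := pot_eq ν hσ (y, s)
  simp only [Prod.snd_zero, Prod.fst_zero] at e0 e1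
  set A := 3 * ((4 * Real.pi)⁻¹ * Real.log (3 * τ / r ^ 2)) with hA
  have l0 : 0 ≤ Real.log (3 * τ / r ^ 2) :=
    Real.log_nonneg ((one_le_div (by positivity)).2 r5.le)
  have A0 : 0 ≤ A := by positivity
  have main : ENNReal.ofReal (pot ν σ (y, s)) ≤ ENNReal.ofReal (pot ν σ 0) +
      ENNReal.ofReal C * ENNReal.ofReal (TT ν σ 1) + ∫⁻ q, h1 r τ (s - q.2) ∂ν.restrict N + V y := by
    have m1 := (meas_g1 σ 0 0).ennreal_ofReal
    have m2 := (meas_T σ 1).ennreal_ofReal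
    have m3 : Measurable fun q : ST => h1 r τ (s - q.2) := (meas_h1 r τ).comp (by fun_prop)
    have m4 : Measurable fun q : ST => ENNReal.ofReal (gau q.1 (0 - q.2 + σ) 0) +
        ENNReal.ofReal C * ENNReal.ofReal (gau q.1 (σ - q.2) 0 * min 1 (1 * isc σ q)) :=
      m1.add (m2.const_mul _)
    have m5 := m4.indicator (meas_lt 0)
    have m6 : Measurable fun q : ST => {q : ST | q.2 < 0}.indicator (fun q : ST =>
        ENNReal.ofReal (gau q.1 (0 - q.2 + σ) 0) +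
        ENNReal.ofReal C * ENNReal.ofReal (gau q.1 (σ - q.2) 0 * min 1 (1 * isc σ q))) q +
        N.indicator (fun q : ST => h1 r τ (s - q.2)) q := m5.add (m3.indicator mN)
    rw [e0, e1, eT, hV]
    simp only []
    rw [Measure.restrict_restrict mW, ← lintegral_const_mul _ m2, ← lintegral_add_left m1,
      ← lintegral_indicator (meas_lt _), ← lintegral_indicator (meas_lt _),
      ← lintegral_indicator mN, ← lintegral_indicator (mW.inter mN),
      ← lintegral_add_left m5, ← lintegral_add_left m6]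
    refine lintegral_mono fun q => ?_
    by_cases hq : q.2 < s
    swap
    · rw [indicator_of_notMem (show q ∉ {q : ST | q.2 < s} from hq)]; exact bot_le
    rw [indicator_of_mem (show q ∈ {q : ST | q.2 < s} from hq)]
    by_cases hn : q ∈ N
    · by_cases hw : s - q.2 < r ^ 2
      · rw [indicator_of_mem (show q ∈ W ∩ N from ⟨⟨by linarith, hw⟩, hn⟩)]; exact le_add_self
      · refine le_trans ?_ (le_add_self.trans le_self_add)
        have hw := not_lt.1 hw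
        have h3 : -(4 * τ) ≤ q.2 := hn.2.1
        rw [indicator_of_mem hn, h1, indicator_of_mem (show s - q.2 ∈ Icc (r ^ 2) (3 * τ) from
          ⟨hw, by linarith [hs.2]⟩)]
        exact ENNReal.ofReal_le_ofReal ((gau_le (by linarith) _ _).trans
          (inv_le (by linarith) (by linarith)))
    · refine le_trans ?_ (le_self_add.trans le_self_add)
      have q0 : q.2 < 0 := by linarith [hs.2]
      have g0 := (gau_pos (s := σ - q.2) (by linarith) q.1 0).le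
      have m0 : 0 ≤ min 1 (1 * isc σ q) :=
        le_min zero_le_one (by rw [one_mul]; exact isc_nonneg (by linarith))
      rw [indicator_of_mem (show q ∈ {q : ST | q.2 < 0} from q0), ← ENNReal.ofReal_mul C0,
        show 0 - q.2 + σ = σ - q.2 by ring, ← ENNReal.ofReal_add g0 (by positivity)]
      refine ENNReal.ofReal_le_ofReal
        ((hC σ s y y₀ q hσ hs ny (by linarith) hq hn).trans_eq (by ring))
  have fin : pot ν σ (y, s) ≤ pot ν σ 0 + C * TT ν σ 1 + A + M := by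
    rw [← ENNReal.ofReal_le_ofReal_iff (by positivity), ENNReal.ofReal_add (by positivity) M0.le,
      ENNReal.ofReal_add (by positivity) A0, ENNReal.ofReal_add p0 (by positivity),
      ENNReal.ofReal_mul C0]
    exact main.trans (by gcongr)
  have hA1 : A ≤ Real.log (3 * τ) / 4 - Real.log r / 2 := by
    have h3 : Real.log (3 * τ / r ^ 2) = Real.log (3 * τ) - 2 * Real.log r := by
      rw [Real.log_div (by positivity) (by positivity), Real.log_pow]; norm_num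
    have h4 : 3 * (4 * Real.pi)⁻¹ ≤ 1 / 4 := by
      rw [← div_eq_mul_inv, div_le_div_iff₀ (by positivity) (by positivity)]; linarith
    have h5 := mul_le_mul_of_nonneg_right h4 l0
    rw [hA]; linarith
  have hT' := mul_le_mul_of_nonneg_left hT C0
  have h6 : Λ' * r ≤ rad ν σ (y, s) := by
    rw [← Real.exp_log (mul_pos hΛ' hr), Real.log_mul hΛ'.ne' hr.ne', rad]
    exact Real.exp_le_exp.2 (by linarith)
  exact absurd h1' (not_lt.2 h6)

end Crest.Agent.N250.A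

end
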