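import Crest.Agent.N250.A.Stm
import Crest.Agent.N250.A.Good
import Crest.Agent.N250.T.Lim
import Crest.Agent.N250.A.Cost_Mg
import Crest.Agent.N250.T.FsC
import Crest.Agent.N250.T.CFl
import Crest.Agent.N250.Defs

-- ▼ part N250/A/Fin1
section

/-!
# Row 250, block A (helper83): kernel lemmas and the spacetime measure for `FinS`
-/

set_option autoImplicit false
open MeasureTheory Set Filter Topology Metric
open scoped ContDiff InnerProductSpace ENNReal
open Crest.GeometryTopology.MCF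

noncomputable section

namespace Crest.Agent.N250.A.Fn

theorem gau_symm (y x : E) (s : ℝ) : gau y s x = gau x s y := by
  unfold gau; rw [norm_sub_rev]

theorem sq_id (u v : E) {a b : ℝ} (ha : 0 < a) (hb : 0 < b) :
    ‖u‖ ^ 2 / a + ‖u - v‖ ^ 2 / b =
      ‖v‖ ^ 2 / (a + b) + ‖u - (a / (a + b)) • v‖ ^ 2 / (a * b / (a + b)) := by
  rw [norm_sub_sq_real, norm_sub_sq_real, inner_smul_right, norm_smul, mul_pow, Real.norm_eq_abs,
    sq_abs]
  field_simp
  ring

/-- product of two Gaussians -/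
theorem gau_mul (x q z : E) {a b : ℝ} (ha : 0 < a) (hb : 0 < b) :
    gau x a z * gau q b z =
      gau x (a + b) q * gau (x + (a / (a + b)) • (q - x)) (a * b / (a + b)) z := by
  have h := sq_id (z - x) (q - x) ha hb
  rw [sub_sub_sub_cancel_right, sub_sub] at h
  have hp := Real.pi_pos
  unfold gau
  rw [mul_mul_mul_comm, mul_mul_mul_comm (4 * Real.pi * (a + b))⁻¹, ← Real.exp_add, ← Real.exp_add]
  congr 1
  · field_simp
  · congr 1
    have e : ∀ u s : ℝ, -u / (4 * s) = -(1 / 4) * (u / s) := fun u s => by ring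
    simp only [e]
    linarith

/-- comparison of Gaussians with different centres -/
theorem gau_cmp (y z w : E) {a b d D : ℝ} (hb : 0 < b) (hd : 0 < d) (hab : b + d ≤ a)
    (hD : ‖z - y‖ ^ 2 ≤ D * d) : gau z b w ≤ a / b * Real.exp (D / 4) * gau y a w := by
  have hp := Real.pi_pos
  have ha : 0 < a := by linarith
  have h := sq_id (z - y) (w - y) (a := a - b) (by linarith) hb
  rw [sub_sub_sub_cancel_right, sub_add_cancel, norm_sub_rev z w] at h
  have h0 : 0 ≤ ‖z - y - ((a - b) / a) • (w - y)‖ ^ 2 / ((a - b) * b / a) := by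
    have : 0 < a - b := by linarith
    positivity
  have h1 : ‖z - y‖ ^ 2 / (a - b) ≤ D := by
    have : 0 ≤ D := by
      by_contra k
      nlinarith [sq_nonneg ‖z - y‖]
    rw [div_le_iff₀ (by linarith)]
    nlinarith
  unfold gau
  have e : a / b * Real.exp (D / 4) * ((4 * Real.pi * a)⁻¹ * Real.exp (-‖w - y‖ ^ 2 / (4 * a))) =
      (4 * Real.pi * b)⁻¹ * Real.exp (D / 4 + -‖w - y‖ ^ 2 / (4 * a)) := by
    rw [Real.exp_add]; field_simp
  rw [e]
  refine mul_le_mul_of_nonneg_left (Real.exp_le_exp.2 ?_) (by positivity)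
  have e : ∀ u s : ℝ, -u / (4 * s) = -(1 / 4) * (u / s) := fun u s => by ring
  simp only [e]
  linarith

theorem gau_scale (z w : E) {a b : ℝ} (hb : 0 < b) (hab : b ≤ a) :
    gau z b w ≤ a / b * gau z a w := by
  have hp := Real.pi_pos
  have ha : 0 < a := by linarith
  unfold gau
  have e : a / b * ((4 * Real.pi * a)⁻¹ * Real.exp (-‖w - z‖ ^ 2 / (4 * a))) =
      (4 * Real.pi * b)⁻¹ * Real.exp (-‖w - z‖ ^ 2 / (4 * a)) := by field_simp
  rw [e]
  refine mul_le_mul_of_nonneg_left (Real.exp_le_exp.2 ?_) (by positivity)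
  rw [neg_div, neg_div, neg_le_neg_iff]
  exact div_le_div_of_nonneg_left (by positivity) (by positivity) (by linarith)

theorem gau_low {x z : E} {ρ L : ℝ} (hρ : 0 < ρ) (hz : z ∈ ball x (L * ρ)) :
    1 ≤ 4 * Real.pi * ρ ^ 2 * Real.exp (L ^ 2 / 4) * gau x (ρ ^ 2) z := by
  have hp := Real.pi_pos
  unfold gau
  have e : 4 * Real.pi * ρ ^ 2 * Real.exp (L ^ 2 / 4) * ((4 * Real.pi * ρ ^ 2)⁻¹ *
      Real.exp (-‖z - x‖ ^ 2 / (4 * ρ ^ 2))) =
      Real.exp (L ^ 2 / 4 + -‖z - x‖ ^ 2 / (4 * ρ ^ 2)) := by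
    rw [Real.exp_add]; field_simp
  rw [e, Real.one_le_exp_iff]
  have h1 : ‖z - x‖ ^ 2 ≤ (L * ρ) ^ 2 :=
    pow_le_pow_left₀ (norm_nonneg _) (mem_ball_iff_norm.1 hz).le 2
  have : ‖z - x‖ ^ 2 / (4 * ρ ^ 2) ≤ L ^ 2 / 4 := by
    rw [div_le_iff₀ (by positivity)]; nlinarith
  rw [neg_div]; linarith

theorem meas_gau {α : Type} [MeasurableSpace α] {y x : α → E} {s : α → ℝ} (hy : Measurable y)
    (hs : Measurable s) (hx : Measurable x) :
    Measurable fun a => ENNReal.ofReal (gau (y a) (s a) (x a)) := by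
  unfold gau
  fun_prop

/-- Gaussian integrals from ball bounds at large radii only -/
theorem gau_big : ∃ C : ℝ, 1 ≤ C ∧ ∀ (ν : Measure ST) (Λ : ℝ) (y : E) (s : ℝ), 0 < s → 0 ≤ Λ →
    (∀ r, √s ≤ r → ν (ball y r ×ˢ univ) ≤ ENNReal.ofReal (Λ * r ^ 2)) →
    ∫⁻ q, ENNReal.ofReal (gau y s q.1) ∂ν ≤ ENNReal.ofReal (C * Λ) := by
  obtain ⟨C, hC, h⟩ := gau_ar
  refine ⟨C + 1, by linarith, fun ν Λ y s hs hΛ hν => ?_⟩
  have hq : 0 < √s := Real.sqrt_pos.2 hs
  have hm : ∀ r, (ν.map Prod.fst) (ball y r) = ν (ball y r ×ˢ univ) := fun r => by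
    rw [Measure.map_apply measurable_fst measurableSet_ball, prod_univ]
  have mg : Measurable fun x : E => ENNReal.ofReal (gau y s x) :=
    meas_gau measurable_const measurable_const measurable_id
  rw [← lintegral_map mg measurable_fst, ← lintegral_add_compl _ (measurableSet_ball (x := y) (ε := √s))]
  have h1 := h ((ν.map Prod.fst).restrict (ball y √s)ᶜ) Λ y s hs hΛ fun r hr => by
    rw [Measure.restrict_apply measurableSet_ball]
    rcases le_total r √s with k | k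
    · rw [show ball y r ∩ (ball y √s)ᶜ = ∅ from
        eq_empty_of_forall_notMem fun x hx => hx.2 (ball_subset_ball k hx.1)]
      simp
    · exact (measure_mono inter_subset_left).trans ((hm r).trans_le (hν r k))
  have h2 : ∫⁻ x in ball y √s, ENNReal.ofReal (gau y s x) ∂(ν.map Prod.fst) ≤ ENNReal.ofReal Λ := by
    refine (lintegral_mono fun x => ENNReal.ofReal_le_ofReal (gau_le hs y x)).trans ?_
    rw [setLIntegral_const, hm]
    refine (mul_le_mul_right (hν _ le_rfl) _).trans ?_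
    have hp := Real.pi_gt_three
    rw [← ENNReal.ofReal_mul (by positivity), Real.sq_sqrt hs.le]
    refine ENNReal.ofReal_le_ofReal ?_
    have : (4 * Real.pi * s)⁻¹ * (Λ * s) = Λ / (4 * Real.pi) := by field_simp
    rw [this]
    exact div_le_self hΛ (by linarith)
  refine (add_le_add h2 h1).trans ?_
  rw [← ENNReal.ofReal_add hΛ (by positivity)]
  exact ENNReal.ofReal_le_ofReal (by linarith)

theorem sfin_of {μ : Measure E} {Λ : ℝ} (h : Rt μ Λ) : SFinite μ := by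
  have : IsLocallyFiniteMeasure μ :=
    ⟨fun x => ⟨_, ball_mem_nhds x one_pos, (h x 1 one_pos).trans_lt ENNReal.ofReal_lt_top⟩⟩
  infer_instance

/-- Chebyshev with a Gaussian weight -/
theorem cheb : ∃ C : ℝ, 1 ≤ C ∧ ∀ (μ : Measure E) (Λ : ℝ) (ν : Measure ST) [SFinite ν]
    (b : ST → ℝ) (x : E) (ρ L K Q : ℝ), 0 ≤ Λ → Rt μ Λ → Measurable b → (∀ᵐ q ∂ν, 0 < b q) →
    0 < ρ → 0 < K → 0 ≤ Q →
    ∫⁻ q, ENNReal.ofReal (gau x (ρ ^ 2 + b q) q.1) ∂ν ≤ ENNReal.ofReal Q →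
    μ ({z | ENNReal.ofReal K ≤ ∫⁻ q, ENNReal.ofReal (gau q.1 (b q) z) ∂ν} ∩ ball x (L * ρ)) ≤
      ENNReal.ofReal (4 * Real.pi * Real.exp (L ^ 2 / 4) * (C * Λ) * Q / K * ρ ^ 2) := by
  obtain ⟨C, hC, h⟩ := gau_ar
  refine ⟨C, hC, fun μ Λ ν _ b x ρ L K Q hΛ hμ hb hb0 hρ hK hQ hν => ?_⟩
  have := sfin_of hμ
  have hp := Real.pi_pos
  have m1 : Measurable fun p : E × ST => ENNReal.ofReal (gau p.2.1 (b p.2) p.1) :=
    meas_gau (by fun_prop) (by fun_prop) (by fun_prop)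
  have m2 : Measurable fun z : E => ENNReal.ofReal (gau x (ρ ^ 2) z) :=
    meas_gau measurable_const measurable_const measurable_id
  have m3 : Measurable fun z => ∫⁻ q, ENNReal.ofReal (gau q.1 (b q) z) ∂ν := m1.lintegral_prod_right'
  have h1 := mul_meas_ge_le_lintegral₀ (μ := μ.restrict (ball x (L * ρ))) m3.aemeasurable
    (ENNReal.ofReal K)
  rw [Measure.restrict_apply' measurableSet_ball] at h1
  have h2 : ∫⁻ z in ball x (L * ρ), ∫⁻ q, ENNReal.ofReal (gau q.1 (b q) z) ∂ν ∂μ ≤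
      ENNReal.ofReal (4 * Real.pi * ρ ^ 2 * Real.exp (L ^ 2 / 4)) *
        ∫⁻ z, ∫⁻ q, ENNReal.ofReal (gau x (ρ ^ 2) z) * ENNReal.ofReal (gau q.1 (b q) z) ∂ν ∂μ := by
    rw [← lintegral_const_mul' _ _ ENNReal.ofReal_ne_top]
    refine (setLIntegral_mono' measurableSet_ball fun z hz => ?_).trans (setLIntegral_le_lintegral _ _)
    rw [lintegral_const_mul' _ _ ENNReal.ofReal_ne_top, ← mul_assoc, ← ENNReal.ofReal_mul (by positivity)]
    exact le_mul_of_one_le_left zero_le (ENNReal.one_le_ofReal.2 (gau_low hρ hz))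
  have h3 : ∫⁻ z, ∫⁻ q, ENNReal.ofReal (gau x (ρ ^ 2) z) * ENNReal.ofReal (gau q.1 (b q) z) ∂ν ∂μ ≤
      ENNReal.ofReal Q * ENNReal.ofReal (C * Λ) := by
    rw [lintegral_lintegral_swap ((m2.comp measurable_fst).mul m1).aemeasurable]
    refine le_trans ?_ (mul_le_mul_left hν _)
    rw [← lintegral_mul_const' _ _ ENNReal.ofReal_ne_top]
    refine lintegral_mono_ae ?_
    filter_upwards [hb0] with q hq
    have e : ∀ z, ENNReal.ofReal (gau x (ρ ^ 2) z) * ENNReal.ofReal (gau q.1 (b q) z) =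
        ENNReal.ofReal (gau x (ρ ^ 2 + b q) q.1) * ENNReal.ofReal (gau (x + (ρ ^ 2 / (ρ ^ 2 + b q)) •
          (q.1 - x)) (ρ ^ 2 * b q / (ρ ^ 2 + b q)) z) := fun z => by
      rw [← ENNReal.ofReal_mul (gau_pos (by positivity) _ _).le, gau_mul _ _ _ (by positivity) hq,
        ENNReal.ofReal_mul (gau_pos (by positivity) _ _).le]
    simp only [e]
    rw [lintegral_const_mul' _ _ ENNReal.ofReal_ne_top]
    exact mul_le_mul_right (h μ Λ _ _ (by positivity) hΛ (hμ _)) _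
  have h4 := h1.trans (h2.trans (mul_le_mul_right h3 _))
  rw [← ENNReal.ofReal_mul hQ, ← ENNReal.ofReal_mul (by positivity), mul_comm,
    ← ENNReal.le_div_iff_mul_le (Or.inl (ENNReal.ofReal_pos.2 hK).ne') (Or.inl ENNReal.ofReal_ne_top),
    ← ENNReal.ofReal_div_of_pos hK] at h4
  refine h4.trans (le_of_eq ?_)
  congr 1; ring

/-! ### the spacetime measure -/

variable {F : Mv} {m : Measure ST}

/-- measurable version of a density on the track -/
def dn (F : Mv) (f : ST → ℝ) : ST → ℝ≥0∞ := F.M.indicator fun q => ENNReal.ofReal (f q)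

theorem meas_dn (hF : F.Reg) {f : ST → ℝ} (hf : ContinuousOn f F.M) : Measurable (dn F f) := by
  classical
  rw [dn, ← piecewise_eq_indicator]
  exact (ENNReal.continuous_ofReal.comp_continuousOn hf).measurable_piecewise continuousOn_const
    hF.measurableSet_M

theorem ae_M (hF : F.Reg) (hm : IsStm F m) : ∀ᵐ q ∂m, q ∈ F.M := by
  have h := (hm ((F.Mᶜ).indicator 1) (measurable_one.indicator hF.measurableSet_M.compl)).2
  rw [lintegral_indicator_one hF.measurableSet_M.compl] at h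
  refine ae_iff.2 (h.trans ?_)
  have : ∀ t, ∫⁻ x, (F.Mᶜ).indicator (1 : ST → ℝ≥0∞) (x, t) ∂F.mu t = 0 := fun t => by
    refine (lintegral_congr_ae ?_).trans lintegral_zero
    filter_upwards [ae_restrict_mem (hF.measurableSet_slice t)] with x hx
    exact indicator_of_notMem (show (x, t) ∉ F.Mᶜ from fun k => k hx) _
  simp [this]

theorem sfin_m {Λ : ℝ} (hF : F.AR Λ) (hm : IsStm F m) : SFinite m := by
  have : IsLocallyFiniteMeasure m := ⟨fun p => by
    have ms : MeasurableSet (ball p.1 1 ×ˢ ball p.2 1) := measurableSet_ball.prod measurableSet_ball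
    refine ⟨_, prod_mem_nhds (ball_mem_nhds p.1 one_pos) (ball_mem_nhds p.2 one_pos), ?_⟩
    have h := (hm ((ball p.1 1 ×ˢ ball p.2 1).indicator 1) (measurable_one.indicator ms)).2
    rw [lintegral_indicator_one ms] at h
    rw [h]
    refine lt_of_le_of_lt (lintegral_mono (g := (ball p.2 1).indicator fun _ =>
      ENNReal.ofReal (Λ * 1 ^ 2)) fun t => ?_) ?_
    · by_cases ht : t ∈ ball p.2 1
      · rw [indicator_of_mem ht]
        refine le_trans (lintegral_mono (g := (ball p.1 1).indicator 1) fun x => ?_) ?_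
        · by_cases hx : x ∈ ball p.1 1
          · rw [indicator_of_mem hx]; exact indicator_le_self _ _ _
          · rw [indicator_of_notMem fun k => hx k.1]; exact zero_le
        · rw [lintegral_indicator_one measurableSet_ball]; exact hF t _ 1 one_pos
      · have : ∀ x, (ball p.1 1 ×ˢ ball p.2 1).indicator (1 : ST → ℝ≥0∞) (x, t) = 0 :=
          fun x => indicator_of_notMem (fun k => ht k.2) _
        simp [this]
    · rw [lintegral_indicator measurableSet_ball, setLIntegral_const]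
      exact ENNReal.mul_lt_top ENNReal.ofReal_lt_top measure_ball_lt_top⟩
  infer_instance

/-- integrals against `f m` on time strips -/
theorem lint_strip (hF : F.Reg) (hm : IsStm F m) {f k : ST → ℝ} (hf : ContinuousOn f F.M)
    (f0 : ∀ q, 0 ≤ f q) (hk : Measurable fun q => ENNReal.ofReal (k q)) (t₁ t₂ : ℝ) :
    ∫⁻ q in Prod.snd ⁻¹' Ioc t₁ t₂, ENNReal.ofReal (k q) ∂m.withDensity (dn F f) =
      F.stI (fun q => f q * k q) t₁ t₂ := by
  have ms : MeasurableSet (Prod.snd ⁻¹' Ioc t₁ t₂ : Set ST) := measurable_snd measurableSet_Ioc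
  rw [setLIntegral_withDensity_eq_setLIntegral_mul _ (meas_dn hF hf) hk ms, ← lintegral_indicator ms,
    (hm _ (((meas_dn hF hf).mul hk).indicator ms)).2, Mv.stI, setLIntegral_congr Ioo_ae_eq_Ioc,
    ← lintegral_indicator measurableSet_Ioc]
  refine lintegral_congr fun t => ?_
  by_cases ht : t ∈ Ioc t₁ t₂
  · rw [indicator_of_mem ht]
    refine lintegral_congr_ae ?_
    filter_upwards [ae_restrict_mem (hF.measurableSet_slice t)] with x hx
    rw [indicator_of_mem (show (x, t) ∈ Prod.snd ⁻¹' Ioc t₁ t₂ from ht), Pi.mul_apply, dn,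
      indicator_of_mem (show (x, t) ∈ F.M from hx), ENNReal.ofReal_mul (f0 _)]
  · rw [indicator_of_notMem ht]
    refine (lintegral_congr fun x => ?_).trans lintegral_zero
    exact indicator_of_notMem (show (x, t) ∉ Prod.snd ⁻¹' Ioc t₁ t₂ from ht) _

end Crest.Agent.N250.A.Fn

end
end

-- ▼ part N250/A/Fin
section

/-!
# Row 250, block A (helper83): `FinS`
-/

set_option autoImplicit false
open MeasureTheory Set Filter Topology Metric
open scoped ContDiff InnerProductSpace ENNReal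
open Crest.GeometryTopology.MCF

noncomputable section

namespace Crest.Agent.N250.A

namespace Fn

/-- parabolic mass bound on `(a, 0)` -/
def PB (ν : Measure ST) (a C : ℝ) : Prop := ∀ y r t₁ t₂, 0 < r → a < t₁ → t₂ < 0 → t₂ - t₁ ≤ r ^ 2 →
  ν.restrict (Prod.snd ⁻¹' Ioc t₁ t₂) (ball y r ×ˢ univ) ≤ ENNReal.ofReal (C * r ^ 2)

theorem blk : ∃ C : ℝ, 1 ≤ C ∧ ∀ (ν : Measure ST) (a Λ : ℝ), 0 ≤ Λ → PB ν a Λ →
    ∀ (z : E) (s t₁ t₂ : ℝ) (k : ST → ℝ) (c : ℝ), 0 < s → a < t₁ → t₂ < 0 → t₂ - t₁ ≤ s → 0 ≤ c →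
    (∀ q : ST, q.2 ∈ Ioc t₁ t₂ → k q ≤ c * gau z s q.1) →
    ∫⁻ q in Prod.snd ⁻¹' Ioc t₁ t₂, ENNReal.ofReal (k q) ∂ν ≤ ENNReal.ofReal (c * (C * Λ)) := by
  obtain ⟨C, hC, h⟩ := gau_big
  refine ⟨C, hC, fun ν a Λ hΛ hν z s t₁ t₂ k c hs h1 h2 h3 hc hk => ?_⟩
  have := h (ν.restrict (Prod.snd ⁻¹' Ioc t₁ t₂)) Λ z s hs hΛ fun r hr => by
    have hq := Real.sqrt_pos.2 hs
    refine hν z r t₁ t₂ (by linarith) h1 h2 (h3.trans ?_)
    have := pow_le_pow_left₀ hq.le hr 2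
    rwa [Real.sq_sqrt hs.le] at this
  rw [ENNReal.ofReal_mul hc]
  refine le_trans ?_ (mul_le_mul_right this _)
  rw [← lintegral_const_mul' _ _ ENNReal.ofReal_ne_top]
  refine setLIntegral_mono' (measurable_snd measurableSet_Ioc) fun q hq => ?_
  rw [← ENNReal.ofReal_mul hc]
  exact ENNReal.ofReal_le_ofReal (hk q hq)

theorem sum_min (N : ℕ) : (Summable fun j : ℕ => min (1 : ℝ) (2 ^ N / 2 ^ j)) ∧
    ∑' j : ℕ, min (1 : ℝ) (2 ^ N / 2 ^ j) ≤ N + 2 := by
  have e : ∀ j : ℕ, (2 : ℝ) ^ N / 2 ^ j = 2 ^ N * (1 / 2) ^ j := fun j => by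
    rw [one_div, inv_pow, div_eq_mul_inv]
  have hs : Summable fun j : ℕ => min (1 : ℝ) (2 ^ N / 2 ^ j) :=
    .of_nonneg_of_le (fun j => by positivity) (fun j => (min_le_right _ _).trans (e j).le)
      (summable_geometric_two.mul_left _)
  refine ⟨hs, ?_⟩
  rw [← hs.sum_add_tsum_nat_add N]
  refine add_le_add ?_ ?_
  · refine (Finset.sum_le_sum fun j _ => min_le_left _ _).trans ?_
    simp
  · refine (((summable_nat_add_iff N).2 hs).tsum_le_tsum (fun j => (min_le_right _ _).trans ?_)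
      summable_geometric_two).trans tsum_geometric_two.le
    rw [pow_add, one_div, inv_pow]
    apply le_of_eq; field_simp

/-- the damped curvature potential at lags at least `ρ²` -/
theorem farA : ∃ C : ℝ, 1 ≤ C ∧ ∀ (ν : Measure ST) (a Λ : ℝ), 0 ≤ Λ → PB ν a Λ →
    ∀ (z : E) (a₀ t ρ σ : ℝ) (N : ℕ), a < a₀ → t < 0 → 0 < ρ → 0 < σ → σ ≤ ρ ^ 2 →
    2 * -t ≤ 2 ^ N * ρ ^ 2 →
    ∫⁻ q in Prod.snd ⁻¹' Ioc a₀ (t - ρ ^ 2),
      ENNReal.ofReal (gau q.1 (t - q.2 + σ) z * (1 - ((t - q.2) / q.2) ^ 2)) ∂ν ≤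
      ENNReal.ofReal ((N + 2) * (3 * (C * Λ))) := by
  obtain ⟨C, hC, h⟩ := blk
  refine ⟨C, hC, fun ν a Λ hΛ hν z a₀ t ρ σ N ha ht hρ hσ hσρ hN => ?_⟩
  have cov : (Prod.snd ⁻¹' Ioc a₀ (t - ρ ^ 2) : Set ST) ⊆
      ⋃ j : ℕ, Prod.snd ⁻¹' Ioc (max a₀ (t - 2 ^ (j + 1) * ρ ^ 2)) (t - 2 ^ j * ρ ^ 2) := by
    intro q hq
    have h1 : 1 ≤ (t - q.2) / ρ ^ 2 := (one_le_div (by positivity)).2 (by linarith [hq.2])
    obtain ⟨j, j1, j2⟩ := exists_nat_pow_near h1 one_lt_two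
    rw [le_div_iff₀ (by positivity)] at j1
    rw [div_lt_iff₀ (by positivity)] at j2
    exact mem_iUnion.2 ⟨j, max_lt hq.1 (by linarith), by linarith⟩
  refine ((lintegral_mono_set cov).trans (lintegral_iUnion_le _ _)).trans ?_
  have hb : ∀ j : ℕ, ∫⁻ q in Prod.snd ⁻¹' Ioc (max a₀ (t - 2 ^ (j + 1) * ρ ^ 2)) (t - 2 ^ j * ρ ^ 2),
      ENNReal.ofReal (gau q.1 (t - q.2 + σ) z * (1 - ((t - q.2) / q.2) ^ 2)) ∂ν ≤
      ENNReal.ofReal (min (1 : ℝ) (2 ^ N / 2 ^ j) * (3 * (C * Λ))) := by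
    intro j
    have p1 : (1 : ℝ) ≤ 2 ^ j := one_le_pow₀ one_le_two
    have p2 : ρ ^ 2 ≤ 2 ^ j * ρ ^ 2 := le_mul_of_one_le_left (by positivity) p1
    have p3 : 0 < 2 ^ j * ρ ^ 2 := by positivity
    rw [← mul_assoc]
    refine h ν a Λ hΛ hν z (3 * (2 ^ j * ρ ^ 2)) _ _ _ _ (by positivity)
      (ha.trans_le (le_max_left _ _)) (by linarith) ?_ (by positivity) fun q hq => ?_
    · have := le_max_right a₀ (t - 2 ^ (j + 1) * ρ ^ 2)
      have e : (2 : ℝ) ^ (j + 1) * ρ ^ 2 = 2 * (2 ^ j * ρ ^ 2) := by ring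
      linarith
    have q1 := (le_max_right _ _).trans_lt hq.1
    rw [pow_succ] at q1
    have q2 := hq.2
    have g1 : gau q.1 (t - q.2 + σ) z ≤ 3 * gau z (3 * (2 ^ j * ρ ^ 2)) q.1 := by
      rw [gau_symm]
      refine (gau_scale z q.1 (a := 3 * (2 ^ j * ρ ^ 2)) (by linarith) (by linarith)).trans ?_
      refine mul_le_mul_of_nonneg_right ?_ (gau_pos (by positivity) _ _).le
      rw [div_le_iff₀ (by linarith)]; linarith
    have g2 : 1 - ((t - q.2) / q.2) ^ 2 ≤ min (1 : ℝ) (2 ^ N / 2 ^ j) := by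
      refine le_min (by linarith [sq_nonneg ((t - q.2) / q.2)]) ?_
      have s0 : 0 < -q.2 := by linarith
      have e : 1 - ((t - q.2) / q.2) ^ 2 = 2 * -t / -q.2 - (t / q.2) ^ 2 := by
        have : q.2 ≠ 0 := by linarith
        field_simp; ring
      have : 2 * -t / -q.2 ≤ 2 ^ N / 2 ^ j := by
        rw [div_le_div_iff₀ s0 (by positivity)]
        calc 2 * -t * 2 ^ j ≤ 2 ^ N * ρ ^ 2 * 2 ^ j := by gcongr
          _ = 2 ^ N * (2 ^ j * ρ ^ 2) := by ring
          _ ≤ 2 ^ N * -q.2 := by gcongr; linarith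
      linarith [sq_nonneg (t / q.2)]
    calc _ ≤ gau q.1 (t - q.2 + σ) z * min (1 : ℝ) (2 ^ N / 2 ^ j) :=
          mul_le_mul_of_nonneg_left g2 (gau_pos (by linarith) _ _).le
      _ ≤ 3 * gau z (3 * (2 ^ j * ρ ^ 2)) q.1 * min (1 : ℝ) (2 ^ N / 2 ^ j) :=
          mul_le_mul_of_nonneg_right g1 (by positivity)
      _ = _ := by ring
  refine (ENNReal.tsum_le_tsum hb).trans ?_
  rw [← ENNReal.ofReal_tsum_of_nonneg (fun j => by positivity) ((sum_min N).1.mul_right _), tsum_mul_right]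
  exact ENNReal.ofReal_le_ofReal (mul_le_mul_of_nonneg_right (sum_min N).2 (by positivity))

variable {F : Mv} {m : Measure ST}

theorem a2_nonneg (F : Mv) (q : ST) : 0 ≤ F.A2 q := by
  simp only [Mv.A2, Finset.sum_apply, Pi.mul_apply]
  exact Finset.sum_nonneg fun a _ => Finset.sum_nonneg fun b _ => mul_self_nonneg _

theorem a2_cont (hF : F.Reg) : ContinuousOn F.A2 F.M := by
  have : F.A2 = fun p => ∑ a, ∑ b, F.A a b p * F.A a b p := by ext p; simp [Mv.A2]
  rw [this]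
  exact continuousOn_finsetSum _ fun a _ => continuousOn_finsetSum _ fun b _ =>
    (hF.smA a b).continuousOn.mul (hF.smA a b).continuousOn

theorem pb_of (hF : F.Reg) (hm : IsStm F m) {a C : ℝ}
    (h : ∀ y r t₁ t₂, 0 < r → Icc t₁ t₂ ⊆ Ioo a 0 → t₂ - t₁ ≤ r ^ 2 →
      F.stI ((ball y r ×ˢ univ).indicator F.A2) t₁ t₂ ≤ ENNReal.ofReal (C * r ^ 2)) :
    PB (m.withDensity (dn F F.A2)) a C := by
  intro y r t₁ t₂ hr h1 h2 h3
  have ms : MeasurableSet (ball y r ×ˢ (univ : Set ℝ)) := measurableSet_ball.prod .univ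
  have e : (fun q => ENNReal.ofReal ((ball y r ×ˢ (univ : Set ℝ)).indicator (1 : ST → ℝ) q)) =
      (ball y r ×ˢ (univ : Set ℝ)).indicator 1 := by
    ext q; by_cases k : q ∈ ball y r ×ˢ (univ : Set ℝ) <;> simp [indicator_of_mem, indicator_of_notMem, k]
  have := lint_strip hF hm (a2_cont hF) (a2_nonneg F) (k := (ball y r ×ˢ univ).indicator 1)
    (e ▸ measurable_one.indicator ms) t₁ t₂
  rw [e, lintegral_indicator_one ms] at this
  rw [this]
  refine le_trans (le_of_eq ?_) (h y r t₁ t₂ hr (fun s hs => ⟨h1.trans_le hs.1, hs.2.trans_lt h2⟩) h3)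
  congr 1
  ext q
  by_cases k : q ∈ ball y r ×ˢ (univ : Set ℝ) <;> simp [indicator_of_mem, indicator_of_notMem, k]

theorem UU_le (hF : F.Reg) (hneg : ∀ p ∈ F.M, p.2 < 0) (hm : IsStm F m) (y z : E)
    {ε B σ a₀ t T : ℝ} (hε : 0 ≤ ε) (hB : 0 ≤ B) (hσ : 0 < σ) (ht : t < 0) (hT : 0 ≤ T)
    (h : ENNReal.ofReal ε * ∫⁻ q in Prod.snd ⁻¹' Ioc a₀ t, ENNReal.ofReal (gau q.1 (t - q.2 + σ) z *
        (1 - ((t - q.2) / q.2) ^ 2)) ∂m.withDensity (dn F F.A2) +
      ENNReal.ofReal (ε * B) * ∫⁻ q in Prod.snd ⁻¹' Ioc a₀ t, ENNReal.ofReal (gau q.1 (t - q.2 + σ) z)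
        ∂m.withDensity (dn F fun q => F.dev (y, 0) q ^ 2) ≤ ENNReal.ofReal T) :
    UU F m y ε B σ a₀ (z, t) ≤ T := by
  have ms : MeasurableSet (Prod.snd ⁻¹' Ioc a₀ t : Set ST) := measurable_snd measurableSet_Ioc
  have m1 : Measurable fun q : ST => ENNReal.ofReal (gau q.1 (t - q.2 + σ) z) :=
    meas_gau (by fun_prop) (by fun_prop) (by fun_prop)
  have m2 : Measurable fun q : ST =>
      ENNReal.ofReal (gau q.1 (t - q.2 + σ) z * (1 - ((t - q.2) / q.2) ^ 2)) := by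
    unfold gau; fun_prop
  have d1 := meas_dn hF (a2_cont hF)
  have d2 := meas_dn hF (f := fun q => F.dev (y, 0) q ^ 2) fun p hp => (hF.dev_cont hp (hneg p hp)).pow 2
  rw [setLIntegral_withDensity_eq_setLIntegral_mul _ d1 m2 ms,
    setLIntegral_withDensity_eq_setLIntegral_mul _ d2 m1 ms,
    ← lintegral_const_mul' _ _ ENNReal.ofReal_ne_top, ← lintegral_const_mul' _ _ ENNReal.ofReal_ne_top,
    ← lintegral_add_left ((d1.mul m2).const_mul _)] at h
  unfold UU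
  refine (Real.le_norm_self _).trans ((norm_integral_le_lintegral_norm _).trans
    (ENNReal.toReal_le_of_le_ofReal hT (le_trans ?_ h)))
  have ms' : MeasurableSet {q : ST | a₀ < q.2 ∧ q.2 < t} := measurable_snd measurableSet_Ioo
  refine le_trans (setLIntegral_mono_ae' ms' ?_) (lintegral_mono_set fun q hq => ⟨hq.1, hq.2.le⟩)
  filter_upwards [ae_M hF hm] with q hq hq'
  have g0 := (gau_pos (s := t - q.2 + σ) (by linarith [hq'.2]) q.1 z).le
  have a0 := a2_nonneg F q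
  have k0 : 0 ≤ 1 - ((t - q.2) / q.2) ^ 2 := by
    have : q.2 < 0 := hneg q hq
    rw [div_pow, sub_nonneg, div_le_one (by nlinarith)]
    nlinarith [hq'.2]
  simp only [Pi.mul_apply, dn, indicator_of_mem hq, dens]
  rw [Real.norm_of_nonneg (by positivity), ← ENNReal.ofReal_mul a0, ← ENNReal.ofReal_mul hε,
    ← ENNReal.ofReal_mul (sq_nonneg _), ← ENNReal.ofReal_mul (by positivity),
    ← ENNReal.ofReal_add (by positivity) (by positivity)]
  exact ENNReal.ofReal_le_ofReal (le_of_eq (by ring))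

theorem devI (hH : HuiskenS) {a Λ : ℝ} (hF : Fl F (Ioo a 0) Λ) (hm : IsStm F m) (y : E)
    {t₁ t₂ c T : ℝ} {J : Set ℝ} {k : ST → ℝ} (h0 : t₁ ≤ t₂) (h1 : a < t₁) (h2 : t₂ < 0)
    (hJ : MeasurableSet J) (hJ' : J ⊆ Ioc t₁ t₂) (hc : 0 ≤ c)
    (hk : ∀ q : ST, q.2 ∈ J → k q ≤ c * gau y (-q.2) q.1)
    (hT : F.Fs t₁ y (-t₁) - F.Fs t₂ y (-t₂) ≤ T) :
    ∫⁻ q in Prod.snd ⁻¹' J, ENNReal.ofReal (k q) ∂m.withDensity (dn F fun q => F.dev (y, 0) q ^ 2) ≤
      ENNReal.ofReal (c * T) := by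
  have hR := hF.mcf.1
  have e := lint_strip hR hm (f := fun q => F.dev (y, 0) q ^ 2) (k := Phi (y, 0))
    (fun p hp => (hR.dev_cont hp (hF.time p hp).2).pow 2) (fun q => sq_nonneg _)
    (meas_gau (by fun_prop) (by fun_prop) (by fun_prop)) t₁ t₂
  rw [(hH F _ Λ isOpen_Ioo hF (y, 0) t₁ t₂ h0 h2
    fun s hs => ⟨h1.trans_le hs.1, hs.2.trans_lt h2⟩).2] at e
  simp only [zero_sub] at e
  rw [ENNReal.ofReal_mul hc]
  refine le_trans ?_ (mul_le_mul_right (e.trans_le (ENNReal.ofReal_le_ofReal hT)) _)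
  rw [← lintegral_const_mul' _ _ ENNReal.ofReal_ne_top]
  refine le_trans (setLIntegral_mono' (measurable_snd hJ) fun q hq => ?_)
    (lintegral_mono_set (preimage_mono hJ'))
  rw [← ENNReal.ofReal_mul hc]
  refine ENNReal.ofReal_le_ofReal ((hk q hq).trans (le_of_eq ?_))
  simp [Phi]

theorem split (ν : Measure ST) (g : ST → ℝ≥0∞) (a b c : ℝ) :
    ∫⁻ q in Prod.snd ⁻¹' Ioc a c, g q ∂ν ≤
      ∫⁻ q in Prod.snd ⁻¹' Ioc a b, g q ∂ν + ∫⁻ q in Prod.snd ⁻¹' Ioc b c, g q ∂ν :=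
  (lintegral_mono_set (by rw [← preimage_union]; exact preimage_mono Ioc_subset_Ioc_union_Ioc)).trans
    (lintegral_union_le _ _ _)

theorem fs_le {μ : Measure E} {y : E} {s T : ℝ} (hs : 0 < s) (hT : 0 ≤ T)
    (h : ∫⁻ x, ENNReal.ofReal (gau y s x) ∂μ ≤ ENNReal.ofReal T) : ∫ x, gau y s x ∂μ ≤ T := by
  refine (Real.le_norm_self _).trans ((norm_integral_le_lintegral_norm _).trans
    (ENNReal.toReal_le_of_le_ofReal hT (le_trans (le_of_eq ?_) h)))
  exact lintegral_congr fun x => by rw [Real.norm_of_nonneg (gau_pos hs _ _).le]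

theorem psi_ge (y z : E) {ε B σ a₀ r θ D T : ℝ} (hB : 0 < B) (hr : 0 < r) (hθ : r ^ 2 ≤ θ)
    (hz : ‖z - y‖ ^ 2 ≤ D * r ^ 2) (hU : UU F m y ε B σ a₀ (z, -θ) ≤ T) :
    B⁻¹ * r * Real.exp (-(D / 32 + T)) ≤ psi F m y ε B σ a₀ (r ^ 2) (z, -θ) := by
  unfold psi
  simp only [neg_neg]
  have h0 : 0 < θ := lt_of_lt_of_le (by positivity) hθ
  have h1 : r ≤ √√(r ^ 2 * θ) := by
    refine Real.le_sqrt_of_sq_le (Real.le_sqrt_of_sq_le ?_)
    nlinarith [sq_nonneg r]
  have h2 : ‖z - y‖ ^ 2 / (32 * θ) ≤ D / 32 := by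
    have : 0 ≤ D := by
      by_contra k
      nlinarith [sq_nonneg ‖z - y‖, sq_pos_of_pos hr]
    rw [div_le_iff₀ (by positivity)]
    nlinarith
  refine mul_le_mul (mul_le_mul_of_nonneg_left h1 (by positivity)) (Real.exp_le_exp.2 ?_)
    (by positivity) (by positivity)
  rw [neg_div]; linarith

end Fn

open Fn in
theorem finS_of (hA : A2S) (hH : HuiskenS) : FinS := by
  intro Λ G
  obtain ⟨CA, CA0, hA⟩ := hA Λ G
  obtain ⟨C1, hC1, h1⟩ := farA
  obtain ⟨C2, hC2, h2⟩ := blk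
  obtain ⟨C3, hC3, h3⟩ := cheb
  obtain ⟨C4, hC4, h4⟩ := gau_ar
  obtain ⟨L0, hL0⟩ : ∃ L0, L0 = max Λ 0 := ⟨_, rfl⟩
  have L00 : 0 ≤ L0 := hL0 ▸ le_max_right _ _
  refine ⟨1 / (24 * (C1 * CA)), by positivity, fun ε B R L e Λ' hε hε0 hB hL he hΛ' => ?_⟩
  have hp := Real.pi_pos
  obtain ⟨cL, hcL⟩ : ∃ c, c = 4 * Real.pi * Real.exp (L ^ 2 / 4) * (C3 * L0) := ⟨_, rfl⟩
  have cL0 : 0 ≤ cL := by rw [hcL]; positivity
  obtain ⟨K, hK⟩ : ∃ c, c = 1 + 2 * (cL * (3 * (C2 * CA))) / e := ⟨_, rfl⟩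
  have K0 : 0 < K := by rw [hK]; positivity
  obtain ⟨Ee, hE⟩ : ∃ c, c = Real.exp (2 * (L + R) ^ 2 / 4) := ⟨_, rfl⟩
  have E0 : 0 < Ee := by rw [hE]; positivity
  obtain ⟨K', hK'⟩ : ∃ c, c = ε * (12 * (C1 * CA) + K) + ε * B * (3 * Ee * (C4 * L0) + 2) := ⟨_, rfl⟩
  have K'0 : 0 ≤ K' := by rw [hK']; positivity
  obtain ⟨n, hn⟩ := exists_nat_ge (4 * (B * Λ' * Real.exp ((L + R) ^ 2 / 32 + K')) + 1)
  have n1 : 1 ≤ n := by
    have : (1 : ℝ) ≤ n := le_trans (le_add_of_nonneg_left (by positivity)) hn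
    exact_mod_cast this
  obtain ⟨u, hu⟩ : ∃ u : ℝ, u = 2 ^ n := ⟨_, rfl⟩
  have u2 : 2 ≤ u := hu ▸ le_self_pow₀ one_le_two (by omega)
  have u0 : 0 < u := by linarith
  obtain ⟨η, hη⟩ : ∃ c, c = 1 / (3 * u ^ 2 * Ee * (1 + 2 * cL / e)) := ⟨_, rfl⟩
  have η0 : 0 < η := by rw [hη]; positivity
  have η1 : 3 * u ^ 2 * Ee * η ≤ 1 := by
    rw [hη, mul_one_div, div_le_one (by positivity)]
    exact le_mul_of_one_le_right (by positivity) (le_add_of_nonneg_right (by positivity))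
  have η2 : cL * (3 * u ^ 2 * Ee * η) / 1 ≤ e / 2 := by
    have : cL * (3 * u ^ 2 * Ee * η) / 1 = e / 2 * (2 * cL / (e + 2 * cL)) := by
      rw [hη]; field_simp
    rw [this]
    exact mul_le_of_le_one_right (by positivity) ((div_le_one (by positivity)).2 (by linarith))
  have K1 : cL * (3 * (C2 * CA)) / K ≤ e / 2 := by
    rw [div_le_iff₀ K0, hK]
    have : e / 2 * (1 + 2 * (cL * (3 * (C2 * CA))) / e) = e / 2 + cL * (3 * (C2 * CA)) := by field_simp
    linarith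
  refine ⟨u⁻¹, η, 4, by positivity, inv_le_one_of_one_le₀ (by linarith), η0, le_rfl,
    fun F a m hF hm y x r σ hr hσ hσρ ha hη' hx => ?_⟩
  obtain ⟨ρ, hρ⟩ : ∃ ρ, ρ = u⁻¹ * r := ⟨_, rfl⟩
  rw [← hρ] at hσρ ⊢
  have ρ0 : 0 < ρ := by rw [hρ]; positivity
  have ρ1 : r ^ 2 = u ^ 2 * ρ ^ 2 := by rw [hρ]; field_simp
  have ρ2 : 4 * ρ ^ 2 ≤ r ^ 2 := by
    rw [ρ1]
    refine mul_le_mul_of_nonneg_right ?_ (by positivity)
    have := pow_le_pow_left₀ zero_le_two u2 2
    linarith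
  have ρ3 : ρ ≤ r := by
    rw [hρ]; exact mul_le_of_le_one_left hr.le (inv_le_one_of_one_le₀ (by linarith))
  have q1 : (4 * r) ^ 2 = 16 * r ^ 2 := by ring
  have q2 : (r / 4) ^ 2 = r ^ 2 / 16 := by ring
  have hb : ∀ b, ρ ^ 2 ≤ b → 3 * r ^ 2 ≤ 3 * u ^ 2 * b := fun b k => by
    have := mul_le_mul_of_nonneg_left k (sq_nonneg u)
    linarith
  have rr : 0 < r ^ 2 := by positivity
  have ρρ : 0 < ρ ^ 2 := by positivity
  have R0 : 0 < R := by
    have := dist_nonneg.trans_lt hx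
    exact (mul_pos_iff_of_pos_right hr).1 this
  obtain ⟨t, ht⟩ : ∃ t, t = -r ^ 2 - ρ ^ 2 := ⟨_, rfl⟩
  rw [← ht]
  have a1 : a < -(16 * r ^ 2) := by linarith
  have hR := hF.fl.mcf.1
  have := sfin_m hF.fl.ar hm
  have rt : ∀ s, Rt (F.mu s) L0 := fun s y r hr => (hF.fl.ar s y r hr).trans
    (ENNReal.ofReal_le_ofReal (mul_le_mul_of_nonneg_right (hL0 ▸ le_max_left _ _) (by positivity)))
  have pb := pb_of hR hm (a := a) fun y r t₁ t₂ k1 k2 k3 =>
    hA F _ y r t₁ t₂ isOpen_Ioo hF.fl hF.lgb k1 k2 k3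
  have near : ∀ w : E, dist w x ≤ L * ρ → ‖w - y‖ ^ 2 ≤ (L + R) ^ 2 * r ^ 2 := fun w hw => by
    rw [← mul_pow, ← dist_eq_norm]
    refine pow_le_pow_left₀ dist_nonneg ?_ 2
    have := dist_triangle w x y
    have := mul_le_mul_of_nonneg_left ρ3 (show 0 ≤ L by linarith)
    linarith
  have win : F.Fs (-(4 * r) ^ 2) y (-(-(4 * r) ^ 2)) - F.Fs (-(r / 4) ^ 2) y (-(-(r / 4) ^ 2)) ≤ η := by
    simpa only [Mv.Fg, zero_sub, neg_neg] using hη'.le
  have cmp : ∀ (w : E) (q : ST) (b c : ℝ), dist w x ≤ L * ρ → 0 < b → b + r ^ 2 / 2 ≤ -q.2 → -q.2 ≤ c * b →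
      gau w b q.1 ≤ c * Ee * gau y (-q.2) q.1 := fun w q b c hw b0 b1 b2 => by
    refine (gau_cmp y w q.1 (D := 2 * (L + R) ^ 2) b0 (by positivity) b1 (by linarith [near w hw])).trans ?_
    rw [← hE]
    refine mul_le_mul_of_nonneg_right (mul_le_mul_of_nonneg_right ((div_le_iff₀ b0).2 b2) E0.le)
      (gau_pos (by linarith) _ _).le
  have bm : Measurable fun q : ST => t - q.2 + σ := by fun_prop
  have ms : MeasurableSet (Prod.snd ⁻¹' Ioc (t - ρ ^ 2) t : Set ST) := measurable_snd measurableSet_Ioc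
  have bp : ∀ ν : Measure ST, ∀ᵐ q ∂ν.restrict (Prod.snd ⁻¹' Ioc (t - ρ ^ 2) t), 0 < t - q.2 + σ :=
    fun ν => (ae_restrict_mem ms).mono fun q hq => by linarith [hq.2]
  have cA := h3 (F.mu t) L0 _ _ x ρ L K (3 * (C2 * CA)) L00 (rt t) bm (bp _) ρ0 K0 (by positivity)
    (h2 _ a CA CA0.le pb x (3 * ρ ^ 2) (t - ρ ^ 2) t _ 3 (by positivity) (by linarith) (by linarith)
      (by linarith) (by norm_num) fun q hq => by
        refine (gau_scale x q.1 (a := 3 * ρ ^ 2) (by linarith [hq.2]) (by linarith [hq.1])).trans ?_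
        refine mul_le_mul_of_nonneg_right ?_ (gau_pos (by positivity) _ _).le
        rw [div_le_iff₀ (by linarith [hq.2])]; linarith [hq.2])
  have cD := h3 (F.mu t) L0 _ _ x ρ L 1 (3 * u ^ 2 * Ee * η) L00 (rt t) bm (bp _) ρ0 one_pos (by positivity)
    (devI hH hF.fl hm y (t₁ := -(4 * r) ^ 2) (t₂ := -(r / 4) ^ 2) (J := Ioc (t - ρ ^ 2) t)
      (by linarith) ha (by linarith) measurableSet_Ioc
      (Ioc_subset_Ioc (by linarith) (by linarith)) (by positivity) (fun q hq =>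
        cmp x q _ (3 * u ^ 2) (by rw [dist_self]; positivity) (by linarith [hq.2]) (by linarith)
          (le_trans (by linarith [hq.1]) (hb _ (by linarith [hq.2])))) win)
  rw [← hcL] at cA cD
  refine le_trans (measure_mono fun z hz => ?_) ((measure_union_le _ _).trans ((add_le_add cA cD).trans ?_))
  swap
  · rw [← ENNReal.ofReal_add (by positivity) (by positivity)]
    refine ENNReal.ofReal_le_ofReal ?_
    rw [← add_mul]
    exact mul_le_mul_of_nonneg_right (by linarith) ρρ.le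
  by_contra hc
  simp only [mem_union, mem_inter_iff, mem_setOf_eq, hz.2, and_true, not_or, not_le] at hc
  have zx : dist z x ≤ L * ρ := (mem_ball.1 hz.2).le
  have fA := h1 _ a CA CA0.le pb z (3 * a / 4) t ρ σ (2 * n + 2) (by linarith) (by linarith) ρ0 hσ hσρ
    (by rw [pow_add, pow_mul', ← hu]; linarith)
  have nA : ∫⁻ q in Prod.snd ⁻¹' Ioc (t - ρ ^ 2) t, ENNReal.ofReal (gau q.1 (t - q.2 + σ) z *
      (1 - ((t - q.2) / q.2) ^ 2)) ∂m.withDensity (dn F F.A2) ≤ ENNReal.ofReal K :=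
    le_trans (setLIntegral_mono' ms fun q hq => ENNReal.ofReal_le_ofReal (mul_le_of_le_one_right
      (gau_pos (by linarith [hq.2]) _ _).le (by linarith [sq_nonneg ((t - q.2) / q.2)]))) hc.1.le
  have fD := devI hH hF.fl hm y (t₁ := 3 * a / 4) (t₂ := t - r ^ 2) (J := Ioc (3 * a / 4) (t - r ^ 2))
    (k := fun q => gau q.1 (t - q.2 + σ) z) (c := 3 * Ee) (T := C4 * L0)
    (by linarith) (by linarith) (by linarith) measurableSet_Ioc subset_rfl (by positivity)
    (fun q hq => (gau_symm _ _ _).trans_le (cmp z q _ 3 zx (by linarith [hq.2]) (by linarith)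
      (by linarith [hq.2]))) (by
      have k1 := fs_le (by linarith) (by positivity)
        (h4 (F.mu (3 * a / 4)) L0 y (-(3 * a / 4)) (by linarith) L00 (rt _ y))
      have k2 : 0 ≤ F.Fs (t - r ^ 2) y (-(t - r ^ 2)) :=
        integral_nonneg fun w => (gau_pos (by linarith) _ _).le
      unfold Mv.Fs at k2 ⊢
      linarith)
  have mD := devI hH hF.fl hm y (t₁ := -(4 * r) ^ 2) (t₂ := -(r / 4) ^ 2) (J := Ioc (t - r ^ 2) (t - ρ ^ 2))
    (k := fun q => gau q.1 (t - q.2 + σ) z) (c := 3 * u ^ 2 * Ee) (by linarith) ha (by linarith)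
    measurableSet_Ioc (Ioc_subset_Ioc (by linarith) (by linarith)) (by positivity)
    (fun q hq => (gau_symm _ _ _).trans_le (cmp z q _ (3 * u ^ 2) zx (by linarith [hq.2]) (by linarith)
      (le_trans (by linarith [hq.1]) (hb _ (by linarith [hq.2]))))) win
  have hU : UU F m y ε B σ (3 * a / 4) (z, t) ≤ n / 4 + K' := by
    refine UU_le hR (fun p hp => (hF.fl.time p hp).2) hm y z hε.le hB.le hσ (by linarith)
      (by positivity) ?_
    refine (add_le_add (mul_le_mul_right ((split _ _ _ (t - ρ ^ 2) _).trans (add_le_add fA nA)) _)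
      (mul_le_mul_right ((split _ _ _ (t - r ^ 2) _).trans (add_le_add fD
        ((split _ _ _ (t - ρ ^ 2) _).trans (add_le_add (mD.trans (ENNReal.ofReal_le_ofReal η1))
          hc.2.le)))) _)).trans ?_
    rw [← ENNReal.ofReal_add (by positivity) (by positivity),
      ← ENNReal.ofReal_add (by positivity) (by positivity),
      ← ENNReal.ofReal_add (by positivity) (by positivity), ← ENNReal.ofReal_mul hε.le,
      ← ENNReal.ofReal_mul (by positivity), ← ENNReal.ofReal_add (by positivity) (by positivity)]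
    refine ENNReal.ofReal_le_ofReal ?_
    have k : ε * (24 * (C1 * CA)) ≤ 1 := (le_div_iff₀ (by positivity)).1 hε0
    have k' := mul_le_mul_of_nonneg_left k (show (0 : ℝ) ≤ n / 4 by positivity)
    rw [hK']
    push_cast
    linarith
  have e1 : t = -(r ^ 2 + ρ ^ 2) := by rw [ht]; ring
  have ps := psi_ge y z hB hr (θ := r ^ 2 + ρ ^ 2) (by linarith) (near z zx) (e1 ▸ hU)
  rw [← e1] at ps
  refine absurd (ps.trans_lt hz.1) (not_lt.2 ?_)
  have k1 : Real.exp (n / 2) ≤ u := by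
    rw [hu, show (n : ℝ) / 2 = n * (1 / 2) by ring, Real.exp_nat_mul]
    refine pow_le_pow_left₀ (by positivity) ?_ n
    have := Real.log_two_gt_d9
    exact (Real.le_log_iff_exp_le two_pos).1 (by linarith)
  have k2 : B * Λ' * Real.exp ((L + R) ^ 2 / 32 + K') ≤ Real.exp (n / 4) := by
    linarith [Real.add_one_le_exp ((n : ℝ) / 4)]
  have k3 : Real.exp (n / 2) = Real.exp (n / 4) * Real.exp (n / 4) := by rw [← Real.exp_add]; congr 1; ring
  have k4 : Real.exp (-((L + R) ^ 2 / 32 + (n / 4 + K'))) =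
      (Real.exp ((L + R) ^ 2 / 32 + K') * Real.exp (n / 4))⁻¹ := by
    rw [← Real.exp_add, ← Real.exp_neg]; congr 1; ring
  have k5 : B * (Real.exp ((L + R) ^ 2 / 32 + K') * Real.exp (n / 4)) * Λ' ≤ u := by
    have := mul_le_mul_of_nonneg_right k2 (Real.exp_pos (n / 4)).le
    linarith
  rw [k4, hρ, mul_right_comm, ← mul_inv, ← mul_assoc]
  refine mul_le_mul_of_nonneg_right ?_ hr.le
  rw [← div_eq_mul_inv, div_le_iff₀ u0, ← div_eq_inv_mul, le_div_iff₀ (by positivity)]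
  linarith

end Crest.Agent.N250.A

end
end

-- ▼ part N250/A/KSph
section

/-!
# Row 250, block A (helper69): persistent mass makes the barrier grow on whole spheres
-/

set_option autoImplicit false
set_option linter.unusedSectionVars false
open MeasureTheory Set Filter Topology
open scoped ContDiff InnerProductSpace
open Crest.GeometryTopology.MCF

noncomputable section

namespace Crest.Agent.N250.A

namespace KSph

open Real

theorem ratio {a b S ρ u : ℝ} (hb : 0 < b) (hS : 0 ≤ S) (hab : a = b + S) :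
    b⁻¹ * exp (-(ρ - u) ^ 2 / (4 * b)) ≤
      a⁻¹ * exp (-u ^ 2 / (4 * a)) * exp ((4 * S * a - u ^ 2 * S + 2 * ρ * u * a) / (4 * a * b)) := by
  have ha : 0 < a := by linarith
  have h1 : b⁻¹ ≤ a⁻¹ * exp (S / b) := by
    rw [← div_eq_inv_mul, le_div_iff₀ ha]
    refine le_trans (le_of_eq ?_) (add_one_le_exp _)
    rw [hab]; field_simp; ring
  have h2 : -u ^ 2 / (4 * a) + (4 * S * a - u ^ 2 * S + 2 * ρ * u * a) / (4 * a * b) =
      S / b + (-(ρ - u) ^ 2 + ρ ^ 2) / (4 * b) := by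
    have : S = a - b := by linarith
    rw [this]; field_simp; ring
  rw [mul_assoc, ← exp_add, h2, exp_add, ← mul_assoc]
  gcongr
  linarith [sq_nonneg ρ]

theorem hh_nonneg {r i : ℝ} (h : 0 ≤ r * i) : 0 ≤ min 1 (r * i) - min 1 (r / 2 * i) :=
  sub_nonneg.2 (min_le_min le_rfl (by linarith))

theorem hh_eq {r i : ℝ} (h : r * i ≤ 1) :
    min 1 (r * i) - min 1 (r / 2 * i) = r * i / 2 := by
  rw [min_eq_right h, min_eq_right (by linarith)]; ring

theorem far_real {a b S ρ u r : ℝ} (hr : 0 < r) (hb : 0 < b) (hab : a = b + S)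
    (h1 : (32 * r) ^ 2 ≤ S) (h2 : S ≤ 2 * (32 * r) ^ 2) (h4 : ρ ≤ 2 * (32 * r))
    (hu : 0 ≤ u) (h : 4 * (32 * r) ^ 2 ≤ a ∨ 20 * (32 * r) ≤ u) :
    exp ((4 * S * a - u ^ 2 * S + 2 * ρ * u * a) / (4 * a * b)) ≤
      1 + 128 * exp 64 * (min 1 (r * ((√a + u) / a)) - min 1 (r / 2 * ((√a + u) / a))) := by
  set R := 32 * r with hR
  have hR0 : 0 < R := by positivity
  have hS : 0 < S := lt_of_lt_of_le (by positivity) h1
  have ha : 0 < a := by linarith
  have hi : 0 ≤ r * ((√a + u) / a) := by positivity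
  have key : 4 * S * a + 2 * ρ * u * a ≤ u ^ 2 * S →
      exp ((4 * S * a - u ^ 2 * S + 2 * ρ * u * a) / (4 * a * b)) ≤
      1 + 128 * exp 64 * (min 1 (r * ((√a + u) / a)) - min 1 (r / 2 * ((√a + u) / a))) := fun h => by
    have := mul_nonneg (by positivity : 0 ≤ 128 * exp 64) (hh_nonneg hi)
    have := exp_le_one_iff.2 (div_nonpos_of_nonpos_of_nonneg
      (by linarith : 4 * S * a - u ^ 2 * S + 2 * ρ * u * a ≤ 0) (by positivity : 0 ≤ 4 * a * b))
    linarith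
  have e0 : u ^ 2 * R ^ 2 ≤ u ^ 2 * S := by gcongr
  have e1 : 2 * ρ * u * a ≤ 4 * R * u * a := by
    have : 0 ≤ u * a := by positivity
    nlinarith
  by_cases hA : a < 4 * R ^ 2
  · have hu' := h.resolve_left (not_le.2 hA)
    refine key ?_
    have e2 : 4 * R * u * a ≤ 4 * R * u * (4 * R ^ 2) := by gcongr
    have e3 : 20 * R * (u * R ^ 2) ≤ u * (u * R ^ 2) := by gcongr
    have e4 : (20 * R) ^ 2 * S ≤ u ^ 2 * S := by gcongr
    have e5 : 4 * S * a ≤ 4 * S * (4 * R ^ 2) := by gcongr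
    nlinarith
  push Not at hA
  have hw : 2 * R ≤ √a := le_sqrt_of_sq_le (by linarith)
  have hw2 : √a ^ 2 = a := sq_sqrt ha.le
  by_cases hx : r * ((√a + u) / a) ≤ 1
  · rw [hh_eq hx]
    set x := r * ((√a + u) / a) with hxd
    have e2 : (4 * S * a - u ^ 2 * S + 2 * ρ * u * a) / (4 * a * b) ≤ 64 * x := by
      rw [div_le_iff₀ (by positivity), hxd]
      have e3 : 64 * (r * ((√a + u) / a)) * (4 * a * b) = 8 * R * (√a + u) * b := by
        rw [hR]; field_simp; ring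
      have e4 : 8 * R * (√a + u) * (a / 2) ≤ 8 * R * (√a + u) * b := by gcongr; linarith
      have e5 : 4 * S * a ≤ 4 * (2 * R ^ 2) * a := by gcongr
      have e6 : 4 * R * a * (2 * R) ≤ 4 * R * a * √a := by gcongr
      have e7 : 0 ≤ u ^ 2 * S := by positivity
      rw [e3]
      nlinarith
    have e8 : exp (64 * x) ≤ exp 64 := exp_le_exp.2 (by linarith)
    have e9 : exp (64 * x) * (1 - 64 * x) ≤ 1 := by
      have := mul_le_mul_of_nonneg_left (add_one_le_exp (-(64 * x))) (exp_pos (64 * x)).le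
      rw [← exp_add, add_neg_cancel, exp_zero] at this
      linarith
    have e10 : exp (64 * x) * x ≤ exp 64 * x := by gcongr
    linarith [exp_le_exp.2 e2]
  · refine key ?_
    push Not at hx
    rw [← mul_div_assoc, lt_div_iff₀ ha] at hx
    have e2 : 2 * R * √a ≤ √a * √a := by gcongr
    have e3 : 31 * a ≤ R * u := by nlinarith
    have e4 : 31 * a * (R * u) ≤ R * u * (R * u) := by gcongr
    have e5 : 31 * a * (31 * (4 * R ^ 2)) ≤ R * u * (R * u) := by
      refine le_trans ?_ e4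
      exact mul_le_mul_of_nonneg_left (by linarith) (by positivity)
    have e6 : 8 * a ≤ u ^ 2 := by
      refine le_of_mul_le_mul_right ?_ (by positivity : 0 < R ^ 2)
      have : 0 ≤ a * R ^ 2 := by positivity
      nlinarith
    have e7 : 8 * a * S ≤ u ^ 2 * S := by gcongr
    have e8 : 0 ≤ a * (R * u) := by positivity
    nlinarith

/-- the kernel seen from the origin -/
def g0 (σ : ℝ) (q : ST) : ℝ := gau q.1 (σ - q.2) 0

/-- the weight of one dyadic scale -/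
def hh (σ r : ℝ) (q : ST) : ℝ := min 1 (r * isc σ q) - min 1 (r / 2 * isc σ q)

/-- the maximum of the kernel on a sphere -/
def Ps (σ ρ s : ℝ) (q : ST) : ℝ :=
  (4 * π * (s - q.2 + σ))⁻¹ * exp (-(ρ - ‖q.1‖) ^ 2 / (4 * (s - q.2 + σ)))

/-- the mass at the scale `R` -/
def Near (σ R : ℝ) : Set ST := {q | q.2 < -R ^ 2 ∧ σ - q.2 < 4 * R ^ 2 ∧ ‖q.1‖ < 20 * R}

variable {σ ρ s r R t : ℝ} {q : ST} {ν : Measure ST}

theorem meas_lt (t : ℝ) : MeasurableSet {q : ST | q.2 < t} :=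
  measurableSet_lt measurable_snd measurable_const

theorem meas_Near : MeasurableSet (Near σ R) :=
  (meas_lt _).inter ((measurableSet_lt (measurable_const.sub measurable_snd) measurable_const).inter
    (measurableSet_lt measurable_fst.norm measurable_const))

theorem g0_eq : g0 σ q = (4 * π)⁻¹ * ((σ - q.2)⁻¹ * exp (-‖q.1‖ ^ 2 / (4 * (σ - q.2)))) := by
  rw [g0, gau, zero_sub, norm_neg, mul_inv, mul_assoc]

theorem g0_nonneg (hσ : 0 < σ) (hq : q.2 < 0) : 0 ≤ g0 σ q := by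
  have : 0 < σ - q.2 := by linarith
  rw [g0_eq]; positivity

theorem isc_nonneg (hσ : 0 < σ) (hq : q.2 < 0) : 0 ≤ isc σ q := by
  have : 0 < σ - q.2 := by linarith
  unfold isc; positivity

theorem hh0 (hσ : 0 < σ) (hr : 0 < r) (hq : q.2 < 0) : 0 ≤ hh σ r q :=
  hh_nonneg (mul_nonneg hr.le (isc_nonneg hσ hq))

theorem ker_le {b x : ℝ} (hσ : 0 < σ) (hb : σ ≤ b) (hx : 0 ≤ x) :
    (4 * π * b)⁻¹ * exp (-x / (4 * b)) ≤ (4 * π * σ)⁻¹ := by
  have hb0 : 0 < b := by linarith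
  have : exp (-x / (4 * b)) ≤ 1 :=
    exp_le_one_iff.2 (div_nonpos_of_nonpos_of_nonneg (by linarith) (by positivity))
  calc _ ≤ (4 * π * σ)⁻¹ * 1 := by gcongr
    _ = _ := mul_one _

theorem Ps_nonneg (hσ : 0 < σ) (hq : q.2 < s) : 0 ≤ Ps σ ρ s q := by
  have : 0 < s - q.2 + σ := by linarith
  unfold Ps; positivity

theorem gau_le {y : E} (hσ : 0 < σ) (hq : q.2 < s) (hy : ‖y‖ = ρ) :
    gau q.1 (s - q.2 + σ) y ≤ Ps σ ρ s q := by
  have : 0 < s - q.2 + σ := by linarith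
  have h : (ρ - ‖q.1‖) ^ 2 ≤ ‖y - q.1‖ ^ 2 := by
    rw [← hy]
    exact sq_le_sq.2 ((abs_norm_sub_norm_le y q.1).trans (le_abs_self _))
  unfold gau Ps
  refine mul_le_mul_of_nonneg_left (exp_le_exp.2 ?_) (by positivity)
  exact div_le_div_of_nonneg_right (by linarith) (by positivity)

theorem far (hσ : 0 < σ) (hr : 0 < r) (hs : s ∈ Icc (-(2 * (32 * r) ^ 2)) (-(32 * r) ^ 2))
    (hρ : ρ ∈ Icc (32 * r) (2 * (32 * r))) (hq : q.2 < s) (hN : q ∉ Near σ (32 * r)) :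
    Ps σ ρ s q ≤ g0 σ q * (1 + 128 * exp 64 * hh σ r q) := by
  have hb : 0 < s - q.2 + σ := by linarith
  have hS : 0 ≤ -s := le_trans (by positivity) (le_neg.1 hs.2)
  have ha : 0 < σ - q.2 := by linarith
  have h1 := ratio (ρ := ρ) (u := ‖q.1‖) (a := σ - q.2) hb hS (by ring)
  have h2 := far_real (ρ := ρ) (u := ‖q.1‖) (a := σ - q.2) (S := -s) hr hb (by ring)
    (le_neg.1 hs.2) (neg_le.1 hs.1) hρ.2 (norm_nonneg _)
    (by
      by_contra h
      push Not at h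
      exact hN ⟨hq.trans_le hs.2, h.1, h.2⟩)
  rw [g0_eq, Ps, mul_inv, mul_assoc, mul_assoc (4 * π)⁻¹]
  exact mul_le_mul_of_nonneg_left (h1.trans (mul_le_mul_of_nonneg_left h2 (by positivity)))
    (by positivity)

theorem near (hσ : 0 < σ) (hr : 0 < r) (hq : q ∈ Near σ (32 * r)) :
    1 ≤ 2048 * π * exp 100 * (32 * r) ^ 2 * (g0 σ q * hh σ r q) := by
  obtain ⟨h1, h2, h3⟩ := hq
  set R := 32 * r with hR
  have hR0 : 0 < R := by positivity
  set a := σ - q.2 with had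
  have h4 : R ^ 2 ≤ a := by linarith
  have ha : 0 < a := lt_of_lt_of_le (by positivity) h4
  have hw : R ≤ √a := le_sqrt_of_sq_le h4
  have hw' : √a ≤ 2 * R := sqrt_le_iff.2 ⟨by positivity, by linarith⟩
  have hu := norm_nonneg q.1
  have h5 : r * isc σ q ≤ 1 := by
    rw [isc, ← had, ← mul_div_assoc, div_le_one ha]
    nlinarith
  have h6 : 1 / 64 ≤ r * isc σ q := by
    rw [isc, ← had, ← mul_div_assoc, le_div_iff₀ ha]
    nlinarith [mul_le_mul_of_nonneg_right hw' (sqrt_nonneg a), mul_self_sqrt ha.le,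
      mul_nonneg hr.le hu]
  have h7 : (4 * π)⁻¹ * ((4 * R ^ 2)⁻¹ * exp (-100)) ≤ g0 σ q := by
    rw [g0_eq, ← had]
    gcongr
    rw [le_div_iff₀ (by positivity)]
    nlinarith
  rw [hh, hh_eq h5]
  calc (1 : ℝ) = 2048 * π * exp 100 * R ^ 2 *
        ((4 * π)⁻¹ * ((4 * R ^ 2)⁻¹ * exp (-100)) * (1 / 64 / 2)) := by
        rw [exp_neg]; field_simp; norm_num
    _ ≤ _ := by
      gcongr
      exact le_trans (by positivity) h7

theorem meas_g0 : Measurable (g0 σ) := by unfold g0 gau; fun_prop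

theorem meas_isc : Measurable (isc σ) := by unfold isc; fun_prop

theorem g0_le (hσ : 0 < σ) (hq : q.2 < 0) : g0 σ q ≤ (4 * π * σ)⁻¹ :=
  ker_le hσ (by linarith) (by positivity)

variable [IsFiniteMeasure ν]

theorem int_of {f : ST → ℝ} {A : Set ST} {C : ℝ} (hA : MeasurableSet A) (hf : Measurable f)
    (h : ∀ q ∈ A, 0 ≤ f q ∧ f q ≤ C) : IntegrableOn f A ν :=
  Measure.integrableOn_of_bounded (measure_ne_top _ _) hf.aestronglyMeasurable
    ((ae_restrict_mem hA).mono fun q hq => by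
      rw [Real.norm_of_nonneg (h q hq).1]; exact (h q hq).2)

theorem int_g0 (hσ : 0 < σ) : IntegrableOn (g0 σ) {q | q.2 < 0} ν :=
  int_of (meas_lt 0) meas_g0 fun _ hq => ⟨g0_nonneg hσ hq, g0_le hσ hq⟩

theorem int_min (hσ : 0 < σ) (hr : 0 ≤ r) :
    IntegrableOn (fun q => g0 σ q * min 1 (r * isc σ q)) {q | q.2 < 0} ν :=
  int_of (meas_lt 0) (meas_g0.mul (measurable_const.min (meas_isc.const_mul r))) fun _ hq =>
    ⟨mul_nonneg (g0_nonneg hσ hq) (le_min zero_le_one (mul_nonneg hr (isc_nonneg hσ hq))),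
      (mul_le_of_le_one_right (g0_nonneg hσ hq) (min_le_left _ _)).trans (g0_le hσ hq)⟩

theorem int_hh (hσ : 0 < σ) (hr : 0 < r) :
    IntegrableOn (fun q => g0 σ q * hh σ r q) {q | q.2 < 0} ν := by
  simp only [hh, mul_sub]
  exact (int_min hσ hr.le).sub (int_min hσ (half_pos hr).le)

theorem TT_sub (hσ : 0 < σ) (hr : 0 < r) :
    TT ν σ r - TT ν σ (r / 2) = ∫ q in {q | q.2 < 0}, g0 σ q * hh σ r q ∂ν := by
  simp only [hh, mul_sub]
  exact (integral_sub (int_min hσ hr.le) (int_min hσ (half_pos hr).le)).symm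

theorem TT_nonneg (hσ : 0 < σ) (hr : 0 ≤ r) : 0 ≤ TT ν σ r :=
  setIntegral_nonneg (meas_lt 0) fun _ hq =>
    mul_nonneg (g0_nonneg hσ hq) (le_min zero_le_one (mul_nonneg hr (isc_nonneg hσ hq)))

theorem near_mass (hσ : 0 < σ) (hr : 0 < r) : ν.real (Near σ (32 * r)) ≤
    2048 * π * exp 100 * (32 * r) ^ 2 * (TT ν σ r - TT ν σ (r / 2)) := by
  have hs : Near σ (32 * r) ⊆ {q | q.2 < 0} := fun q hq =>
    lt_of_lt_of_le hq.1 (neg_nonpos.2 (by positivity))
  rw [TT_sub hσ hr, ← integral_const_mul, ← mul_one (ν.real _), ← smul_eq_mul, ← setIntegral_const]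
  refine (setIntegral_mono_on (integrableOn_const (measure_ne_top _ _))
    (((int_hh hσ hr).mono_set hs).const_mul _) meas_Near fun q hq => near hσ hr hq).trans
    (setIntegral_mono_set ((int_hh hσ hr).const_mul _) ((ae_restrict_mem (meas_lt 0)).mono
      fun q hq => ?_) hs.eventuallyLE)
  have := g0_nonneg hσ hq
  have := hh0 hσ hr hq
  positivity

/-- averaging -/
theorem avg {G : ℝ → ST → ℝ} {a b C : ℝ} (hab : a < b) (hG : Measurable (Function.uncurry G))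
    (h0 : ∀ t q, 0 ≤ G t q ∧ G t q ≤ C) {H : ST → ℝ} (hH : Integrable H ν)
    (h : ∀ q, ∫ t in Icc a b, G t q ≤ H q) :
    ∃ t ∈ Icc a b, (b - a) * ∫ q, G t q ∂ν ≤ ∫ q, H q ∂ν := by
  have hi : Integrable (Function.uncurry G) ((volume.restrict (Icc a b)).prod ν) :=
    Integrable.of_bound hG.aestronglyMeasurable C (ae_of_all _ fun z =>
      (Real.norm_of_nonneg (h0 z.1 z.2).1).trans_le (h0 z.1 z.2).2)
  obtain ⟨t, ht, h1⟩ := exists_le_setAverage (μ := volume) (s := Icc a b)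
    (by simpa using hab) (by simp) hi.integral_prod_left
  refine ⟨t, ht, ?_⟩
  rw [setAverage_eq, Real.volume_real_Icc_of_le hab.le, smul_eq_mul,
    le_inv_mul_iff₀ (by linarith)] at h1
  exact h1.trans ((integral_integral_swap hi).trans_le (integral_mono hi.integral_prod_right hH h))

theorem avg_s {c : ℝ} (hσ : 0 < σ) (hσ1 : σ ≤ 1) (hR : 1 ≤ R) (hc : -(4 * R ^ 2) < c) :
    ∫ s in Icc (-(2 * R ^ 2)) (-R ^ 2), (Ioi c).indicator (fun s => (√(s - c + σ))⁻¹) s ≤ 6 * R := by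
  have hc' : ∀ s ∈ uIcc c (c + 4 * R ^ 2), 0 < s - c + σ := fun s hs => by
    rw [uIcc_of_le (by linarith [sq_nonneg R])] at hs
    linarith [hs.1]
  have hk : ContinuousOn (fun s => (√(s - c + σ))⁻¹) (uIcc c (c + 4 * R ^ 2)) :=
    ContinuousOn.inv₀ (by fun_prop) fun s hs => (sqrt_pos.2 (hc' s hs)).ne'
  have h1 : ∫ s in c..c + 4 * R ^ 2, (√(s - c + σ))⁻¹ =
      2 * √(c + 4 * R ^ 2 - c + σ) - 2 * √(c - c + σ) := by
    refine intervalIntegral.integral_eq_sub_of_hasDerivAt (f := fun s => 2 * √(s - c + σ))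
      (fun s hs => ?_) hk.intervalIntegrable
    have := ((((hasDerivAt_id s).sub_const c).add_const σ).sqrt (hc' s hs).ne').const_mul 2
    refine this.congr_deriv ?_
    have := sqrt_pos.2 (hc' s hs)
    simp only [id]
    field_simp
  have h2 : √(c + 4 * R ^ 2 - c + σ) ≤ 3 * R := sqrt_le_iff.2 ⟨by positivity, by nlinarith⟩
  rw [setIntegral_indicator measurableSet_Ioi]
  refine le_trans (setIntegral_mono_set (t := Ioc c (c + 4 * R ^ 2))
    ((intervalIntegrable_iff_integrableOn_Ioc_of_le (by linarith [sq_nonneg R])).1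
      hk.intervalIntegrable) (ae_of_all _ fun s => by positivity)
    (LE.le.eventuallyLE fun s hs => ⟨hs.2, by linarith [hs.1.2, sq_nonneg R]⟩)) ?_
  rw [← intervalIntegral.integral_of_le (by linarith [sq_nonneg R]), h1]
  linarith [sqrt_nonneg (c - c + σ)]

theorem avg_ρ {b u c d : ℝ} (hb : 0 < b) :
    ∫ ρ in Icc c d, (4 * π * b)⁻¹ * exp (-(ρ - u) ^ 2 / (4 * b)) ≤ (√b)⁻¹ := by
  have e : ∀ ρ : ℝ, -(ρ - u) ^ 2 / (4 * b) = -(4 * b)⁻¹ * (ρ - u) ^ 2 := fun ρ => by ring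
  have hi := ((integrable_exp_neg_mul_sq (b := (4 * b)⁻¹) (by positivity)).comp_sub_right u).const_mul
    (4 * π * b)⁻¹
  simp only [e]
  refine (setIntegral_le_integral hi (ae_of_all _ fun ρ => by positivity)).trans ?_
  rw [integral_const_mul, integral_sub_right_eq_self (fun x : ℝ => exp (-(4 * b)⁻¹ * x ^ 2)),
    integral_gaussian, div_inv_eq_mul, show π * (4 * b) = 4 * π * b by ring, ← div_eq_inv_mul,
    sqrt_div_self', one_div]
  gcongr
  nlinarith [pi_gt_three]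

/-- a good sphere and a good time -/
theorem good (hσ : 0 < σ) (hσ1 : σ ≤ 1) (hR : 1 ≤ R) :
    ∃ s ∈ Icc (-(2 * R ^ 2)) (-R ^ 2), ∃ ρ ∈ Icc R (2 * R),
      R ^ 2 * ∫ q in Near σ R ∩ {q | q.2 < s}, Ps σ ρ s q ∂ν ≤ 6 * ν.real (Near σ R) := by
  have hR0 : 0 < R := by linarith
  obtain ⟨s, hs, h1⟩ := avg (ν := ν) (a := -(2 * R ^ 2)) (b := -R ^ 2) (C := (√σ)⁻¹)
    (G := fun s q => (Near σ R ∩ {q | q.2 < s}).indicator (fun q => (√(s - q.2 + σ))⁻¹) q)
    (H := (Near σ R).indicator fun _ => 6 * R) (by nlinarith)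
    (Measurable.indicator (f := fun z : ℝ × ST => (√(z.1 - z.2.2 + σ))⁻¹)
      (s := {z | z.2 ∈ Near σ R ∧ z.2.2 < z.1}) (by fun_prop)
      ((measurable_snd meas_Near).inter (measurableSet_lt measurable_snd.snd measurable_fst)))
    (fun s q => ⟨indicator_nonneg (fun _ _ => by positivity) _,
      indicator_apply_le' (fun h => by
        have : q.2 < s := h.2
        gcongr; linarith) fun _ => by positivity⟩)
    ((integrable_const _).indicator meas_Near) fun q => by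
      by_cases hq : q ∈ Near σ R
      · rw [indicator_of_mem hq]
        refine le_trans (le_of_eq ?_) (avg_s (c := q.2) hσ hσ1 hR (by linarith [hq.2.1]))
        congr 1
        funext s
        simp [indicator, hq]
      · simp [indicator, hq]
  have hm : MeasurableSet (Near σ R ∩ {q | q.2 < s}) := meas_Near.inter (meas_lt s)
  obtain ⟨ρ, hρ, h2⟩ := avg (ν := ν) (a := R) (b := 2 * R) (C := (4 * π * σ)⁻¹)
    (G := fun ρ q => (Near σ R ∩ {q | q.2 < s}).indicator (Ps σ ρ s) q)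
    (H := (Near σ R ∩ {q | q.2 < s}).indicator fun q => (√(s - q.2 + σ))⁻¹) (by linarith)
    (Measurable.indicator (f := fun z : ℝ × ST => Ps σ z.1 s z.2)
      (s := Prod.snd ⁻¹' (Near σ R ∩ {q | q.2 < s})) (by unfold Ps; fun_prop) (measurable_snd hm))
    (fun ρ q => ⟨indicator_nonneg (fun _ h => Ps_nonneg hσ h.2) _,
      indicator_apply_le' (fun h => ker_le hσ (by linarith [show q.2 < s from h.2]) (sq_nonneg _))
        fun _ => by positivity⟩)
    ((integrable_indicator_iff hm).2 (int_of (C := (√σ)⁻¹) hm (by fun_prop) fun q h =>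
      ⟨by positivity, by
        have : q.2 < s := h.2
        gcongr; linarith⟩)) fun q => by
      by_cases hq : q ∈ Near σ R ∩ {q | q.2 < s}
      · simp only [indicator_of_mem hq]
        exact avg_ρ (by linarith [show q.2 < s from hq.2])
      · simp only [indicator_of_notMem hq, integral_zero, le_refl]
  refine ⟨s, hs, ρ, hρ, ?_⟩
  rw [integral_indicator hm] at h2
  rw [integral_indicator meas_Near, setIntegral_const, smul_eq_mul] at h1
  have h3 := mul_le_mul_of_nonneg_left h2 (sq_nonneg R)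
  refine le_of_mul_le_mul_left ?_ hR0
  nlinarith

/-- the loss -/
theorem loss (hσ : 0 < σ) (hσ1 : σ ≤ 1) (hr : 1 ≤ r) :
    ∃ s ∈ Icc (-(2 * (32 * r) ^ 2)) (-(32 * r) ^ 2), ∃ ρ ∈ Icc (32 * r) (2 * (32 * r)),
      ∀ y : E, ‖y‖ = ρ → pot ν σ (y, s) ≤ (∫ q in {q | q.2 < -(32 * r) ^ 2}, g0 σ q ∂ν) +
        (128 * exp 64 + 6 * (2048 * π * exp 100)) * (TT ν σ r - TT ν σ (r / 2)) := by
  have hr0 : 0 < r := by linarith
  obtain ⟨s, hs, ρ, hρ, h⟩ := good (ν := ν) (R := 32 * r) hσ hσ1 (by linarith)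
  refine ⟨s, hs, ρ, hρ, fun y hy => ?_⟩
  have hs0 : {q : ST | q.2 < s} ⊆ {q | q.2 < -(32 * r) ^ 2} := fun q hq => lt_of_lt_of_le hq hs.2
  have hs1 : {q : ST | q.2 < -(32 * r) ^ 2} ⊆ {q | q.2 < 0} := fun q hq =>
    lt_of_lt_of_le hq (neg_nonpos.2 (sq_nonneg (32 * r)))
  have iP : IntegrableOn (Ps σ ρ s) {q | q.2 < s} ν :=
    int_of (meas_lt s) (by unfold Ps; fun_prop) fun q hq =>
      ⟨Ps_nonneg hσ hq, ker_le hσ (by linarith [show q.2 < s from hq]) (sq_nonneg _)⟩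
  have i1 := (int_g0 (ν := ν) hσ).mono_set (hs0.trans hs1)
  have i2 := ((int_hh (ν := ν) hσ hr0).mono_set (hs0.trans hs1)).const_mul (128 * exp 64)
  have i3 : Integrable ((Near σ (32 * r)).indicator (Ps σ ρ s)) (ν.restrict {q | q.2 < s}) :=
    Integrable.indicator iP meas_Near
  have h1 : pot ν σ (y, s) ≤ ∫ q in {q | q.2 < s}, (g0 σ q + 128 * exp 64 * (g0 σ q * hh σ r q) +
      (Near σ (32 * r)).indicator (Ps σ ρ s) q) ∂ν := by
    change ∫ q in {q : ST | q.2 < s}, gau q.1 (s - q.2 + σ) y ∂ν ≤ _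
    refine integral_mono_of_nonneg ?_ ((i1.add i2).add i3) ?_
    · filter_upwards [ae_restrict_mem (meas_lt s)] with q hq
      have : 0 < s - q.2 + σ := by linarith [show q.2 < s from hq]
      change 0 ≤ gau _ _ _
      unfold gau
      positivity
    · filter_upwards [ae_restrict_mem (meas_lt s)] with q hq
      refine (gau_le hσ hq hy).trans ?_
      have a1 := g0_nonneg hσ (hs1 (hs0 hq))
      have a2 := hh0 hσ hr0 (hs1 (hs0 hq))
      by_cases hN : q ∈ Near σ (32 * r)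
      · simp only [indicator_of_mem hN]
        have : 0 ≤ 128 * exp 64 * (g0 σ q * hh σ r q) := by positivity
        linarith
      · simp only [indicator_of_notMem hN]
        linarith [far hσ hr0 hs hρ hq hN]
  rw [integral_add (f := fun q => g0 σ q + 128 * exp 64 * (g0 σ q * hh σ r q)) (i1.add i2) i3,
    integral_add i1 i2, integral_const_mul,
    setIntegral_indicator meas_Near, inter_comm] at h1
  have h2 := setIntegral_mono_set ((int_g0 (ν := ν) hσ).mono_set hs1)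
    ((ae_restrict_mem (meas_lt _)).mono fun q hq => g0_nonneg hσ (hs1 hq)) hs0.eventuallyLE
  have h3 := setIntegral_mono_set (int_hh (ν := ν) hσ hr0)
    ((ae_restrict_mem (meas_lt _)).mono fun q hq => mul_nonneg (g0_nonneg hσ hq) (hh0 hσ hr0 hq))
    (hs0.trans hs1).eventuallyLE
  rw [← TT_sub hσ hr0] at h3
  have h4 := near_mass (ν := ν) hσ hr0
  have h5 : ∫ q in Near σ (32 * r) ∩ {q | q.2 < s}, Ps σ ρ s q ∂ν ≤
      6 * (2048 * π * exp 100) * (TT ν σ r - TT ν σ (r / 2)) := by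
    refine le_of_mul_le_mul_left ?_ (by positivity : 0 < (32 * r) ^ 2)
    linarith
  have h6 := mul_le_mul_of_nonneg_left h3 (by positivity : 0 ≤ 128 * exp 64)
  linarith

/-- the gain -/
theorem gain {γ D : ℝ} (hσ : 0 < σ) (hσ1 : σ ≤ 1) (m : ℕ)
    (h : ∀ t₁ t₂, -(4 : ℝ) ^ m ≤ t₁ → t₁ ≤ t₂ → t₂ ≤ -1 →
      ENNReal.ofReal (γ * (t₂ - t₁)) ≤ ν (Metric.ball 0 D ×ˢ Ioo t₁ t₂)) :
    (∫ q in {q | q.2 < -(4 : ℝ) ^ m}, g0 σ q ∂ν) + m * (3 * γ * exp (-D ^ 2 / 4) / (20 * π)) ≤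
      ∫ q in {q | q.2 < 0}, g0 σ q ∂ν := by
  induction m with
  | zero =>
    rw [Nat.cast_zero, zero_mul, add_zero]
    exact setIntegral_mono_set (int_g0 hσ)
      ((ae_restrict_mem (meas_lt _)).mono fun q hq => g0_nonneg hσ hq)
      (LE.le.eventuallyLE fun q (hq : q.2 < _) => show q.2 < 0 by
        rw [pow_zero] at hq; linarith)
  | succ m ih =>
    have h4 : (1 : ℝ) ≤ 4 ^ m := one_le_pow₀ (by norm_num)
    rw [pow_succ] at h ⊢
    refine le_trans ?_ (ih fun t₁ t₂ h1 => h t₁ t₂ (by linarith))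
    set T : ℝ := 4 ^ m
    set A : Set ST := Metric.ball 0 D ×ˢ Ioo (-(T * 4)) (-T) with hA
    have hAm : MeasurableSet A := measurableSet_ball.prod measurableSet_Ioo
    have hs : {q : ST | q.2 < -T} ⊆ {q | q.2 < 0} := fun q (hq : q.2 < _) =>
      show q.2 < 0 by linarith
    have hu : {q : ST | q.2 < -(T * 4)} ∪ A ⊆ {q | q.2 < -T} := by
      rintro q (hq | hq)
      · exact lt_trans (show q.2 < -(T * 4) from hq) (by linarith)
      · exact hq.2.2
    have iT := (int_g0 (ν := ν) hσ).mono_set hs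
    have iA := iT.mono_set (subset_union_right.trans hu)
    have h1 := setIntegral_mono_set iT
      ((ae_restrict_mem (meas_lt _)).mono fun q hq => g0_nonneg hσ (hs hq)) hu.eventuallyLE
    have hd : Disjoint {q : ST | q.2 < -(T * 4)} A :=
      disjoint_left.2 fun q hq hq' => lt_asymm (show q.2 < -(T * 4) from hq) hq'.2.1
    rw [setIntegral_union hd hAm (iT.mono_set (subset_union_left.trans hu)) iA] at h1
    have h2 : γ * (-T - -(T * 4)) ≤ ν.real A :=
      (ENNReal.ofReal_le_iff_le_toReal (measure_ne_top _ _)).1 (h _ _ le_rfl (by linarith)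
        (by linarith))
    have h3 : ∫ q in A, (4 * π)⁻¹ * ((5 * T)⁻¹ * exp (-D ^ 2 / 4)) ∂ν ≤ ∫ q in A, g0 σ q ∂ν := by
      refine setIntegral_mono_on (integrableOn_const (measure_ne_top _ _)) iA hAm fun q hq => ?_
      have a1 : ‖q.1‖ < D := mem_ball_zero_iff.1 hq.1
      have a2 : 1 ≤ σ - q.2 := by linarith [hq.2.2]
      have a3 : σ - q.2 ≤ 5 * T := by linarith [hq.2.1]
      have a4 : ‖q.1‖ ^ 2 ≤ D ^ 2 := by gcongr
      rw [g0_eq]
      gcongr (4 * π)⁻¹ * (?_ * exp ?_)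
      · gcongr
      · rw [le_div_iff₀ (by positivity)]
        nlinarith [sq_nonneg D]
    rw [setIntegral_const, smul_eq_mul] at h3
    have h5 := mul_le_mul_of_nonneg_right h2
      (by positivity : 0 ≤ (4 * π)⁻¹ * ((5 * T)⁻¹ * exp (-D ^ 2 / 4)))
    have h6 : γ * (-T - -(T * 4)) * ((4 * π)⁻¹ * ((5 * T)⁻¹ * exp (-D ^ 2 / 4))) =
        3 * γ * exp (-D ^ 2 / 4) / (20 * π) := by field_simp; ring
    push_cast
    linarith

theorem pigeon {u : ℕ → ℝ} {N : ℕ} {c : ℝ} (hN : 0 < N) (h : u (N + N) - u N ≤ N * c) :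
    ∃ k, N ≤ k ∧ k < N + N ∧ u (k + 1) - u k ≤ c := by
  by_contra h'
  push Not at h'
  have h1 := Finset.sum_lt_sum_of_nonempty (s := Finset.range N) (by simpa using hN.ne')
    (f := fun _ => c) (g := fun i => u (N + (i + 1)) - u (N + i))
    fun i hi => h' (N + i) (by omega) (by have := Finset.mem_range.1 hi; omega)
  rw [Finset.sum_range_sub (fun i => u (N + i))] at h1
  simp only [Finset.sum_const, Finset.card_range, nsmul_eq_mul, add_zero] at h1
  linarith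

end KSph

open KSph Real in
theorem kSphS_holds : KSphS := by
  intro Λ₀ γ D hγ _
  set β := 3 * γ * exp (-D ^ 2 / 4) / (20 * π) with hβ
  set C := 128 * exp 64 + 6 * (2048 * π * exp 100) with hC
  have hβ0 : 0 < β := by positivity
  have hC0 : 0 < C := by positivity
  refine ⟨exp (-β - C * (3 * |Λ₀|) - 2), β, exp_pos _, hβ0, fun ρ₁ => ?_⟩
  obtain ⟨n, hn⟩ := pow_unbounded_of_one_lt ρ₁ (one_lt_two (α := ℝ))
  set N := n + 1 with hN
  refine ⟨2 ^ (N + N + 7), N + N, one_le_pow₀ one_le_two, fun ν _ σ hσ hσ1 h1 h2 => ?_⟩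
  obtain ⟨k, hk1, hk2, hk⟩ := pigeon (u := fun k => TT ν σ (2 ^ k)) (N := N) (c := 3 * |Λ₀|)
    (by omega) (by
      have a1 := h1 (N + N) le_rfl
      have a2 := TT_nonneg (ν := ν) (r := 2 ^ N) hσ (by positivity)
      have a3 : (1 : ℝ) ≤ N := by exact_mod_cast (by omega : 1 ≤ N)
      push_cast at a1
      nlinarith [le_abs_self Λ₀, abs_nonneg Λ₀])
  obtain ⟨s, hs, ρ, hρ, h3⟩ := loss (ν := ν) (r := 2 ^ (k + 1)) hσ hσ1 (one_le_pow₀ one_le_two)
  have e1 : (32 : ℝ) * 2 ^ (k + 1) = 2 ^ (k + 6) := by ring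
  have e2 : ((2 : ℝ) ^ (k + 6)) ^ 2 = 4 ^ (k + 6) := by
    rw [← pow_mul, mul_comm, pow_mul]; norm_num
  have e3 : (2 : ℝ) ^ (k + 1) / 2 = 2 ^ k := by ring
  have e4 : (2 : ℝ) * 2 ^ (k + 6) ≤ 2 ^ (N + N + 7) := by
    rw [← pow_succ']
    exact pow_le_pow_right₀ one_le_two (by omega)
  have e5 : (1 : ℝ) ≤ 2 ^ (k + 6) := one_le_pow₀ one_le_two
  have e6 : ((2 : ℝ) * 2 ^ (k + 6)) ^ 2 ≤ (2 ^ (N + N + 7)) ^ 2 := by gcongr
  have e7 : (2 : ℝ) ^ n ≤ 2 ^ (k + 6) := pow_le_pow_right₀ one_le_two (by omega)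
  rw [e1] at hs hρ h3
  rw [e3, e2] at h3
  have h4 := gain (ν := ν) (γ := γ) (D := D) hσ hσ1 (k + 6) fun t₁ t₂ a => h2 t₁ t₂ (by
    rw [← e2] at a
    nlinarith)
  refine ⟨ρ, ⟨by linarith [hρ.1], hρ.2.trans e4⟩, s, ⟨by nlinarith [hs.1], by nlinarith [hs.2]⟩,
    fun y hy => ?_⟩
  have h5 : pot ν σ 0 = ∫ q in {q | q.2 < 0}, g0 σ q ∂ν := by
    simp only [pot, g0, Prod.snd_zero, Prod.fst_zero, zero_sub, neg_add_eq_sub]
  have hρ0 : 0 < ρ := by linarith [hρ.1]
  have h6 : log ρ ≤ (k + 7 : ℕ) := by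
    have a1 : log ρ ≤ log (2 ^ (k + 7)) := log_le_log hρ0 (hρ.2.trans_eq (by ring))
    rw [log_pow] at a1
    have a2 : log 2 ≤ 1 := by linarith [log_le_sub_one_of_pos (two_pos (α := ℝ))]
    exact a1.trans (mul_le_of_le_one_right (by positivity) a2)
  rw [rad, rpow_def_of_pos hρ0, ← exp_add, exp_le_exp, h5]
  have h7 := mul_le_mul_of_nonneg_left hk hC0.le
  have h8 := mul_le_mul_of_nonneg_right h6 hβ0.le
  have h9 := h3 y hy
  push_cast at h4 h8
  rw [← hβ] at h4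
  linarith

end Crest.Agent.N250.A

end
end

-- ▼ part N250/A/PsiSub
section

/-!
# Row 250, block A (helper77): `PsiSubS`
-/

set_option autoImplicit false
open MeasureTheory Set Filter Topology Metric
open scoped ContDiff InnerProductSpace
open Crest.GeometryTopology.MCF

noncomputable section

namespace Crest.Agent.N250.A

namespace PS

section par

variable {μ : Measure ST} {K : Set ST} {w : ST → ℝ} {p : ST} {δ : ℝ}

/-- jointly smooth near `closedBall p δ × K` -/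
def Ok {G : Type} [NormedAddCommGroup G] [NormedSpace ℝ G] (p : ST) (δ : ℝ) (K : Set ST)
    (f : ST → ST → G) : Prop :=
  ∀ x ∈ closedBall p δ, ∀ q ∈ K, ContDiffAt ℝ ∞ (fun z : ST × ST => f z.1 z.2) (x, q)

variable {G : Type} [NormedAddCommGroup G] [NormedSpace ℝ G] {f : ST → ST → G}

theorem Ok.D (h : Ok p δ K f) : Ok p δ K fun x q => fderiv ℝ (fun x' => f x' q) x := by
  intro x hx q hq
  refine ContDiffAt.fderiv (f := fun (z : ST × ST) (x' : ST) => f x' z.2) (g := fun z => z.1)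
    (n := ∞) ?_ contDiffAt_fst (by simp)
  exact ContDiffAt.comp (g := fun z : ST × ST => f z.1 z.2)
    (f := fun u : (ST × ST) × ST => (u.2, u.1.2)) _ (h x hx q hq) (by fun_prop)

theorem Ok.Dv (h : Ok p δ K f) (v : ST) : Ok p δ K fun x q => fderiv ℝ (fun x' => f x' q) x v :=
  fun x hx q hq => (h.D x hx q hq).clm_apply contDiffAt_const

theorem Ok.bd (hK : IsCompact K) (h : Ok p δ K f) :
    ∃ C, ∀ x ∈ closedBall p δ, ∀ q ∈ K, ‖f x q‖ ≤ C := by
  obtain ⟨C, hC⟩ := ((isCompact_closedBall p δ).prod hK).exists_bound_of_continuousOn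
    (f := fun z : ST × ST => f z.1 z.2)
    fun z hz => (h z.1 hz.1 z.2 hz.2).continuousAt.continuousWithinAt
  exact ⟨C, fun x hx q hq => hC (x, q) ⟨hx, hq⟩⟩

theorem Ok.aesm (hK : IsCompact K) (hμ : ∀ᵐ q ∂μ, q ∈ K) (h : Ok p δ K f) {x : ST}
    (hx : x ∈ closedBall p δ) : AEStronglyMeasurable (f x) μ := by
  rw [← Measure.restrict_eq_self_of_ae_mem hμ]
  refine ContinuousOn.aestronglyMeasurable_of_isCompact (fun q hq => ?_) hK hK.measurableSet
  exact (ContinuousAt.comp (g := fun z : ST × ST => f z.1 z.2) (f := fun q : ST => (x, q))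
    (h x hx q hq).continuousAt (by fun_prop)).continuousWithinAt

theorem Ok.int (hK : IsCompact K) (hμ : ∀ᵐ q ∂μ, q ∈ K) (hw : Integrable w μ) (h : Ok p δ K f)
    {x : ST} (hx : x ∈ closedBall p δ) : Integrable (fun q => w q • f x q) μ := by
  obtain ⟨C, hC⟩ := h.bd hK
  refine (hw.norm.mul_const C).mono' (hw.1.smul (h.aesm hK hμ hx)) ?_
  filter_upwards [hμ] with q hq
  rw [norm_smul]
  exact mul_le_mul_of_nonneg_left (hC x hx q hq) (norm_nonneg _)

theorem Ok.diff (h : Ok p δ K f) {x : ST} (hx : x ∈ closedBall p δ) {q : ST} (hq : q ∈ K) :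
    DifferentiableAt ℝ (fun x' => f x' q) x :=
  (ContDiffAt.comp (g := fun z : ST × ST => f z.1 z.2) (f := fun x' : ST => (x', q)) _
    (h x hx q hq) (by fun_prop)).differentiableAt (by simp)

theorem Ok.hasF (hK : IsCompact K) (hμ : ∀ᵐ q ∂μ, q ∈ K) (hw : Integrable w μ) (h : Ok p δ K f)
    {x : ST} (hx : x ∈ ball p δ) : HasFDerivAt (fun x => ∫ q, w q • f x q ∂μ)
      (∫ q, w q • fderiv ℝ (fun x' => f x' q) x ∂μ) x := by
  obtain ⟨C, hC⟩ := h.D.bd hK
  have hn : ball p δ ∈ 𝓝 x := isOpen_ball.mem_nhds hx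
  refine hasFDerivAt_integral_of_dominated_of_fderiv_le (F := fun x q => w q • f x q)
    (F' := fun x q => w q • fderiv ℝ (fun x' => f x' q) x) (bound := fun q => ‖w q‖ * C) hn ?_
    (h.int hK hμ hw (ball_subset_closedBall hx))
    (h.D.int hK hμ hw (ball_subset_closedBall hx)).1 ?_ (hw.norm.mul_const C) ?_
  · filter_upwards [hn] with x' hx' using (h.int hK hμ hw (ball_subset_closedBall hx')).1
  · filter_upwards [hμ] with q hq x' hx'
    rw [norm_smul]
    exact mul_le_mul_of_nonneg_left (hC x' (ball_subset_closedBall hx') q hq) (norm_nonneg _)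
  · filter_upwards [hμ] with q hq x' hx'
    exact (h.diff (ball_subset_closedBall hx') hq).hasFDerivAt.const_smul (w q)

theorem Ok.contDiffOn (hK : IsCompact K) (hμ : ∀ᵐ q ∂μ, q ∈ K) (hw : Integrable w μ) (n : ℕ) :
    ∀ {G : Type} [NormedAddCommGroup G] [NormedSpace ℝ G] {f : ST → ST → G}, Ok p δ K f →
      ContDiffOn ℝ n (fun x => ∫ q, w q • f x q ∂μ) (ball p δ) := by
  induction n with
  | zero =>
    intro G _ _ f h
    exact contDiffOn_zero.2 fun x hx => (h.hasF hK hμ hw hx).continuousAt.continuousWithinAt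
  | succ n ih =>
    intro G _ _ f h
    rw [Nat.cast_succ, contDiffOn_succ_iff_fderiv_of_isOpen isOpen_ball]
    exact ⟨fun x hx => (h.hasF hK hμ hw hx).differentiableAt.differentiableWithinAt, by simp,
      (ih h.D).congr fun x hx => (h.hasF hK hμ hw hx).fderiv⟩

theorem Ok.dir [CompleteSpace G] (hK : IsCompact K) (hμ : ∀ᵐ q ∂μ, q ∈ K) (hw : Integrable w μ)
    (h : Ok p δ K f) {x : ST} (hx : x ∈ ball p δ) (v : ST) :
    fderiv ℝ (fun x => ∫ q, w q • f x q ∂μ) x v =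
      ∫ q, w q • fderiv ℝ (fun x' => f x' q) x v ∂μ := by
  rw [(h.hasF hK hμ hw hx).fderiv,
    ContinuousLinearMap.integral_apply (h.D.int hK hμ hw (ball_subset_closedBall hx))]
  rfl

theorem Ok.d2_eq {f : ST → ST → ℝ} (hK : IsCompact K) (hμ : ∀ᵐ q ∂μ, q ∈ K) (hw : Integrable w μ)
    (h : Ok p δ K f) (hδ : 0 < δ) (v : E) :
    d2 (fun x => ∫ q, w q • f x q ∂μ) p v = ∫ q, w q • d2 (fun x => f x q) p v ∂μ := by
  have e : (fun x => fderiv ℝ (fun x => ∫ q, w q • f x q ∂μ) x (v, 0)) =ᶠ[𝓝 p]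
      fun x => ∫ q, w q • fderiv ℝ (fun x' => f x' q) x (v, 0) ∂μ := by
    filter_upwards [ball_mem_nhds p hδ] with x hx using h.dir hK hμ hw hx _
  unfold d2
  rw [e.fderiv_eq, (h.Dv (v, 0)).dir hK hμ hw (mem_ball_self hδ)]

theorem Ok.hb_eq {f : ST → ST → ℝ} (hK : IsCompact K) (hμ : ∀ᵐ q ∂μ, q ∈ K) (hw : Integrable w μ)
    (h : Ok p δ K f) (hδ : 0 < δ) (n : E) :
    Integrable (fun q => w q * hb n (fun x => f x q) p) μ ∧
    hb n (fun x => ∫ q, w q • f x q ∂μ) p = ∫ q, w q * hb n (fun x => f x q) p ∂μ := by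
  have hp : p ∈ closedBall p δ := mem_closedBall_self hδ.le
  have i1 := (h.Dv (0, 1)).int hK hμ hw hp
  have i2 : ∀ v : E, Integrable (fun q => w q • d2 (fun x => f x q) p v) μ := fun v =>
    ((h.Dv (v, 0)).Dv (v, 0)).int hK hμ hw hp
  have i3 := integrable_finsetSum Finset.univ fun a _ => i2 (ee a)
  have e : ∀ q, w q * hb n (fun x => f x q) p = w q • fderiv ℝ (fun x' => f x' q) p (0, 1) -
      (∑ a, w q • d2 (fun x => f x q) p (ee a) - w q • d2 (fun x => f x q) p n) := fun q => by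
    simp only [hb, smul_eq_mul, ← Finset.mul_sum]; ring
  have i4 : Integrable (fun q => ∑ a, w q • d2 (fun x => f x q) p (ee a) -
      w q • d2 (fun x => f x q) p n) μ := i3.sub (i2 n)
  simp only [e]
  refine ⟨i1.sub i4, ?_⟩
  rw [integral_sub i1 i4, integral_sub i3 (i2 n),
    integral_finsetSum _ fun a _ => i2 (ee a), hb, h.dir hK hμ hw (mem_ball_self hδ)]
  simp only [h.d2_eq hK hμ hw hδ]

end par

/-! ### linearity -/

theorem d2_sub {f g : ST → ℝ} {p : ST} (hf : ContDiffAt ℝ 2 f p) (hg : ContDiffAt ℝ 2 g p) (v : E) :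
    d2 (fun x => f x - g x) p v = d2 f p v - d2 g p v := by
  have e : (fun x => fderiv ℝ (fun x => f x - g x) x (v, 0)) =ᶠ[𝓝 p]
      fun x => fderiv ℝ f x (v, 0) - fderiv ℝ g x (v, 0) := by
    filter_upwards [hf.eventually (by simp), hg.eventually (by simp)] with x h1 h2
    rw [fderiv_fun_sub (h1.differentiableAt (by simp)) (h2.differentiableAt (by simp))]
    rfl
  have d : ∀ {f : ST → ℝ}, ContDiffAt ℝ 2 f p →
      DifferentiableAt ℝ (fun x => fderiv ℝ f x (v, 0)) p := fun hf =>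
    ((hf.fderiv_right (m := 1) (by norm_num)).clm_apply contDiffAt_const).differentiableAt (by simp)
  unfold d2
  rw [e.fderiv_eq, fderiv_fun_sub (d hf) (d hg)]
  rfl

theorem hb_sub {f g : ST → ℝ} {p : ST} (hf : ContDiffAt ℝ 2 f p) (hg : ContDiffAt ℝ 2 g p) (n : E) :
    hb n (fun x => f x - g x) p = hb n f p - hb n g p := by
  simp only [hb, d2_sub hf hg, Finset.sum_sub_distrib]
  rw [fderiv_fun_sub (hf.differentiableAt (by simp)) (hg.differentiableAt (by simp))]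
  simp only [sub_apply]
  ring

/-! ### explicit functions -/

theorem hN (z : E) (x : ST) : HasFDerivAt (fun x : ST => ‖x.1 - z‖ ^ 2)
    (2 • (innerSL ℝ (x.1 - z)).comp (ContinuousLinearMap.fst ℝ E ℝ)) x :=
  (hasFDerivAt_fst.sub_const z).norm_sq

theorem hI (z v : E) (x : ST) : HasFDerivAt (fun x : ST => ⟪v, x.1 - z⟫_ℝ)
    ((innerSL ℝ v).comp (ContinuousLinearMap.fst ℝ E ℝ)) x :=
  (innerSL ℝ v).hasFDerivAt.comp x (hasFDerivAt_fst.sub_const z)

theorem hT {α : ℝ → ℝ} {a : ℝ} {x : ST} (h : HasDerivAt α a x.2) :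
    HasFDerivAt (fun x : ST => α x.2) (a • ContinuousLinearMap.snd ℝ E ℝ) x :=
  h.comp_hasFDerivAt x hasFDerivAt_snd

theorem sum_ee (u : E) : ∑ a, ⟪ee a, u⟫_ℝ ^ 2 = ‖u‖ ^ 2 := by
  rw [EuclideanSpace.real_norm_sq_eq]
  refine Finset.sum_congr rfl fun a _ => ?_
  rw [real_inner_comm, Hu.inner_ee]

/-- `α(t) - β(t) |x - z|²` -/
theorem hb_quad {α β : ℝ → ℝ} {a b : ℝ} {p : ST} (z : E) {n : E} (hn : ‖n‖ = 1)
    (hα : HasDerivAt α a p.2) (hβ : HasDerivAt β b p.2)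
    (hα' : ∀ᶠ t in 𝓝 p.2, DifferentiableAt ℝ α t) (hβ' : ∀ᶠ t in 𝓝 p.2, DifferentiableAt ℝ β t) :
    hb n (fun x => α x.2 - β x.2 * ‖x.1 - z‖ ^ 2) p = a - b * ‖p.1 - z‖ ^ 2 + 4 * β p.2 := by
  have h2 : ∀ v : E, d2 (fun x => α x.2 - β x.2 * ‖x.1 - z‖ ^ 2) p v = -2 * β p.2 * ‖v‖ ^ 2 := by
    intro v
    have e : (fun x : ST => fderiv ℝ (fun x : ST => α x.2 - β x.2 * ‖x.1 - z‖ ^ 2) x (v, 0)) =ᶠ[𝓝 p]
        fun x => -2 * (β x.2 * ⟪v, x.1 - z⟫_ℝ) := by
      filter_upwards [continuous_snd.continuousAt.eventually hα',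
        continuous_snd.continuousAt.eventually hβ'] with x h1 h2
      rw [((hT h1.hasDerivAt).fun_sub ((hT h2.hasDerivAt).fun_mul (hN z x))).fderiv]
      simp [inner_sub_right, real_inner_comm]; ring
    unfold d2
    rw [e.fderiv_eq, (((hT hβ).fun_mul (hI z v p)).const_mul (-2)).fderiv]
    simp; ring
  simp only [hb, h2, hn]
  rw [((hT hα).fun_sub ((hT hβ).fun_mul (hN z p))).fderiv]
  simp; ring

/-- `α(t) exp (-β(t) |x - z|²)` -/
theorem hb_exp {α β : ℝ → ℝ} {a b : ℝ} {p : ST} (z : E) {n : E} (hn : ‖n‖ = 1)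
    (hα : HasDerivAt α a p.2) (hβ : HasDerivAt β b p.2)
    (hα' : ∀ᶠ t in 𝓝 p.2, DifferentiableAt ℝ α t) (hβ' : ∀ᶠ t in 𝓝 p.2, DifferentiableAt ℝ β t) :
    hb n (fun x => α x.2 * Real.exp (-(β x.2 * ‖x.1 - z‖ ^ 2))) p =
      (a - α p.2 * (b * ‖p.1 - z‖ ^ 2 - 4 * β p.2 +
        4 * β p.2 ^ 2 * (‖p.1 - z‖ ^ 2 - ⟪n, p.1 - z⟫_ℝ ^ 2))) *
        Real.exp (-(β p.2 * ‖p.1 - z‖ ^ 2)) := by
  have h2 : ∀ v : E, d2 (fun x => α x.2 * Real.exp (-(β x.2 * ‖x.1 - z‖ ^ 2))) p v =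
      α p.2 * Real.exp (-(β p.2 * ‖p.1 - z‖ ^ 2)) *
        (4 * β p.2 ^ 2 * ⟪v, p.1 - z⟫_ℝ ^ 2 - 2 * β p.2 * ‖v‖ ^ 2) := by
    intro v
    have e : (fun x : ST => fderiv ℝ (fun x : ST => α x.2 * Real.exp (-(β x.2 * ‖x.1 - z‖ ^ 2))) x
        (v, 0)) =ᶠ[𝓝 p] fun x => -2 * (β x.2 * ⟪v, x.1 - z⟫_ℝ *
          (α x.2 * Real.exp (-(β x.2 * ‖x.1 - z‖ ^ 2)))) := by
      filter_upwards [continuous_snd.continuousAt.eventually hα',
        continuous_snd.continuousAt.eventually hβ'] with x h1 h2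
      rw [((hT h1.hasDerivAt).fun_mul ((hT h2.hasDerivAt).fun_mul (hN z x)).fun_neg.exp).fderiv]
      simp [inner_sub_right, real_inner_comm]; ring
    unfold d2
    rw [e.fderiv_eq, ((((hT hβ).fun_mul (hI z v p)).fun_mul ((hT hα).fun_mul
      ((hT hβ).fun_mul (hN z p)).fun_neg.exp)).const_mul (-2)).fderiv]
    simp [inner_sub_right, real_inner_comm]; ring
  simp only [hb, h2, hn, ← Finset.mul_sum, Finset.sum_sub_distrib, sum_ee]
  rw [((hT hα).fun_mul ((hT hβ).fun_mul (hN z p)).fun_neg.exp).fderiv]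
  simp; ring

/-- the Gaussian is a supersolution -/
theorem hb_gau {c : ℝ → ℝ} {c' s : ℝ} {p : ST} (z : E) {n : E} (hn : ‖n‖ = 1) (hs : 0 < p.2 + s)
    (hc : HasDerivAt c c' p.2) (hc' : ∀ t, DifferentiableAt ℝ c t) (h0 : 0 ≤ c p.2) :
    gau z (p.2 + s) p.1 * c' ≤ hb n (fun x => gau z (x.2 + s) x.1 * c x.2) p := by
  have hpi := Real.pi_pos
  have e : (fun x : ST => gau z (x.2 + s) x.1 * c x.2) = fun x => ((4 * Real.pi * (x.2 + s))⁻¹ *
      c x.2) * Real.exp (-((4 * (x.2 + s))⁻¹ * ‖x.1 - z‖ ^ 2)) := by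
    funext x
    unfold gau
    rw [mul_right_comm]; congr 2; ring
  have hne : ∀ᶠ t in 𝓝 p.2, 0 < t + s :=
    (continuous_id.add continuous_const).continuousAt.eventually (lt_mem_nhds hs)
  have h1 := ((((hasDerivAt_id' p.2).add_const s).const_mul (4 * Real.pi)).fun_inv
    (by positivity)).fun_mul hc
  have h2 := (((hasDerivAt_id' p.2).add_const s).const_mul 4).fun_inv (by positivity)
  rw [e, hb_exp (α := fun t => (4 * Real.pi * (t + s))⁻¹ * c t) (β := fun t => (4 * (t + s))⁻¹) z hn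
    h1 h2 ?_ ?_]
  · have e2 : gau z (p.2 + s) p.1 = (4 * Real.pi * (p.2 + s))⁻¹ *
        Real.exp (-((4 * (p.2 + s))⁻¹ * ‖p.1 - z‖ ^ 2)) := by
      unfold gau; congr 2; ring
    rw [e2, mul_right_comm]
    refine mul_le_mul_of_nonneg_right ?_ (Real.exp_pos _).le
    rw [← sub_nonneg]
    have : 0 ≤ (4 * Real.pi * (p.2 + s))⁻¹ * c p.2 * (⟪n, p.1 - z⟫_ℝ ^ 2 / (4 * (p.2 + s) ^ 2)) := by
      positivity
    refine this.trans (le_of_eq ?_)
    field_simp; ring
  · filter_upwards [hne] with t ht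
    have := hc' t
    have : 4 * Real.pi * (t + s) ≠ 0 := by positivity
    fun_prop (disch := assumption)
  · filter_upwards [hne] with t ht
    have : 4 * (t + s) ≠ 0 := by positivity
    fun_prop (disch := assumption)

theorem log_psi (F : Mv) (m : Measure ST) (y : E) (ε σ a₀ : ℝ) {B θ₁ : ℝ} (hB : 0 < B)
    (hθ : 0 < θ₁) {q : ST} (hq : q.2 < 0) : Real.log (psi F m y ε B σ a₀ θ₁ q) =
      (-Real.log B + Real.log (θ₁ * -q.2) / 4) - (32 * -q.2)⁻¹ * ‖q.1 - y‖ ^ 2 -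
        UU F m y ε B σ a₀ q := by
  have h : 0 < θ₁ * -q.2 := mul_pos hθ (by linarith)
  unfold psi
  rw [Real.log_mul (by positivity) (Real.exp_pos _).ne', Real.log_mul (by positivity) (by positivity),
    Real.log_exp, Real.log_inv, Real.log_sqrt (Real.sqrt_nonneg _), Real.log_sqrt h.le]
  ring

end PS

theorem psiSubS_of (hA : A2S) : PsiSubS := by
  intro Λ G
  obtain ⟨C, hC, hb'⟩ := Cost.blk hA Λ G
  refine ⟨1 / (64 * C), by positivity, fun F a m hF hm y ε B σ θ₁ p hε hε' hB hσ hθ hp => ?_⟩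
  have ha : a < 3 * a / 4 := by linarith [hF.neg]
  set a₀ := 3 * a / 4
  have hp0 : p.2 < 0 := by linarith
  have hR := hF.fl.mcf.1
  have hS : ∀ t, MeasurableSet {q : ST | a₀ < q.2 ∧ q.2 < t} := fun t =>
    measurable_snd measurableSet_Ioo
  set μ := m.restrict {q : ST | a₀ < q.2 ∧ q.2 < p.2} with hμd
  set K : Set ST := F.M ∩ univ ×ˢ Icc a₀ p.2
  have hK : IsCompact K := PC.cpt_track hF ha hp0
  have hμ' : ∀ᵐ q ∂μ, q ∈ F.M ∧ a₀ < q.2 ∧ q.2 < p.2 := by
    filter_upwards [ae_restrict_mem (hS p.2), ae_restrict_of_ae (PC.stm_ae hR hm)] with q h1 h2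
    exact ⟨h2, h1⟩
  have hμ : ∀ᵐ q ∂μ, q ∈ K := by
    filter_upwards [hμ'] with q h using ⟨h.1, trivial, h.2.1.le, h.2.2.le⟩
  have : IsFiniteMeasure μ := ⟨by simpa [hμd] using PC.stm_fin hF hm a₀ p.2⟩
  have hint : ∀ w : ST → ℝ, ContinuousOn w K → Integrable w μ := fun w hw => by
    rw [← Measure.restrict_eq_self_of_ae_mem hμ]
    exact hw.integrableOn_compact hK
  have hw1 : Integrable (fun q => ε * F.A2 q) μ :=
    hint _ (continuousOn_const.mul (hR.sm_A2.continuousOn.mono inter_subset_left))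
  have hw2 : Integrable (fun q => ε * B * F.dev (y, 0) q ^ 2) μ :=
    hint _ (continuousOn_const.mul (((PC.dev_cont hR y).mono fun q hq =>
      ⟨hq.1, hq.2.2.2.trans_lt hp0⟩).pow 2))
  have hδ : 0 < σ / 2 := by positivity
  have hcl : ∀ x ∈ closedBall p (σ / 2), p.2 - σ / 2 ≤ x.2 := fun x hx => by
    have := (le_max_right _ _).trans (Prod.dist_eq.symm.trans_le (mem_closedBall.1 hx))
    rw [Real.dist_eq, abs_le] at this
    linarith [this.1]
  have hpi := Real.pi_pos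
  have o2 : PS.Ok p (σ / 2) K fun x q => gau q.1 (x.2 + (σ - q.2)) x.1 * 1 := by
    intro x hx q hq
    have h1 : 0 < x.2 + (σ - q.2) := by linarith [hcl x hx, hq.2.2.2]
    have h2 : 4 * Real.pi * (x.2 + (σ - q.2)) ≠ 0 := by positivity
    have h3 : 4 * (x.2 + (σ - q.2)) ≠ 0 := by positivity
    have h4 : ContDiffAt ℝ ∞ (fun z : ST × ST => ‖z.1.1 - z.2.1‖ ^ 2) (x, q) :=
      ContDiffAt.norm_sq ℝ (by fun_prop)
    unfold gau
    fun_prop (disch := assumption)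
  have o1 : PS.Ok p (σ / 2) K fun x q =>
      gau q.1 (x.2 + (σ - q.2)) x.1 * (1 - ((x.2 - q.2) / q.2) ^ 2) := by
    intro x hx q hq
    have h1 := o2 x hx q hq
    simp only [mul_one] at h1
    have h2 : q.2 ≠ 0 := (hq.2.2.2.trans_lt hp0).ne
    exact h1.mul (by fun_prop (disch := assumption))
  have c1 : ContDiffAt ℝ 2 _ p := (PS.Ok.contDiffOn hK hμ hw1 2 o1).contDiffAt (ball_mem_nhds p hδ)
  have c2 : ContDiffAt ℝ 2 _ p := (PS.Ok.contDiffOn hK hμ hw2 2 o2).contDiffAt (ball_mem_nhds p hδ)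
  have hl : θ₁ * -p.2 ≠ 0 := (mul_pos hθ (by linarith)).ne'
  have hl2 : 32 * -p.2 ≠ 0 := by linarith
  have c0 : ContDiffAt ℝ 2 (fun x : ST => (-Real.log B + Real.log (θ₁ * -x.2) / 4) -
      (32 * -x.2)⁻¹ * ‖x.1 - y‖ ^ 2) p := by
    have h4 : ContDiffAt ℝ 2 (fun x : ST => ‖x.1 - y‖ ^ 2) p := ContDiffAt.norm_sq ℝ (by fun_prop)
    fun_prop (disch := assumption)
  have hsum : ∀ x ∈ closedBall p (σ / 2),
      Integrable (fun q : ST => gau q.1 (x.2 - q.2 + σ) x.1 * dens F y ε B x.2 q) μ ∧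
      ∫ q, gau q.1 (x.2 - q.2 + σ) x.1 * dens F y ε B x.2 q ∂μ =
      ∫ q, (ε * F.A2 q) • (gau q.1 (x.2 + (σ - q.2)) x.1 * (1 - ((x.2 - q.2) / q.2) ^ 2)) ∂μ +
      ∫ q, (ε * B * F.dev (y, 0) q ^ 2) • (gau q.1 (x.2 + (σ - q.2)) x.1 * 1) ∂μ := by
    intro x hx
    have e : (fun q : ST => gau q.1 (x.2 - q.2 + σ) x.1 * dens F y ε B x.2 q) = fun q =>
        (ε * F.A2 q) • (gau q.1 (x.2 + (σ - q.2)) x.1 * (1 - ((x.2 - q.2) / q.2) ^ 2)) +
        (ε * B * F.dev (y, 0) q ^ 2) • (gau q.1 (x.2 + (σ - q.2)) x.1 * 1) := by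
      funext q
      rw [show x.2 - q.2 + σ = x.2 + (σ - q.2) by ring]
      simp only [dens, smul_eq_mul]; ring
    rw [e]
    exact ⟨(o1.int hK hμ hw1 hx).add (o2.int hK hμ hw2 hx),
      integral_add (o1.int hK hμ hw1 hx) (o2.int hK hμ hw2 hx)⟩
  refine ⟨_, (c0.sub c1).sub c2, ?_, ?_, fun n hn => ?_⟩
  · rw [PS.log_psi F m y ε σ a₀ hB hθ hp0, sub_sub _ _ (∫ q, _ ∂μ),
      ← (hsum p (mem_closedBall_self hδ.le)).2]
    rfl
  · filter_upwards [closedBall_mem_nhds p hδ] with x hx hlt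
    rw [PS.log_psi F m y ε σ a₀ hB hθ (hlt.trans hp0), sub_sub _ _ (∫ q, _ ∂μ), ← (hsum x hx).2]
    refine sub_le_sub_left (setIntegral_mono_set (hsum x hx).1 ?_
      (LE.le.eventuallyLE fun q hq => ⟨hq.1, hq.2.trans hlt⟩)) _
    filter_upwards [hμ'] with q hq
    have h1 := hcl x hx
    have h2 : q.2 < 0 := hq.2.2.trans hp0
    refine mul_nonneg (Gau.gau_pos _ (by linarith [hq.2.2]) _).le
      (add_nonneg (mul_nonneg (mul_nonneg hε (PC.A2_nonneg F q)) ?_) (by positivity))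
    rw [sub_nonneg, div_pow, div_le_one (by nlinarith)]
    nlinarith [hq.2.2]
  · have hne : ∀ᶠ t in 𝓝 p.2, t < 0 := gt_mem_nhds hp0
    have d1 : HasDerivAt (fun t : ℝ => -Real.log B + Real.log (θ₁ * -t) / 4) (1 / (4 * p.2)) p.2 := by
      have := (((((hasDerivAt_id' p.2).fun_neg.const_mul θ₁).log hl).div_const 4).const_add
        (-Real.log B))
      refine this.congr_deriv ?_
      have := hp0.ne
      field_simp
    have d2 : HasDerivAt (fun t : ℝ => (32 * -t)⁻¹) (1 / (32 * p.2 ^ 2)) p.2 := by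
      have := ((hasDerivAt_id' p.2).fun_neg.const_mul 32).fun_inv hl2
      refine this.congr_deriv ?_
      have := hp0.ne
      field_simp
    obtain ⟨i1, e1⟩ := o1.hb_eq hK hμ hw1 hδ n
    obtain ⟨i2, e2⟩ := o2.hb_eq hK hμ hw2 hδ n
    obtain ⟨i3, e3⟩ := hb'.cost hC.le hF hm ha hσ hp
    rw [PS.hb_sub (c0.sub c1) c2, PS.hb_sub c0 c1, e1, e2, PS.hb_quad y hn d1 d2 ?_ ?_]
    · have g2 : 0 ≤ ∫ q, ε * B * F.dev (y, 0) q ^ 2 *
          hb n (fun x => gau q.1 (x.2 + (σ - q.2)) x.1 * 1) p ∂μ := by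
        refine integral_nonneg_of_ae ?_
        filter_upwards [hμ'] with q hq
        refine mul_nonneg (by positivity) (le_trans (by simp) (PS.hb_gau (c := fun _ => 1) q.1 hn
          (by linarith [hq.2.2]) (hasDerivAt_const _ _) (fun _ => differentiableAt_const _)
          zero_le_one))
      have g1 : ∫ q, -(2 * ε) * (gau q.1 (p.2 - q.2 + σ) p.1 * (F.A2 q * ((p.2 - q.2) / q.2 ^ 2))) ∂μ
          ≤ ∫ q, ε * F.A2 q * hb n
            (fun x => gau q.1 (x.2 + (σ - q.2)) x.1 * (1 - ((x.2 - q.2) / q.2) ^ 2)) p ∂μ := by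
        refine integral_mono_ae (i3.const_mul _) i1 ?_
        filter_upwards [hμ'] with q hq
        have h1 := PS.hb_gau (c := fun t => 1 - ((t - q.2) / q.2) ^ 2) (s := σ - q.2) q.1 hn
          (by linarith [hq.2.2])
          (((((hasDerivAt_id' p.2).sub_const q.2).div_const q.2).fun_pow 2).const_sub 1)
          (fun _ => by fun_prop) (PC.damp_mem hq.2.2 hp0).1
        refine le_trans (le_of_eq ?_)
          (mul_le_mul_of_nonneg_left h1 (mul_nonneg hε (PC.A2_nonneg F q)))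
        rw [show p.2 - q.2 + σ = p.2 + (σ - q.2) by ring]
        simp; ring
      rw [integral_const_mul] at g1
      have g3 : 2 * ε * (2 * C / -p.2) ≤ 1 / (16 * -p.2) := by
        have : 0 < -p.2 := by linarith
        rw [le_div_iff₀ (by positivity)] at hε' ⊢
        refine le_trans (le_of_eq ?_) hε'
        have := hp0.ne
        field_simp; ring
      have g4 := mul_le_mul_of_nonneg_left e3 (show 0 ≤ 2 * ε by positivity)
      have g5 : 0 ≤ 1 / (32 * p.2 ^ 2) * ‖p.1 - y‖ ^ 2 := by positivity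
      have g6 : 1 / (4 * p.2) + 4 * (32 * -p.2)⁻¹ + 1 / (16 * -p.2) < 0 := by
        have : 1 / (4 * p.2) + 4 * (32 * -p.2)⁻¹ + 1 / (16 * -p.2) = 1 / (16 * p.2) := by
          have := hp0.ne
          field_simp; ring
        rw [this]
        exact div_neg_of_pos_of_neg one_pos (by linarith)
      linarith
    · filter_upwards [hne] with t ht
      have : θ₁ * -t ≠ 0 := (mul_pos hθ (by linarith)).ne'
      fun_prop (disch := assumption)
    · filter_upwards [hne] with t ht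
      have : 32 * -t ≠ 0 := by linarith
      fun_prop (disch := assumption)

theorem psiSubS_holds : PsiSubS := psiSubS_of a2S_holds

end Crest.Agent.N250.A

end
end

-- ▼ part N250/A/StmH
section

/-! Row 250, block A (helper46): the spacetime measure `μ_t dt`. -/

set_option autoImplicit false
open MeasureTheory ProbabilityTheory Set Filter Topology
open scoped ContDiff InnerProductSpace
open Crest.GeometryTopology.MCF

noncomputable section

namespace Crest.Agent.N250.A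

namespace StmH

/-- the Gaussian weight -/
def ww (x : E) : ENNReal := ENNReal.ofReal (Real.exp (-‖x - 0‖ ^ 2 / 1))

lemma ww_meas : Measurable ww := (Gau.cont_exp 0 1).measurable.ennreal_ofReal

variable {F : Mv} {I : Set ℝ} {Λ : ℝ}

lemma univ_le (hF : Fl F I Λ) (t : ℝ) :
    (F.mu t).withDensity ww univ ≤ ENNReal.ofReal (Gau.C0 * max Λ 0 * (1 / 8)) := by
  rw [withDensity_apply _ MeasurableSet.univ, Measure.restrict_univ]
  have h := Gau.rat_of_AR hF.ar t
  simp only [ww]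
  rw [← ofReal_integral_eq_lintegral_ofReal (Gau.int_exp (le_max_right _ _) h 0 one_pos)
    (.of_forall fun x => (Real.exp_pos _).le)]
  exact ENNReal.ofReal_le_ofReal (Gau.integral_exp_le (le_max_right _ _) h 0 one_pos)

lemma fin (hF : Fl F I Λ) (t : ℝ) : IsFiniteMeasure ((F.mu t).withDensity ww) :=
  ⟨(univ_le hF t).trans_lt ENNReal.ofReal_lt_top⟩

/-- Gaussian dominated slice integrals are measurable in time -/
lemma meas_int (hM : MuContS) (hI : IsOpen I) (hF : Fl F I Λ) {f : E → ℝ} (hf : Continuous f)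
    {y : E} {c B : ℝ} (hc : 0 < c) (hb : ∀ x, |f x| ≤ B * Real.exp (-‖x - y‖ ^ 2 / c)) :
    Measurable fun t => ∫ x, f x ∂F.mu t := by
  refine measurable_of_restrict_of_restrict_compl hI.measurableSet ?_ ?_
  · exact (continuousOn_iff_continuous_domRestrict.1 fun t ht =>
      (Gau.cont_time hM hI hF hf hc hb ht).continuousWithinAt).measurable
  · have : Iᶜ.domRestrict (fun t => ∫ x, f x ∂F.mu t) = fun _ => 0 := by
      ext t
      simp only [domRestrict_apply, CFl.mu_zero hF.time t.2, integral_zero_measure]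
    rw [this]; exact measurable_const

lemma meas_closed (hM : MuContS) (hI : IsOpen I) (hF : Fl F I Λ) {C : Set E} (hC : IsClosed C) :
    Measurable fun t => (F.mu t).withDensity ww C := by
  refine ENNReal.measurable_of_tendsto (f := fun n t => ENNReal.ofReal
    (∫ x, (hC.apprSeq n x : ℝ) * Real.exp (-‖x - 0‖ ^ 2 / 1) ∂F.mu t)) (fun n => ?_)
    (tendsto_pi_nhds.2 fun t => ?_)
  · refine (meas_int hM hI hF (B := 1) (y := 0) (by fun_prop) one_pos fun x => ?_).ennreal_ofReal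
    rw [abs_of_nonneg (by positivity)]
    gcongr
    exact HasOuterApproxClosed.apprSeq_apply_le_one hC n x
  · have := fin hF t
    refine (HasOuterApproxClosed.tendsto_lintegral_apprSeq hC ((F.mu t).withDensity ww)).congr
      fun n => ?_
    rw [lintegral_withDensity_eq_lintegral_mul _ ww_meas (by fun_prop),
      ofReal_integral_eq_lintegral_ofReal (Gau.int_dom (le_max_right _ _) (Gau.rat_of_AR hF.ar t)
        (B := 1) (y := 0) one_pos (Continuous.aestronglyMeasurable (by fun_prop)) fun x => ?_)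
        (.of_forall fun x => by positivity)]
    · refine lintegral_congr fun x => ?_
      rw [Pi.mul_apply, ENNReal.ofReal_mul (by positivity), ENNReal.ofReal_coe_nnreal, mul_comm, ww]
    · rw [abs_of_nonneg (by positivity)]
      gcongr
      exact HasOuterApproxClosed.apprSeq_apply_le_one hC n x

lemma meas_ker (hM : MuContS) (hI : IsOpen I) (hF : Fl F I Λ) :
    Measurable fun t => (F.mu t).withDensity ww := by
  have hc : ∀ s, MeasurableSet s → Measurable (fun t => (F.mu t).withDensity ww s) →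
      Measurable fun t => (F.mu t).withDensity ww sᶜ := fun s hs h => by
    have e : ∀ t, (F.mu t).withDensity ww sᶜ =
        (F.mu t).withDensity ww univ - (F.mu t).withDensity ww s := fun t => by
      have := fin hF t
      exact measure_compl hs (measure_ne_top _ _)
    simp only [e]
    exact (meas_closed hM hI hF isClosed_univ).sub h
  refine Measure.measurable_of_measurable_coe _ (MeasurableSet.induction_on_open
    (C := fun s _ => Measurable fun t => (F.mu t).withDensity ww s) (fun U hU => ?_) hc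
    fun f h1 h2 h3 => ?_)
  · simpa only [compl_compl] using hc _ hU.measurableSet.compl
      (meas_closed hM hI hF hU.isClosed_compl)
  · simp only [measure_iUnion h1 h2]
    exact Measurable.tsum h3

end StmH

open StmH in
theorem stmS_of (hM : MuContS) : StmS := by
  intro F I Λ hI hF
  obtain ⟨κ, hκ⟩ : ∃ κ : Kernel ℝ E, ∀ t, κ t = (F.mu t).withDensity ww :=
    ⟨⟨fun t => (F.mu t).withDensity ww, meas_ker hM hI hF⟩, fun _ => rfl⟩
  have : IsFiniteKernel κ := ⟨_, ENNReal.ofReal_lt_top, fun t => by rw [hκ]; exact univ_le hF t⟩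
  have hw : Measurable fun q : ST => (ww q.1)⁻¹ := (ww_meas.comp measurable_fst).inv
  refine ⟨((volume ⊗ₘ κ).map Prod.swap).withDensity fun q => (ww q.1)⁻¹, fun g hg => ?_⟩
  have hm : Measurable fun q : ℝ × E => (ww q.2)⁻¹ * g (q.2, q.1) :=
    (ww_meas.comp measurable_snd).inv.mul (hg.comp (measurable_snd.prodMk measurable_fst))
  have e : ∀ t, ∫⁻ x, (ww x)⁻¹ * g (x, t) ∂κ t = ∫⁻ x, g (x, t) ∂F.mu t := fun t => by
    have h0 : Measurable fun x => (ww x)⁻¹ * g (x, t) :=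
      ww_meas.inv.mul (hg.comp (measurable_id.prodMk measurable_const))
    rw [hκ, lintegral_withDensity_eq_lintegral_mul _ ww_meas h0]
    refine lintegral_congr fun x => ?_
    have h1 : ww x * (ww x)⁻¹ = 1 := ENNReal.mul_inv_cancel
      (ENNReal.ofReal_pos.2 (Real.exp_pos _)).ne' ENNReal.ofReal_ne_top
    rw [Pi.mul_apply, ← mul_assoc, h1, one_mul]
  have h1 : Measurable fun t => ∫⁻ x, (ww x)⁻¹ * g (x, t) ∂κ t :=
    hm.lintegral_kernel_prod_right' (κ := κ)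
  refine ⟨by simpa only [e] using h1, ?_⟩
  rw [lintegral_withDensity_eq_lintegral_mul _ hw hg, lintegral_map (hw.mul hg) measurable_swap,
    ← lintegral_congr e]
  exact Measure.lintegral_compProd (μ := volume) (κ := κ) hm

end Crest.Agent.N250.A

end
end

-- ▼ part N250/A1/Gau
section

/-!
# Row 250 (helper44): Gaussian mass of Lipschitz graphs, Gaussian tails from area ratios
-/

set_option autoImplicit false
open MeasureTheory Set Filter Topology
open scoped ContDiff InnerProductSpace ENNReal NNReal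
open Crest.GeometryTopology.MCF

noncomputable section

namespace Crest.Agent.N250.A1

/-- the Euclidean plane -/
abbrev E2 : Type := EuclideanSpace ℝ (Fin 2)

theorem gau_nonneg (y : E) {s : ℝ} (hs : 0 ≤ s) (x : E) : 0 ≤ gau y s x := by
  unfold gau; positivity


theorem gau_cont (y : E) (s : ℝ) : Continuous (gau y s) := by
  unfold gau; fun_prop

theorem gau_meas (y : E) (s : ℝ) : Measurable fun x => ENNReal.ofReal (gau y s x) :=
  (gau_cont y s).measurable.ennreal_ofReal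

theorem gau_le (y : E) {s : ℝ} (hs : 0 < s) (x : E) : gau y s x ≤ (4 * Real.pi * s)⁻¹ := by
  unfold gau
  have h1 : Real.exp (-‖x - y‖ ^ 2 / (4 * s)) ≤ 1 := by
    rw [Real.exp_le_one_iff]
    exact div_nonpos_of_nonpos_of_nonneg (by simp) (by positivity)
  have h2 : 0 ≤ (4 * Real.pi * s)⁻¹ := by positivity
  nlinarith

/-- coordinates in the plane orthogonal to `b 0` -/
def prj (b : OrthonormalBasis (Fin 3) ℝ E) (y : E) : E2 := !₂[⟪b 1, y⟫_ℝ, ⟪b 2, y⟫_ℝ]

theorem prj_sub (b : OrthonormalBasis (Fin 3) ℝ E) (y z : E) :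
    prj b (y - z) = prj b y - prj b z := by
  ext i; fin_cases i <;> simp [prj, inner_sub_right]

theorem prj_norm (b : OrthonormalBasis (Fin 3) ℝ E) (y : E) :
    ‖y‖ ^ 2 = ⟪b 0, y⟫_ℝ ^ 2 + ‖prj b y‖ ^ 2 := by
  rw [← b.sum_sq_inner_right y, EuclideanSpace.real_norm_sq_eq, Fin.sum_univ_three,
    Fin.sum_univ_two]
  simp [prj]; ring

theorem prj_cont (b : OrthonormalBasis (Fin 3) ℝ E) : Continuous (prj b) := by
  unfold prj; fun_prop

/-- an expanding map to the plane does not lose area -/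
theorem area_le_image {C : Set E} {f : E → E2} {K : ℝ} (hK : 0 ≤ K)
    (h : ∀ p ∈ C, ∀ q ∈ C, dist p q ≤ K * dist (f p) (f q)) :
    (μHE[2] : Measure E) C ≤ ENNReal.ofReal (K ^ 2) * volume (f '' C) := by
  lift K to ℝ≥0 using hK
  have ha : AntilipschitzWith K (fun p : C => f p) :=
    AntilipschitzWith.of_le_mul_dist fun p q => h p p.2 q q.2
  have h1 := ha.le_hausdorffMeasure_image (d := (2 : ℕ)) (by positivity) univ
  have h2 : (μH[((2 : ℕ) : ℝ)] : Measure E) C = (μH[((2 : ℕ) : ℝ)] : Measure C) univ := by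
    rw [← (isometry_subtype_coe (s := C)).hausdorffMeasure_image (Or.inl (by positivity)) univ]
    simp
  have h3 : (fun p : C => f p) '' univ = f '' C := by
    ext w; simp
  rw [h3, ← h2] at h1
  rw [← EuclideanSpace.euclideanHausdorffMeasure_eq_volume 2,
    Measure.euclideanHausdorffMeasure_def, Measure.euclideanHausdorffMeasure_def]
  simp only [Measure.smul_apply, ENNReal.smul_def, smul_eq_mul]
  have h4 : ((K : ℝ≥0∞)) ^ (((2 : ℕ) : ℝ)) = ENNReal.ofReal ((K : ℝ) ^ 2) := by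
    rw [ENNReal.rpow_natCast, ENNReal.ofReal_pow (NNReal.coe_nonneg K), ENNReal.ofReal_coe_nnreal]
  rw [h4] at h1
  rw [mul_left_comm]
  gcongr

theorem lint_graph {C : Set E} {f : E → E2} (hf : Measurable f) {K : ℝ}
    (hK : 0 ≤ K) (h : ∀ p ∈ C, ∀ q ∈ C, dist p q ≤ K * dist (f p) (f q)) {g : E2 → ℝ≥0∞}
    (hg : Measurable g) :
    ∫⁻ y in C, g (f y) ∂(μHE[2] : Measure E) ≤ ENNReal.ofReal (K ^ 2) * ∫⁻ w, g w := by
  rw [← lintegral_map hg hf, ← smul_eq_mul, ← lintegral_smul_measure]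
  refine lintegral_mono' ?_ le_rfl
  rw [Measure.le_iff]
  intro A hA
  rw [Measure.map_apply hf hA, Measure.restrict_apply (hf hA), Measure.smul_apply, smul_eq_mul]
  refine (area_le_image hK fun p hp q hq => h p hp.2 q hq.2).trans ?_
  gcongr
  rintro _ ⟨p, hp, rfl⟩
  exact hp.1

theorem gauss2 (c : E2) {s : ℝ} (hs : 0 < s) :
    ∫⁻ w : E2, ENNReal.ofReal ((4 * Real.pi * s)⁻¹ * Real.exp (-‖w - c‖ ^ 2 / (4 * s))) = 1 := by
  have hb : (0 : ℝ) < (4 * s)⁻¹ := by positivity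
  have h1 := GaussianFourier.integral_rexp_neg_mul_sq_norm (V := E2) hb
  have h2 : (Real.pi / (4 * s)⁻¹) ^ ((Module.finrank ℝ E2 : ℝ) / 2) = 4 * Real.pi * s := by
    simp only [finrank_euclideanSpace, Fintype.card_fin]
    rw [show ((2 : ℕ) : ℝ) / 2 = 1 by norm_num, Real.rpow_one]
    field_simp
  rw [h2] at h1
  have h3 : ∫ w : E2, (4 * Real.pi * s)⁻¹ * Real.exp (-‖w - c‖ ^ 2 / (4 * s)) = 1 := by
    rw [integral_sub_right_eq_self
      (fun w : E2 => (4 * Real.pi * s)⁻¹ * Real.exp (-‖w‖ ^ 2 / (4 * s))) c, integral_const_mul]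
    have : ∀ w : E2, -‖w‖ ^ 2 / (4 * s) = -(4 * s)⁻¹ * ‖w‖ ^ 2 := fun w => by ring
    simp_rw [this]
    rw [h1]
    have : 4 * Real.pi * s ≠ 0 := by positivity
    field_simp
  rw [← ofReal_integral_eq_lintegral_ofReal (Integrable.of_integral_ne_zero (by rw [h3]; norm_num))
    (Eventually.of_forall fun w => by positivity), h3, ENNReal.ofReal_one]

/-- a set all of whose chords are almost orthogonal to `b 0` has Gaussian mass almost `≤ 1` -/
theorem gau_graph (b : OrthonormalBasis (Fin 3) ℝ E) {G : Set E} {ε K : ℝ} (hK : 0 ≤ K)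
    (hε : 1 ≤ K ^ 2 * (1 - ε ^ 2))
    (h : ∀ p ∈ G, ∀ q ∈ G, |⟪b 0, p - q⟫_ℝ| ≤ ε * ‖p - q‖) (x : E) {s : ℝ} (hs : 0 < s) :
    ∫⁻ y in closure G, ENNReal.ofReal (gau x s y) ∂(μHE[2] : Measure E) ≤
      ENNReal.ofReal (K ^ 2) := by
  have h1 : ∀ p ∈ G, ∀ q ∈ G, dist p q ≤ K * dist (prj b p) (prj b q) := by
    intro p hp q hq
    rw [dist_eq_norm, dist_eq_norm, ← prj_sub]
    have h2 := prj_norm b (p - q)
    have h3 : ⟪b 0, p - q⟫_ℝ ^ 2 ≤ (ε * ‖p - q‖) ^ 2 := by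
      rw [← sq_abs]; exact pow_le_pow_left₀ (abs_nonneg _) (h p hp q hq) 2
    refine (pow_le_pow_iff_left₀ (norm_nonneg _) (by positivity) two_ne_zero).1 ?_
    have h4 : (1 - ε ^ 2) * ‖p - q‖ ^ 2 ≤ ‖prj b (p - q)‖ ^ 2 := by nlinarith
    calc ‖p - q‖ ^ 2 = 1 * ‖p - q‖ ^ 2 := by ring
      _ ≤ K ^ 2 * (1 - ε ^ 2) * ‖p - q‖ ^ 2 := by gcongr
      _ = K ^ 2 * ((1 - ε ^ 2) * ‖p - q‖ ^ 2) := by ring
      _ ≤ K ^ 2 * ‖prj b (p - q)‖ ^ 2 := by gcongr
      _ = (K * ‖prj b (p - q)‖) ^ 2 := by ring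
  have h2 : ∀ p ∈ closure G, ∀ q ∈ closure G, dist p q ≤ K * dist (prj b p) (prj b q) := by
    have hc := prj_cont b
    have hcl : IsClosed {z : E × E | dist z.1 z.2 ≤ K * dist (prj b z.1) (prj b z.2)} :=
      isClosed_le (continuous_fst.dist continuous_snd)
        (continuous_const.mul ((hc.comp continuous_fst).dist (hc.comp continuous_snd)))
    intro p hp q hq
    have h5 : (p, q) ∈ closure (G ×ˢ G) := by rw [closure_prod_eq]; exact ⟨hp, hq⟩
    have h6 : G ×ˢ G ⊆ {z : E × E | dist z.1 z.2 ≤ K * dist (prj b z.1) (prj b z.2)} :=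
      fun z hz => h1 z.1 hz.1 z.2 hz.2
    have h7 := closure_minimal h6 hcl h5
    rw [Set.mem_ofPred_eq] at h7
    exact h7
  have hg : Continuous fun w : E2 =>
      (4 * Real.pi * s)⁻¹ * Real.exp (-‖w - prj b x‖ ^ 2 / (4 * s)) := by
    generalize prj b x = c
    fun_prop
  have h3 := lint_graph (prj_cont b).measurable hK h2 hg.measurable.ennreal_ofReal
  rw [gauss2 _ hs, mul_one] at h3
  refine le_trans (lintegral_mono fun y => ENNReal.ofReal_le_ofReal ?_) h3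
  unfold gau
  have h4 := prj_norm b (y - x)
  rw [prj_sub] at h4
  have h5 : ‖prj b y - prj b x‖ ^ 2 ≤ ‖y - x‖ ^ 2 := by nlinarith [sq_nonneg ⟪b 0, y - x⟫_ℝ]
  refine mul_le_mul_of_nonneg_left (Real.exp_le_exp.2 ?_) (by positivity)
  exact div_le_div_of_nonneg_right (neg_le_neg h5) (by positivity)

/-- dyadic majorant of the Gaussian -/
theorem gau_le_tsum (x : E) {s : ℝ} (hs : 0 < s) (y : E) :
    ENNReal.ofReal (gau x s y) ≤ ∑' k : ℕ, (Metric.ball x (2 ^ k * √s)).indicator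
      (fun _ => ENNReal.ofReal ((4 * Real.pi * s)⁻¹ * (512 / 16 ^ k))) y := by
  classical
  have hq : 0 < √s := Real.sqrt_pos.2 hs
  have hex : ∃ k : ℕ, dist y x < 2 ^ k * √s := by
    obtain ⟨k, hk⟩ := pow_unbounded_of_one_lt (dist y x / √s) (one_lt_two (α := ℝ))
    exact ⟨k, by rwa [div_lt_iff₀ hq] at hk⟩
  have hk := Nat.find_spec hex
  refine le_trans ?_ (ENNReal.le_tsum (Nat.find hex))
  rw [indicator_of_mem (Metric.mem_ball.2 hk)]
  refine ENNReal.ofReal_le_ofReal ?_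
  unfold gau
  gcongr
  rcases h0 : Nat.find hex with _ | j
  · have : Real.exp (-‖y - x‖ ^ 2 / (4 * s)) ≤ 1 := by
      rw [Real.exp_le_one_iff]
      exact div_nonpos_of_nonpos_of_nonneg (by simp) (by positivity)
    norm_num; linarith
  · have hj : ¬ dist y x < 2 ^ j * √s := Nat.find_min hex (by omega)
    rw [not_lt, dist_eq_norm] at hj
    have h1 : (4 : ℝ) ^ j * s ≤ ‖y - x‖ ^ 2 := by
      have := pow_le_pow_left₀ (by positivity) hj 2
      rw [mul_pow, Real.sq_sqrt hs.le, ← pow_mul, mul_comm j 2, pow_mul] at this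
      norm_num at this ⊢; exact this
    set u : ℝ := ‖y - x‖ ^ 2 / (4 * s) with hu
    have h2 : (4 : ℝ) ^ j / 4 ≤ u := by
      rw [hu, div_le_div_iff₀ (by norm_num) (by positivity)]; nlinarith
    have h3 : u ^ 2 / 2 ≤ Real.exp u := by
      have := Real.pow_div_factorial_le_exp u (le_trans (by positivity) h2) 2
      simpa using this
    have h4 : ((4 : ℝ) ^ j / 4) ^ 2 ≤ u ^ 2 := pow_le_pow_left₀ (by positivity) h2 2
    have h5 : ((4 : ℝ) ^ j) ^ 2 = 16 ^ j := by rw [← pow_mul, mul_comm j 2, pow_mul]; norm_num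
    have h6 : (16 : ℝ) ^ j / 32 ≤ Real.exp u := by
      rw [div_pow, h5] at h4; linarith
    rw [neg_div, ← hu, Real.exp_neg, inv_eq_one_div, div_le_div_iff₀ (Real.exp_pos _)
      (by positivity), pow_succ]
    linarith

/-- area ratios bound the Gaussian mass -/
theorem gau_total {μ : Measure E} {Λ : ℝ}
    (h : ∀ y r, 0 < r → μ (Metric.ball y r) ≤ ENNReal.ofReal (Λ * r ^ 2)) (x : E) {s : ℝ}
    (hs : 0 < s) : ∫⁻ y, ENNReal.ofReal (gau x s y) ∂μ ≤ ENNReal.ofReal (60 * Λ) := by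
  have hq : 0 < √s := Real.sqrt_pos.2 hs
  rcases le_or_gt Λ 0 with hΛ | hΛ
  · have : μ = 0 := by
      rw [← Measure.measure_univ_eq_zero, ← Metric.iUnion_ball_nat_succ x]
      refine measure_iUnion_null fun k => le_antisymm ?_ zero_le
      refine (h x _ (by positivity)).trans ?_
      rw [ENNReal.ofReal_eq_zero.2 (mul_nonpos_of_nonpos_of_nonneg hΛ (by positivity))]
    simp [this]
  refine (lintegral_mono (gau_le_tsum x hs)).trans ?_
  rw [lintegral_tsum fun k => (measurable_const.indicator Metric.isOpen_ball.measurableSet).aemeasurable]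
  have h1 : ∀ k : ℕ, ∫⁻ y, (Metric.ball x (2 ^ k * √s)).indicator
      (fun _ => ENNReal.ofReal ((4 * Real.pi * s)⁻¹ * (512 / 16 ^ k))) y ∂μ ≤
      ENNReal.ofReal (45 * Λ * (1 / 4) ^ k) := by
    intro k
    rw [lintegral_indicator_const Metric.isOpen_ball.measurableSet]
    refine (mul_le_mul_right (h x _ (by positivity)) _).trans ?_
    rw [← ENNReal.ofReal_mul (by positivity)]
    refine ENNReal.ofReal_le_ofReal ?_
    have h16 : (16 : ℝ) ^ k = 4 ^ k * 4 ^ k := by rw [← mul_pow]; norm_num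
    have h2 : ((2 : ℝ) ^ k * √s) ^ 2 = 4 ^ k * s := by
      rw [mul_pow, Real.sq_sqrt hs.le, ← pow_mul, mul_comm k 2, pow_mul]; norm_num
    rw [h2, h16, one_div, inv_pow]
    have h4 : (0 : ℝ) < 4 ^ k := by positivity
    have hpi := Real.pi_gt_three
    have e1 : (4 * Real.pi * s)⁻¹ * (512 / (4 ^ k * 4 ^ k)) * (Λ * (4 ^ k * s)) =
        (128 / Real.pi) * Λ * (4 ^ k)⁻¹ := by field_simp; norm_num
    rw [e1]
    have : 128 / Real.pi ≤ 45 := by rw [div_le_iff₀ Real.pi_pos]; linarith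
    gcongr
  refine (ENNReal.tsum_le_tsum h1).trans ?_
  have hsum : HasSum (fun k : ℕ => 45 * Λ * (1 / 4 : ℝ) ^ k) (45 * Λ * (1 - 1 / 4)⁻¹) :=
    (hasSum_geometric_of_lt_one (by norm_num) (by norm_num)).mul_left _
  rw [← ENNReal.ofReal_tsum_of_nonneg (fun k => by positivity) hsum.summable, hsum.tsum_eq]
  exact ENNReal.ofReal_le_ofReal (by norm_num; linarith)

theorem gau_far (x : E) {s d : ℝ} (hs : 0 < s) (hd : 0 ≤ d) {y : E} (hy : d ≤ dist y x) :
    gau x s y ≤ 2 * Real.exp (-d ^ 2 / (8 * s)) * gau x (2 * s) y := by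
  unfold gau
  rw [dist_eq_norm] at hy
  have h1 : d ^ 2 ≤ ‖y - x‖ ^ 2 := pow_le_pow_left₀ hd hy 2
  have h2 : Real.exp (-‖y - x‖ ^ 2 / (4 * s)) ≤
      Real.exp (-d ^ 2 / (8 * s)) * Real.exp (-‖y - x‖ ^ 2 / (4 * (2 * s))) := by
    rw [← Real.exp_add, Real.exp_le_exp]
    have : -‖y - x‖ ^ 2 / (4 * s) = -‖y - x‖ ^ 2 / (8 * s) + -‖y - x‖ ^ 2 / (4 * (2 * s)) := by
      field_simp; ring
    rw [this]
    gcongr
  have h3 : (4 * Real.pi * s)⁻¹ = 2 * (4 * Real.pi * (2 * s))⁻¹ := by field_simp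
  have h4 : 0 ≤ (4 * Real.pi * (2 * s))⁻¹ := by positivity
  rw [h3]
  nlinarith [mul_le_mul_of_nonneg_left h2 h4]

/-- Gaussian tail -/
theorem gau_tail {μ : Measure E} {Λ : ℝ}
    (h : ∀ y r, 0 < r → μ (Metric.ball y r) ≤ ENNReal.ofReal (Λ * r ^ 2)) (x : E) {s d : ℝ}
    (hs : 0 < s) (hd : 0 ≤ d) :
    ∫⁻ y in (Metric.ball x d)ᶜ, ENNReal.ofReal (gau x s y) ∂μ ≤
      ENNReal.ofReal (120 * Λ * Real.exp (-d ^ 2 / (8 * s))) := by
  calc ∫⁻ y in (Metric.ball x d)ᶜ, ENNReal.ofReal (gau x s y) ∂μ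
      ≤ ∫⁻ y in (Metric.ball x d)ᶜ, ENNReal.ofReal (2 * Real.exp (-d ^ 2 / (8 * s))) *
          ENNReal.ofReal (gau x (2 * s) y) ∂μ := by
        refine setLIntegral_mono' Metric.isOpen_ball.measurableSet.compl fun y hy => ?_
        rw [← ENNReal.ofReal_mul (by positivity)]
        exact ENNReal.ofReal_le_ofReal (gau_far x hs hd (by simpa using hy))
    _ ≤ ENNReal.ofReal (2 * Real.exp (-d ^ 2 / (8 * s))) *
          ∫⁻ y, ENNReal.ofReal (gau x (2 * s) y) ∂μ := by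
        rw [lintegral_const_mul _ (gau_meas _ _)]
        gcongr
        exact Measure.restrict_le_self
    _ ≤ ENNReal.ofReal (2 * Real.exp (-d ^ 2 / (8 * s))) * ENNReal.ofReal (60 * Λ) := by
        gcongr; exact gau_total h x (by positivity)
    _ = _ := by rw [← ENNReal.ofReal_mul (by positivity)]; congr 1; ring


/-- the Gaussian area as a lower integral -/
theorem Fs_eq (F : Mv) (t : ℝ) (x : E) {s : ℝ} (hs : 0 ≤ s) :
    F.Fs t x s = (∫⁻ y, ENNReal.ofReal (gau x s y) ∂F.mu t).toReal :=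
  integral_eq_lintegral_of_nonneg_ae (Eventually.of_forall (gau_nonneg x hs))
    (gau_cont x s).aestronglyMeasurable

theorem Fs_le {F : Mv} {t : ℝ} {x : E} {s c : ℝ} (hs : 0 ≤ s) (hc : 0 ≤ c)
    (h : ∫⁻ y, ENNReal.ofReal (gau x s y) ∂F.mu t ≤ ENNReal.ofReal c) : F.Fs t x s ≤ c := by
  rw [Fs_eq F t x hs]; exact ENNReal.toReal_le_of_le_ofReal hc h

theorem ofReal_Fs {F : Mv} {Λ : ℝ} (h : F.AR Λ) (t : ℝ) (x : E) {s : ℝ} (hs : 0 < s) :
    ENNReal.ofReal (F.Fs t x s) = ∫⁻ y, ENNReal.ofReal (gau x s y) ∂F.mu t := by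
  rw [Fs_eq F t x hs.le, ENNReal.ofReal_toReal
    ((gau_total (h t) x hs).trans_lt ENNReal.ofReal_lt_top).ne]


end Crest.Agent.N250.A1

end
end

-- ▼ part N250/A1/Good
section

/-!
# Row 250 (helper44): A1, good points

If, off a set of small Gaussian mass, the points of a slice near `x` have two-sided empty balls of
radius `≫ r`, the Gaussian area at `(x, r²)` is almost at most `1`.  No orientation is used.
-/

set_option autoImplicit false
open MeasureTheory Set Filter Topology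
open scoped ContDiff InnerProductSpace ENNReal NNReal
open Crest.GeometryTopology.MCF

noncomputable section

namespace Crest.Agent.N250.A1

theorem norm_n {F : Mv} (hF : F.Reg) {p : ST} (hp : p ∈ F.M) : ‖F.n p‖ = 1 := by
  obtain ⟨W, φ, hW, h⟩ := hF p hp
  rw [h.n_eq p hW hp, norm_smul, norm_inv, norm_norm,
    inv_mul_cancel₀ (norm_ne_zero_iff.2 (h.ne p hW))]

/-- the two-sided ball condition confines the slice to the outside of a double cone -/
theorem reach_inner {F : Mv} {p : ST} {ρ : ℝ} (hρ : 0 < ρ) (hn : ‖F.n p‖ = 1) (h : F.Reach p ρ)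
    {y : E} (hy : y ∈ F.sl p.2) : |⟪F.n p, y - p.1⟫_ℝ| ≤ ‖y - p.1‖ ^ 2 / (2 * ρ) := by
  obtain ⟨h1, h2⟩ := h y hy
  rw [dist_eq_norm] at h1 h2
  have e1 : y - (p.1 + ρ • F.n p) = (y - p.1) - ρ • F.n p := by abel
  have e2 : y - (p.1 - ρ • F.n p) = (y - p.1) + ρ • F.n p := by abel
  rw [e1] at h1; rw [e2] at h2
  have h3 := pow_le_pow_left₀ hρ.le h1 2
  have h4 := pow_le_pow_left₀ hρ.le h2 2
  rw [norm_sub_sq_real, inner_smul_right, norm_smul, hn, Real.norm_eq_abs, abs_of_pos hρ,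
    real_inner_comm] at h3
  rw [norm_add_sq_real, inner_smul_right, norm_smul, hn, Real.norm_eq_abs, abs_of_pos hρ,
    real_inner_comm] at h4
  rw [le_div_iff₀ (by positivity), ← abs_of_pos (show 0 < 2 * ρ by positivity), ← abs_mul, abs_le]
  constructor <;> nlinarith

/-- converse of `reach_inner` -/
theorem reach_of_inner {F : Mv} {p : ST} {ρ : ℝ} (hρ : 0 < ρ) (hn : ‖F.n p‖ = 1)
    (h : ∀ y ∈ F.sl p.2, |⟪F.n p, y - p.1⟫_ℝ| ≤ ‖y - p.1‖ ^ 2 / (2 * ρ)) : F.Reach p ρ := by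
  intro y hy
  have h1 := h y hy
  rw [le_div_iff₀ (by positivity), ← abs_of_pos (show 0 < 2 * ρ by positivity), ← abs_mul,
    abs_le] at h1
  have e1 : y - (p.1 + ρ • F.n p) = (y - p.1) - ρ • F.n p := by abel
  have e2 : y - (p.1 - ρ • F.n p) = (y - p.1) + ρ • F.n p := by abel
  rw [dist_eq_norm, dist_eq_norm, e1, e2]
  constructor
  · refine (pow_le_pow_iff_left₀ hρ.le (norm_nonneg _) two_ne_zero).1 ?_
    rw [norm_sub_sq_real, inner_smul_right, norm_smul, hn, Real.norm_eq_abs, abs_of_pos hρ,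
      real_inner_comm]
    nlinarith [h1.2]
  · refine (pow_le_pow_iff_left₀ hρ.le (norm_nonneg _) two_ne_zero).1 ?_
    rw [norm_add_sq_real, inner_smul_right, norm_smul, hn, Real.norm_eq_abs, abs_of_pos hρ,
      real_inner_comm]
    nlinarith [h1.1]

theorem reach_mono {F : Mv} {p : ST} {ρ σ : ℝ} (hσ : 0 < σ) (hσρ : σ ≤ ρ) (hn : ‖F.n p‖ = 1)
    (h : F.Reach p ρ) : F.Reach p σ :=
  reach_of_inner hσ hn fun _ hy => (reach_inner (hσ.trans_le hσρ) hn h hy).trans (by gcongr)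

theorem exists_basis₁ {n : E} (hn : ‖n‖ = 1) : ∃ b : OrthonormalBasis (Fin 3) ℝ E, b 0 = n := by
  have h : Orthonormal ℝ (({0} : Set (Fin 3)).domRestrict fun _ => n) :=
    ⟨fun _ => hn, fun i j hij => absurd (Subsingleton.elim i j) hij⟩
  obtain ⟨b, hb⟩ := h.exists_orthonormalBasis_extension_of_card_eq (by simp)
  exact ⟨b, hb 0 rfl⟩

theorem exists_basis₂ {n m : E} (hn : ‖n‖ = 1) (hm : ‖m‖ = 1) (h : ⟪n, m⟫_ℝ = 0) :
    ∃ b : OrthonormalBasis (Fin 3) ℝ E, b 0 = n ∧ b 1 = m := by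
  have h' : ⟪m, n⟫_ℝ = 0 := by rw [real_inner_comm, h]
  have ho : Orthonormal ℝ (({0, 1} : Set (Fin 3)).domRestrict ![n, m, 0]) := by
    constructor
    · rintro ⟨i, rfl | rfl⟩ <;> simpa
    · rintro ⟨i, rfl | rfl⟩ ⟨j, rfl | rfl⟩ hij <;> first | exact absurd rfl hij | simpa
  obtain ⟨b, hb⟩ := ho.exists_orthonormalBasis_extension_of_card_eq (by simp)
  exact ⟨b, hb 0 (by simp), hb 1 (by simp)⟩

/-- a set inside a thin tube has small measure -/
theorem tube {S : Set E} {Λ : ℝ} (hΛ : 0 ≤ Λ)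
    (h : ∀ y r, 0 < r → (μHE[2] : Measure E).restrict S (Metric.ball y r) ≤
      ENNReal.ofReal (Λ * r ^ 2))
    (b : OrthonormalBasis (Fin 3) ℝ E) {x p : E} {R η : ℝ} (hη : 0 < η) (hp : p ∈ Metric.ball x R)
    (hS : ∀ y ∈ S, y ∈ Metric.ball x R → |⟪b 0, y - p⟫_ℝ| ≤ η ∧ |⟪b 1, y - p⟫_ℝ| ≤ η) :
    (μHE[2] : Measure E).restrict S (Metric.ball x R) ≤ ENNReal.ofReal (4 * Λ * η * (4 * R + η)) := by
  have hR : 0 < R := Metric.pos_of_mem_ball hp
  set N : ℕ := ⌊4 * R / η⌋₊ + 1 with hN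
  have hcov : Metric.ball x R ∩ S ⊆
      ⋃ k ∈ Finset.range N, Metric.ball (p + ((k : ℝ) * η - 2 * R) • b 2) (2 * η) ∩ S := by
    rintro y ⟨hy, hyS⟩
    obtain ⟨h0, h1⟩ := hS y hyS hy
    have hd : ‖y - p‖ < 2 * R := by
      rw [← dist_eq_norm]
      linarith [dist_triangle_right y p x, Metric.mem_ball.1 hy, Metric.mem_ball.1 hp]
    have h2 : |⟪b 2, y - p⟫_ℝ| < 2 * R := by
      refine (abs_real_inner_le_norm _ _).trans_lt ?_
      rwa [b.norm_eq_one, one_mul]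
    rw [abs_lt] at h2
    set u : ℝ := (⟪b 2, y - p⟫_ℝ + 2 * R) / η with hu
    have hu0 : 0 ≤ u := div_nonneg (by linarith) hη.le
    have hk1 : (⌊u⌋₊ : ℝ) ≤ u := Nat.floor_le hu0
    have hk2 : u < ⌊u⌋₊ + 1 := Nat.lt_floor_add_one u
    have hk3 : ⌊u⌋₊ ≤ ⌊4 * R / η⌋₊ := Nat.floor_mono (by rw [hu]; gcongr; linarith)
    simp only [mem_iUnion, Finset.mem_range]
    refine ⟨⌊u⌋₊, by omega, ?_, hyS⟩
    rw [Metric.mem_ball, dist_eq_norm]
    refine (pow_lt_pow_iff_left₀ (norm_nonneg _) (by positivity) two_ne_zero).1 ?_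
    have e1 : y - (p + ((⌊u⌋₊ : ℝ) * η - 2 * R) • b 2) =
        (y - p) - ((⌊u⌋₊ : ℝ) * η - 2 * R) • b 2 := by abel
    rw [e1, ← b.sum_sq_inner_right, Fin.sum_univ_three]
    have o02 : ⟪b 0, b 2⟫_ℝ = 0 := b.orthonormal.2 (by decide)
    have o12 : ⟪b 1, b 2⟫_ℝ = 0 := b.orthonormal.2 (by decide)
    have o22 : ⟪b 2, b 2⟫_ℝ = 1 := by rw [real_inner_self_eq_norm_sq, b.norm_eq_one]; norm_num
    rw [inner_sub_right (b 0) (y - p), inner_sub_right (b 1) (y - p), inner_sub_right (b 2) (y - p),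
      inner_smul_right, inner_smul_right, inner_smul_right, o02, o12, o22]
    have e2 : ⟪b 2, y - p⟫_ℝ + 2 * R = u * η := by rw [hu]; field_simp
    have e3 : ⟪b 2, y - p⟫_ℝ - ((⌊u⌋₊ : ℝ) * η - 2 * R) * 1 = (u - ⌊u⌋₊) * η := by linarith
    rw [e3]
    have h3 : ((u - ⌊u⌋₊) * η) ^ 2 ≤ η ^ 2 :=
      pow_le_pow_left₀ (mul_nonneg (by linarith) hη.le) (by nlinarith) 2
    have h4 := sq_le_sq' (abs_le.1 h0).1 (abs_le.1 h0).2
    have h5 := sq_le_sq' (abs_le.1 h1).1 (abs_le.1 h1).2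
    nlinarith [sq_pos_of_pos hη]
  rw [Measure.restrict_apply Metric.isOpen_ball.measurableSet]
  refine (measure_mono hcov).trans ((measure_biUnion_finset_le _ _).trans ?_)
  calc ∑ k ∈ Finset.range N, (μHE[2] : Measure E)
        (Metric.ball (p + ((k : ℝ) * η - 2 * R) • b 2) (2 * η) ∩ S)
      ≤ ∑ _k ∈ Finset.range N, ENNReal.ofReal (Λ * (2 * η) ^ 2) := by
        refine Finset.sum_le_sum fun k _ => ?_
        rw [← Measure.restrict_apply Metric.isOpen_ball.measurableSet]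
        exact h _ _ (by positivity)
    _ = ENNReal.ofReal (N * (Λ * (2 * η) ^ 2)) := by
        rw [Finset.sum_const, Finset.card_range, nsmul_eq_mul,
          ENNReal.ofReal_mul (Nat.cast_nonneg N), ENNReal.ofReal_natCast]
    _ ≤ _ := by
        refine ENNReal.ofReal_le_ofReal ?_
        have h1 : (N : ℝ) ≤ 4 * R / η + 1 := by
          rw [hN]; push_cast; gcongr; exact Nat.floor_le (by positivity)
        calc (N : ℝ) * (Λ * (2 * η) ^ 2) ≤ (4 * R / η + 1) * (Λ * (2 * η) ^ 2) := by gcongr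
          _ = _ := by field_simp; ring

/-- the main part of A1: the mass of the good points in `B(x, R)` -/
theorem core {S G : Set E} {n : E → E} {Λ θ δ η K R s : ℝ} {x : E} (hΛ : 0 ≤ Λ)
    (h : ∀ y r, 0 < r → (μHE[2] : Measure E).restrict S (Metric.ball y r) ≤
      ENNReal.ofReal (Λ * r ^ 2))
    (hθ : 0 < θ) (hθ1 : θ ≤ 1) (hη : 0 < η) (hs : 0 < s) (hK : 1 ≤ K)
    (hK' : 1 ≤ K ^ 2 * (1 - (2 * θ) ^ 2)) (hδ : 3 * (δ * (2 * R)) ≤ θ * η) (hδθ : δ ≤ θ)
    (hδ0 : 0 ≤ δ) (hη' : Λ * η * (4 * R + η) ≤ 3 * s)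
    (hG : G ⊆ Metric.ball x R ∩ S) (hn : ∀ p ∈ G, ‖n p‖ = 1)
    (hc : ∀ p ∈ G, ∀ y ∈ S, y ∈ Metric.ball x R → |⟪n p, y - p⟫_ℝ| ≤ δ * ‖y - p‖) :
    ∫⁻ y in closure G ∩ Metric.ball x R, ENNReal.ofReal (gau x s y)
      ∂(μHE[2] : Measure E).restrict S ≤ ENNReal.ofReal (K ^ 2) := by
  rcases G.eq_empty_or_nonempty with rfl | ⟨p₀, hp₀⟩
  · simp
  have hd : ∀ y ∈ Metric.ball x R, ∀ p ∈ Metric.ball x R, ‖y - p‖ ≤ 2 * R := fun y hy p hp => by
    rw [← dist_eq_norm]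
    linarith [dist_triangle_right y p x, Metric.mem_ball.1 hy, Metric.mem_ball.1 hp]
  by_cases hall : ∀ p ∈ G, ‖n p₀ - ⟪n p, n p₀⟫_ℝ • n p‖ ≤ θ
  · obtain ⟨b, hb⟩ := exists_basis₁ (hn p₀ hp₀)
    have h1 : ∀ p ∈ G, ∀ q ∈ G, |⟪b 0, p - q⟫_ℝ| ≤ 2 * θ * ‖p - q‖ := by
      intro p hp q hq
      have e1 : ⟪b 0, p - q⟫_ℝ = ⟪n p₀ - ⟪n q, n p₀⟫_ℝ • n q, p - q⟫_ℝ +
          ⟪n q, n p₀⟫_ℝ * ⟪n q, p - q⟫_ℝ := by
        rw [hb, inner_sub_left, real_inner_smul_left]; ring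
      have h2 : |⟪n q, n p₀⟫_ℝ| ≤ 1 := by
        simpa [hn q hq, hn p₀ hp₀] using abs_real_inner_le_norm (n q) (n p₀)
      have h3 := hc q hq p (hG hp).2 (hG hp).1
      have h4 := (abs_real_inner_le_norm (n p₀ - ⟪n q, n p₀⟫_ℝ • n q) (p - q)).trans
        (mul_le_mul_of_nonneg_right (hall q hq) (norm_nonneg _))
      rw [e1]
      refine (abs_add_le _ _).trans ?_
      rw [abs_mul]
      have h5 : |⟪n q, n p₀⟫_ℝ| * |⟪n q, p - q⟫_ℝ| ≤ 1 * (θ * ‖p - q‖) :=
        mul_le_mul h2 (h3.trans (by gcongr)) (abs_nonneg _) zero_le_one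
      linarith
    refine le_trans ?_ (gau_graph b (zero_le_one.trans hK) hK' h1 x hs)
    refine lintegral_mono' ?_ le_rfl
    exact Measure.restrict_mono inter_subset_left Measure.restrict_le_self
  · push Not at hall
    obtain ⟨p, hp, hw⟩ := hall
    set w := n p₀ - ⟪n p, n p₀⟫_ℝ • n p with hwd
    have hw0 : 0 < ‖w‖ := hθ.trans hw
    have hpp : ⟪n p, n p⟫_ℝ = 1 := by rw [real_inner_self_eq_norm_sq, hn p hp]; norm_num
    have ho : ⟪n p, ‖w‖⁻¹ • w⟫_ℝ = 0 := by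
      rw [inner_smul_right, hwd, inner_sub_right, inner_smul_right, hpp]; ring
    have hw1 : ‖‖w‖⁻¹ • w‖ = 1 := by
      rw [norm_smul, norm_inv, norm_norm, inv_mul_cancel₀ hw0.ne']
    obtain ⟨b, hb0, hb1⟩ := exists_basis₂ (hn p hp) hw1 ho
    have hR : 0 < R := Metric.pos_of_mem_ball (hG hp).1
    have hdd : 0 ≤ δ * (2 * R) := by positivity
    have key : ∀ q ∈ G, ∀ y ∈ S, y ∈ Metric.ball x R → |⟪n q, y - q⟫_ℝ| ≤ δ * (2 * R) :=
      fun q hq y hy hyb => (hc q hq y hy hyb).trans (by gcongr; exact hd y hyb q (hG hq).1)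
    have ht := tube hΛ h b hη (hG hp).1 fun y hy hyb => by
      have h1 := key p hp y hy hyb
      have h2 := key p₀ hp₀ y hy hyb
      have h3 := key p₀ hp₀ p (hG hp).2 (hG hp).1
      refine ⟨hb0 ▸ h1.trans (by nlinarith), ?_⟩
      have h4 : |⟪n p, n p₀⟫_ℝ| ≤ 1 := by
        simpa [hn p hp, hn p₀ hp₀] using abs_real_inner_le_norm (n p) (n p₀)
      have e1 : ⟪w, y - p⟫_ℝ = ⟪n p₀, y - p₀⟫_ℝ - ⟪n p₀, p - p₀⟫_ℝ -
          ⟪n p, n p₀⟫_ℝ * ⟪n p, y - p⟫_ℝ := by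
        rw [hwd, inner_sub_left, real_inner_smul_left, ← inner_sub_right, sub_sub_sub_cancel_right]
      have h5 : |⟪n p, n p₀⟫_ℝ * ⟪n p, y - p⟫_ℝ| ≤ 1 * (δ * (2 * R)) := by
        rw [abs_mul]; exact mul_le_mul h4 h1 (abs_nonneg _) zero_le_one
      have h6 : |⟪w, y - p⟫_ℝ| ≤ θ * η := by
        rw [e1, abs_le] at *
        constructor <;> linarith [h2.1, h2.2, h3.1, h3.2, h5.1, h5.2]
      rw [hb1, real_inner_smul_left, abs_mul, abs_inv, abs_norm, inv_mul_le_iff₀ hw0]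
      exact h6.trans (by gcongr)
    calc ∫⁻ y in closure G ∩ Metric.ball x R, ENNReal.ofReal (gau x s y)
          ∂(μHE[2] : Measure E).restrict S
        ≤ ∫⁻ _y in Metric.ball x R, ENNReal.ofReal ((4 * Real.pi * s)⁻¹)
          ∂(μHE[2] : Measure E).restrict S :=
          lintegral_mono' (Measure.restrict_mono inter_subset_right le_rfl)
            fun y => ENNReal.ofReal_le_ofReal (gau_le x hs y)
      _ ≤ ENNReal.ofReal ((4 * Real.pi * s)⁻¹) * ENNReal.ofReal (4 * Λ * η * (4 * R + η)) := by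
          rw [setLIntegral_const]; gcongr
      _ ≤ _ := by
          rw [← ENNReal.ofReal_mul (by positivity)]
          refine ENNReal.ofReal_le_ofReal ?_
          rw [inv_mul_le_iff₀ (by positivity)]
          have := Real.pi_gt_three
          have h1 : 1 ≤ K ^ 2 := one_le_pow₀ hK
          calc 4 * Λ * η * (4 * R + η) ≤ 4 * 3 * s * 1 := by linarith
            _ ≤ _ := by gcongr

/-- **A1** (lower integral form) -/
theorem good_lint (Λ e : ℝ) (he : 0 < e) : ∃ L Lam : ℝ, 1 ≤ L ∧ 1 ≤ Lam ∧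
    ∀ (F : Mv) (t : ℝ) (x : E) (r : ℝ) (B : Set E), F.AR Λ → 0 < r →
      (∀ y ∈ F.sl t, dist y x < L * r → y ∉ B → ‖F.n (y, t)‖ = 1 ∧ F.Reach (y, t) (Lam * r)) →
      ∫⁻ y, ENNReal.ofReal (gau x (r ^ 2) y) ∂F.mu t ≤ ENNReal.ofReal (1 + 2 * e) +
        ∫⁻ y in B ∩ Metric.ball x (L * r), ENNReal.ofReal (gau x (r ^ 2) y) ∂F.mu t := by
  set Λ' := max Λ 1 with hΛ'
  have hΛ1 : 1 ≤ Λ' := le_max_right _ _
  -- the radius
  obtain ⟨L, hL1, hL⟩ : ∃ L : ℝ, 1 ≤ L ∧ 120 * Λ' * Real.exp (-L ^ 2 / 8) ≤ e := by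
    refine ⟨max 1 (960 * Λ' / e), le_max_left _ _, ?_⟩
    set L := max 1 (960 * Λ' / e)
    have h1 : 1 ≤ L := le_max_left _ _
    have h2 : 960 * Λ' / e ≤ L := le_max_right _ _
    rw [div_le_iff₀ he] at h2
    have h3 := Real.add_one_le_exp (L ^ 2 / 8)
    rw [neg_div, Real.exp_neg, ← div_eq_mul_inv, div_le_iff₀ (Real.exp_pos _)]
    nlinarith [mul_le_mul_of_nonneg_left h3 he.le, mul_nonneg he.le (mul_nonneg (sub_nonneg.2 h1)
      (zero_le_one.trans h1))]
  set θ : ℝ := min (1 / 2) (e / (2 * (1 + e))) with hθd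
  have hθ : 0 < θ := lt_min (by norm_num) (by positivity)
  have hθ1 : θ ≤ 1 / 2 := min_le_left _ _
  have hθ2 : θ ≤ e / (2 * (1 + e)) := min_le_right _ _
  set η₀ : ℝ := (Λ' * (4 * L + 1))⁻¹ with hη₀d
  have hη₀ : 0 < η₀ := by positivity
  have hη₁ : η₀ ≤ 1 := inv_le_one_of_one_le₀ (by nlinarith)
  set Lam : ℝ := 6 * L ^ 2 / (θ * η₀) with hLam
  have hθη : θ * η₀ ≤ 1 := by nlinarith
  have hLL : L ^ 2 ≤ Lam * (θ * η₀) / 6 := by rw [hLam]; field_simp; rfl
  have hLam1 : 1 ≤ Lam := by rw [hLam, le_div_iff₀ (by positivity)]; nlinarith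
  refine ⟨L, Lam, hL1, hLam1, fun F t x r B hA hr hB => ?_⟩
  have hA' : ∀ y ρ, 0 < ρ → F.mu t (Metric.ball y ρ) ≤ ENNReal.ofReal (Λ' * ρ ^ 2) :=
    fun y ρ hρ => (hA t y ρ hρ).trans (ENNReal.ofReal_le_ofReal (by gcongr; exact le_max_left _ _))
  set G : Set E := (Metric.ball x (L * r) ∩ F.sl t) \ B with hG
  have hK : 1 ≤ √(1 + e) := Real.one_le_sqrt.2 (by linarith)
  have hK2 : √(1 + e) ^ 2 = 1 + e := Real.sq_sqrt (by linarith)
  have h1 := core (S := F.sl t) (G := G) (n := fun y => F.n (y, t)) (x := x) (R := L * r)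
    (s := r ^ 2) (δ := L / Lam) (η := η₀ * r) (zero_le_one.trans hΛ1) hA' hθ (by linarith)
    (by positivity) (by positivity) hK
    (by
      rw [hK2]
      rw [le_div_iff₀ (by positivity)] at hθ2
      nlinarith [mul_nonneg hθ.le (sub_nonneg.2 hθ1), mul_nonneg (mul_nonneg hθ.le
        (sub_nonneg.2 hθ1)) he.le])
    (by
      have : 3 * (L / Lam * (2 * (L * r))) = 6 * L ^ 2 / Lam * r := by field_simp; norm_num
      rw [this, ← mul_assoc]
      gcongr
      rw [div_le_iff₀ (by positivity)]; linarith)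
    (by
      rw [div_le_iff₀ (by positivity)]
      have : Lam * (θ * η₀) ≤ Lam * (θ * 1) := by gcongr
      nlinarith)
    (by positivity)
    (by
      have h2 : Λ' * η₀ * (4 * L + 1) = 1 := by rw [hη₀d]; field_simp
      have h3 : Λ' * η₀ * (4 * L + η₀) ≤ 1 := by rw [← h2]; gcongr
      calc Λ' * (η₀ * r) * (4 * (L * r) + η₀ * r) = Λ' * η₀ * (4 * L + η₀) * r ^ 2 := by ring
        _ ≤ 3 * r ^ 2 := by gcongr; linarith)
    sdiff_subset (fun p hp => (hB p hp.1.2 hp.1.1 hp.2).1)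
    (by
      intro p hp y hy hyb
      obtain ⟨h2, h3⟩ := hB p hp.1.2 hp.1.1 hp.2
      refine (reach_inner (by positivity) h2 h3 hy).trans ?_
      have h4 : ‖y - p‖ ≤ 2 * (L * r) := by
        rw [← dist_eq_norm]
        linarith [dist_triangle_right y p x, Metric.mem_ball.1 hyb, Metric.mem_ball.1 hp.1.1]
      calc ‖y - p‖ ^ 2 / (2 * (Lam * r)) = ‖y - p‖ / (2 * (Lam * r)) * ‖y - p‖ := by ring
        _ ≤ 2 * (L * r) / (2 * (Lam * r)) * ‖y - p‖ := by gcongr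
        _ = L / Lam * ‖y - p‖ := by congr 1; field_simp)
  rw [hK2] at h1
  have h2 := gau_tail hA' x (s := r ^ 2) (d := L * r) (by positivity) (by positivity)
  have h2' : -(L * r) ^ 2 / (8 * r ^ 2) = -L ^ 2 / 8 := by field_simp
  rw [h2'] at h2
  have hb : MeasurableSet (Metric.ball x (L * r)) := Metric.isOpen_ball.measurableSet
  have hc : MeasurableSet (closure G) := isClosed_closure.measurableSet
  have h3 : (F.mu t).restrict ((closure G)ᶜ ∩ Metric.ball x (L * r)) ≤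
      (F.mu t).restrict (B ∩ Metric.ball x (L * r)) := by
    rw [Measure.le_iff]
    intro A hA
    rw [Measure.restrict_apply hA, Measure.restrict_apply hA, Mv.mu,
      Measure.restrict_apply (hA.inter (hc.compl.inter hb))]
    refine le_trans (measure_mono ?_) (Measure.le_restrict_apply _ _)
    rintro y ⟨⟨hy1, hy2, hy3⟩, hy4⟩
    refine ⟨⟨hy1, ?_, hy3⟩, hy4⟩
    by_contra hy5
    exact hy2 (subset_closure ⟨⟨hy3, hy4⟩, hy5⟩)
  rw [← lintegral_add_compl _ hb, ← lintegral_add_compl _ hc (μ := (F.mu t).restrict _),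
    Measure.restrict_restrict hc, Measure.restrict_restrict hc.compl]
  calc _ ≤ ENNReal.ofReal (1 + e) + (∫⁻ y in B ∩ Metric.ball x (L * r),
        ENNReal.ofReal (gau x (r ^ 2) y) ∂F.mu t) + ENNReal.ofReal e :=
        add_le_add (add_le_add h1 (lintegral_mono' h3 le_rfl))
          (h2.trans (ENNReal.ofReal_le_ofReal hL))
    _ = _ := by
        rw [add_right_comm, ← ENNReal.ofReal_add (by positivity) he.le]
        congr 2; ring

/-- **A1**: good points off a set of Gaussian mass `≤ e` give Gaussian area `≤ 1 + 3 e` -/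
theorem good (Λ e : ℝ) (he : 0 < e) : ∃ L Lam : ℝ, 1 ≤ L ∧ 1 ≤ Lam ∧
    ∀ (F : Mv) (t : ℝ) (x : E) (r : ℝ) (B : Set E), F.Reg → F.AR Λ → 0 < r →
      (∀ y ∈ F.sl t, dist y x < L * r → y ∉ B → F.Reach (y, t) (Lam * r)) →
      ∫⁻ y in B ∩ Metric.ball x (L * r), ENNReal.ofReal (gau x (r ^ 2) y) ∂F.mu t ≤
        ENNReal.ofReal e →
      F.Fs t x (r ^ 2) ≤ 1 + 3 * e := by
  obtain ⟨L, Lam, hL, hLam, h⟩ := good_lint Λ e he
  refine ⟨L, Lam, hL, hLam, fun F t x r B hF hA hr hB hm => ?_⟩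
  refine Fs_le (by positivity) (by positivity) ?_
  refine (h F t x r B hA hr fun y hy h1 h2 => ⟨norm_n hF hy, hB y hy h1 h2⟩).trans ?_
  refine (add_le_add le_rfl hm).trans ?_
  rw [← ENNReal.ofReal_add (by positivity) he.le]
  exact ENNReal.ofReal_le_ofReal (by linarith)


end Crest.Agent.N250.A1

end
end

-- ▼ part N250/A/W1

/-!
# Row 250, block A (helper44): White's theorem from one slice, alternative I
-/

set_option autoImplicit false
open MeasureTheory Set Filter Topology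
open scoped ContDiff InnerProductSpace ENNReal
open Crest.GeometryTopology.MCF

noncomputable section

namespace Crest.Agent.N250.A

theorem w1_ptw {y y' x : E} {r s κ L : ℝ} (hr : 0 < r) (hκ : 0 ≤ κ) (hκ1 : κ ≤ 1 / 2)
    (hy : dist y' y ≤ κ * r) (hs : (1 - κ) * r ^ 2 ≤ s) (hs' : s ≤ r ^ 2) (hx : dist x y ≤ L * r) :
    gau y' s x ≤ (1 - κ)⁻¹ * Real.exp (κ * L / 2) * gau y (r ^ 2) x := by
  have h0 : 0 < (1 - κ) * r ^ 2 := mul_pos (by linarith) (by positivity)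
  have hs0 : 0 < s := h0.trans_le hs
  unfold gau
  have h1 : (4 * Real.pi * s)⁻¹ ≤ (1 - κ)⁻¹ * (4 * Real.pi * r ^ 2)⁻¹ := by
    rw [← mul_inv]
    refine inv_anti₀ (by have : 0 < 1 - κ := by linarith
                         positivity) ?_
    calc (1 - κ) * (4 * Real.pi * r ^ 2) = 4 * Real.pi * ((1 - κ) * r ^ 2) := by ring
      _ ≤ _ := by gcongr
  have h2 : ‖x - y‖ ^ 2 - 2 * (κ * L) * r ^ 2 ≤ ‖x - y'‖ ^ 2 := by
    have e : x - y' = (x - y) - (y' - y) := by abel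
    rw [e, norm_sub_sq_real (x - y)]
    have h3 := real_inner_le_norm (x - y) (y' - y)
    rw [dist_eq_norm] at hy hx
    have h4 : ‖x - y‖ * ‖y' - y‖ ≤ L * r * (κ * r) :=
      mul_le_mul hx hy (norm_nonneg _) ((norm_nonneg _).trans hx)
    nlinarith [sq_nonneg ‖y' - y‖]
  have h3 : Real.exp (-‖x - y'‖ ^ 2 / (4 * s)) ≤
      Real.exp (κ * L / 2) * Real.exp (-‖x - y‖ ^ 2 / (4 * r ^ 2)) := by
    rw [← Real.exp_add, Real.exp_le_exp]
    have h4 : -‖x - y'‖ ^ 2 / (4 * s) ≤ -‖x - y'‖ ^ 2 / (4 * r ^ 2) := by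
      rw [neg_div, neg_div, neg_le_neg_iff]
      gcongr
    refine h4.trans ?_
    rw [div_le_iff₀ (by positivity)]
    have : (κ * L / 2 + -‖x - y‖ ^ 2 / (4 * r ^ 2)) * (4 * r ^ 2) =
        2 * (κ * L) * r ^ 2 - ‖x - y‖ ^ 2 := by field_simp; ring
    rw [this]; linarith
  calc _ ≤ ((1 - κ)⁻¹ * (4 * Real.pi * r ^ 2)⁻¹) *
        (Real.exp (κ * L / 2) * Real.exp (-‖x - y‖ ^ 2 / (4 * r ^ 2))) :=
        mul_le_mul h1 h3 (Real.exp_pos _).le ((by positivity : (0 : ℝ) ≤ _).trans h1)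
    _ = _ := by ring

/-- the Gaussian area is almost unchanged when centre and scale move a little -/
theorem Fs_shift (Λ e : ℝ) (he : 0 < e) : ∃ κ : ℝ, 0 < κ ∧ κ ≤ 1 / 2 ∧
    ∀ (F : Mv) (t : ℝ) (y y' : E) (r s : ℝ), F.AR Λ → 0 < r → dist y' y ≤ κ * r →
      (1 - κ) * r ^ 2 ≤ s → s ≤ r ^ 2 → F.Fs t y (r ^ 2) ≤ 1 + e → F.Fs t y' s ≤ 1 + 3 * e := by
  set Λ' := max Λ 1 with hΛ'
  have hΛ1 : 1 ≤ Λ' := le_max_right _ _
  obtain ⟨L, hL1, hL⟩ : ∃ L : ℝ, 1 ≤ L ∧ 120 * Λ' * Real.exp (-L ^ 2 / 8) ≤ e := by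
    refine ⟨max 1 (960 * Λ' / e), le_max_left _ _, ?_⟩
    set L := max 1 (960 * Λ' / e)
    have h1 : 1 ≤ L := le_max_left _ _
    have h2 : 960 * Λ' / e ≤ L := le_max_right _ _
    rw [div_le_iff₀ he] at h2
    have h3 := Real.add_one_le_exp (L ^ 2 / 8)
    rw [neg_div, Real.exp_neg, ← div_eq_mul_inv, div_le_iff₀ (Real.exp_pos _)]
    nlinarith [mul_le_mul_of_nonneg_left h3 he.le, mul_nonneg he.le (mul_nonneg (sub_nonneg.2 h1)
      (zero_le_one.trans h1))]
  have hc : ContinuousAt (fun κ : ℝ => (1 - κ)⁻¹ * Real.exp (κ * (L + 1) / 2) * (1 + e)) 0 := by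
    refine ContinuousAt.mul (ContinuousAt.mul (ContinuousAt.inv₀ (by fun_prop) (by norm_num))
      (by fun_prop)) continuousAt_const
  have hev : ∀ᶠ κ : ℝ in 𝓝 0, (1 - κ)⁻¹ * Real.exp (κ * (L + 1) / 2) * (1 + e) < 1 + 2 * e :=
    hc.eventually_lt continuousAt_const (by simp; linarith)
  obtain ⟨κ, ⟨hκ, hκ1⟩, hκ0⟩ := (((hev.and (eventually_lt_nhds (show (0 : ℝ) < 1 / 2 by
    norm_num))).filter_mono nhdsWithin_le_nhds).and (self_mem_nhdsWithin (s := Ioi 0))).exists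
  have hκ0' : 0 < κ := hκ0
  refine ⟨κ, hκ0', hκ1.le, fun F t y y' r s hA hr hy hs hs' hF => ?_⟩
  have hs0 : 0 < s := (mul_pos (by linarith) (by positivity)).trans_le hs
  have hA' : ∀ z ρ, 0 < ρ → F.mu t (Metric.ball z ρ) ≤ ENNReal.ofReal (Λ' * ρ ^ 2) :=
    fun z ρ hρ => (hA t z ρ hρ).trans (ENNReal.ofReal_le_ofReal (by gcongr; exact le_max_left _ _))
  refine A1.Fs_le hs0.le (by positivity) ?_
  have hb : MeasurableSet (Metric.ball y' (L * r)) := Metric.isOpen_ball.measurableSet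
  have hq : 0 ≤ (1 - κ)⁻¹ * Real.exp (κ * (L + 1) / 2) :=
    mul_nonneg (inv_nonneg.2 (by linarith)) (Real.exp_pos _).le
  have h1 : ∫⁻ x in Metric.ball y' (L * r), ENNReal.ofReal (gau y' s x) ∂F.mu t ≤
      ENNReal.ofReal (1 + 2 * e) := by
    calc ∫⁻ x in Metric.ball y' (L * r), ENNReal.ofReal (gau y' s x) ∂F.mu t
        ≤ ∫⁻ x in Metric.ball y' (L * r), ENNReal.ofReal ((1 - κ)⁻¹ * Real.exp (κ * (L + 1) / 2)) *
            ENNReal.ofReal (gau y (r ^ 2) x) ∂F.mu t := by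
          refine setLIntegral_mono' hb fun x hx => ?_
          rw [← ENNReal.ofReal_mul hq]
          refine ENNReal.ofReal_le_ofReal (w1_ptw hr hκ0'.le hκ1.le hy hs hs' ?_)
          have := dist_triangle x y' y
          have h2 := Metric.mem_ball.1 hx
          nlinarith
      _ ≤ ENNReal.ofReal ((1 - κ)⁻¹ * Real.exp (κ * (L + 1) / 2)) *
            ∫⁻ x, ENNReal.ofReal (gau y (r ^ 2) x) ∂F.mu t := by
          rw [lintegral_const_mul _ (A1.gau_meas _ _)]
          gcongr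
          exact Measure.restrict_le_self
      _ ≤ ENNReal.ofReal ((1 - κ)⁻¹ * Real.exp (κ * (L + 1) / 2)) * ENNReal.ofReal (1 + e) := by
          rw [← A1.ofReal_Fs hA t y (by positivity)]
          gcongr
      _ ≤ _ := by
          rw [← ENNReal.ofReal_mul hq]
          exact ENNReal.ofReal_le_ofReal hκ.le
  have h2 := A1.gau_tail hA' y' hs0 (d := L * r) (by positivity)
  have h3 : 120 * Λ' * Real.exp (-(L * r) ^ 2 / (8 * s)) ≤ e := by
    refine le_trans ?_ hL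
    gcongr 120 * Λ' * Real.exp ?_
    rw [neg_div, neg_div, neg_le_neg_iff, div_le_div_iff₀ (by norm_num) (by positivity)]
    nlinarith [mul_le_mul_of_nonneg_left hs' (sq_nonneg L)]
  rw [← lintegral_add_compl _ hb]
  refine (add_le_add h1 (h2.trans (ENNReal.ofReal_le_ofReal h3))).trans ?_
  rw [← ENNReal.ofReal_add (by positivity) he.le]
  exact ENNReal.ofReal_le_ofReal (by linarith)

theorem w1S_of (hW : WhiteS) (hH : HuiskenS) : W1S := by
  intro Λ
  obtain ⟨ε, c, hε, hc, hW⟩ := hW Λ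
  obtain ⟨κ, hκ, hκ1, hs⟩ := Fs_shift Λ (ε / 3) (by positivity)
  refine ⟨ε / 3, min c (1 / 2) * κ, by positivity, by positivity, ?_⟩
  intro F a b t y r hF hr hat hb hFs p hp
  have hr2 : 0 < r ^ 2 := by positivity
  have hk : (κ * r) ^ 2 ≤ κ * r ^ 2 / 2 := by
    rw [mul_pow]; nlinarith [mul_le_mul_of_nonneg_right hκ1 (mul_pos hκ hr2).le]
  have hk' : κ * r ^ 2 ≤ r ^ 2 / 2 := by nlinarith
  have hm : 0 < min c (1 / 2) * κ * r := by positivity
  have hm1 : min c (1 / 2) * κ * r ≤ c * (κ * r) := by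
    rw [mul_assoc]; gcongr; exact min_le_left _ _
  have hm2 : min c (1 / 2) * κ * r ≤ κ * r / 2 := by
    rw [mul_assoc, div_eq_inv_mul (κ * r), ← one_div]; gcongr; exact min_le_right _ _
  have h1 := hW F a b (y, t + r ^ 2) (κ * r) hF (by positivity) (by dsimp only; linarith) hb
    (fun Y hY => by
      obtain ⟨hY1, hY2, hY3⟩ := hY
      dsimp only at hY1 hY2 hY3
      have h2 := (hH F _ Λ isOpen_Ioo hF Y t (Y.2 - (κ * r) ^ 2) (by linarith)
        (by linarith [sq_pos_of_pos (mul_pos hκ hr)]) (fun u hu =>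
          ⟨hat.trans_le hu.1, by linarith [hu.2, sq_pos_of_pos (mul_pos hκ hr)]⟩)).1
      rw [sub_sub_cancel] at h2
      have h3 := hs F t y Y.1 r (Y.2 - t) hF.ar hr (Metric.mem_ball.1 hY1).le (by nlinarith)
        (by linarith) hFs
      unfold Mv.Fg
      linarith) p ⟨hp.1, Metric.ball_subset_ball hm2 hp.2.1, by
        have := pow_le_pow_left₀ hm.le hm2 2
        have h4 := hp.2.2.1
        dsimp only at h4 ⊢
        linarith, hp.2.2.2⟩
  exact A1.reach_mono hm hm1 (A1.norm_n hF.mcf.1 hp.1) h1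

theorem altIS_of (hK : KIS) (hA : A1S) (hW : W1S) (hR : ReachAS) : AltIS := by
  intro Λ K η hη
  obtain ⟨e, c, he, hc, hW⟩ := hW Λ
  obtain ⟨L, Λ', d, hL, hΛ', hd, hA⟩ := hA Λ e he
  obtain ⟨Λ₀, R₀, hΛ₀, hK⟩ := hK (max Λ 0) L d Λ' ((|K| + 1 + 2 / η) / c) (le_max_right _ _) hL hd
    hΛ'
  refine ⟨Λ₀, R₀, hΛ₀, fun F ν σ G ε B R hR₀ hC hk x hx hxK => ?_⟩
  haveI := hC.fin
  obtain ⟨r, hr1, hr2, hr3, hm⟩ := hK ν σ R hC.σ_pos hC.σ_le hR₀ hC.pot_le hk
  obtain ⟨a, b, ha, hb, hF⟩ := hC.fl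
  have hr : 0 < r := by linarith
  have hrR : r ≤ R := le_trans (by nlinarith) hr3
  have hr4 : r ^ 2 ≤ R ^ 2 := pow_le_pow_left₀ hr.le hrR 2
  have h1 := hA F (-r ^ 2) 0 r {y | rad ν σ (y, -r ^ 2) < Λ' * r} hF.mcf.1 hF.ar hr
    (fun z hz hzL hzZ => by
      have h2 := (hC.good (z, -r ^ 2) hz (by rw [dist_zero_right] at hzL; exact hzL.le.trans hr3)
        ⟨by dsimp only; linarith, by dsimp only; nlinarith⟩).1
      exact A1.reach_mono (by positivity) (not_lt.1 hzZ) (A1.norm_n hF.mcf.1 hz) h2)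
    (hm _ fun y ρ hρ => (hF.ar _ y ρ hρ).trans
      (ENNReal.ofReal_le_ofReal (by gcongr; exact le_max_left _ _)))
  rw [div_le_iff₀ hc, mul_comm r c] at hr2
  have hη2 : 0 < 2 / η := by positivity
  have hcr : 1 ≤ c * r := by linarith [abs_nonneg K]
  have h2 := hW F a b (-r ^ 2) 0 r hF hr (by nlinarith [sq_nonneg R]) (by linarith) h1 (x, 0)
    ⟨hx, by
      rw [Metric.mem_ball, dist_zero_right]
      linarith [le_abs_self K], by
      dsimp only
      linarith [sq_pos_of_pos (mul_pos hc hr)], by dsimp only; linarith⟩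
  refine (hR F hF.mcf.1 _ hx _ (mul_pos hc hr) h2).2.trans ?_
  rw [div_le_iff₀ (by positivity)]
  have h3 : 2 / η ≤ c * r := by linarith [abs_nonneg K]
  rw [div_le_iff₀ hη] at h3
  nlinarith [mul_le_mul_of_nonneg_left hcr (mul_pos (mul_pos hc hr) hη).le]

end Crest.Agent.N250.A

end
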